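import Crest.Agent.N337.M.Comp

/-!
# Row 337, the chain (helper56): the induction over the levels

`In j` = class at the entry of level `j`, `Pre j` = class before the peel, `Post j` = after it.
-/

set_option autoImplicit false
set_option linter.unusedSectionVars false

namespace Crest.Agent.N337.M

open Finset Crest.Agent.N337.Op Crest.Agent.N337.Gas Crest.Agent.N337.A

variable {Λ : Type} [Fintype Λ] [DecidableEq Λ] {T : ℕ} [NeZero T]

/-- constant of one stage. -/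
def c1 : ℝ := 4000
/-- constant of the local Poincaré inequality. -/
def c3 : ℝ := c1 * (1 + c1 * (1 + c1))

/-- the levels: inverse fields, classes, block sizes, errors. -/
structure Lev (T : ℕ) (Λ : Type) where
  Tf : ℕ → ℝ
  In : ℕ → Cfg T Λ → Prop
  Pre : ℕ → Cfg T Λ → Prop
  Post : ℕ → Cfg T Λ → Prop
  σ : ℕ → ℕ
  e : ℕ → ℝ

namespace Lev
variable (V : Lev T Λ) (G : Bs T Λ)

/-- fugacity of level `j`. -/
noncomputable def y (j : ℕ) : ℝ := if j = 0 then 0 else Real.exp (-1 / V.Tf j)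

/-- `LP_j`. -/
def LP (j : ℕ) : Prop := G.LP (yw (V.y j)) (V.In j) (V.σ j) c3 30 (33 * V.e j)

/-- admissible total weights of level `j + 1`: `D = W - y_j ^ k` is the top colour. -/
def AdmW (j : ℕ) (W : Lp T Λ → ℝ) : Prop :=
  ∀ g, 0 ≤ W g - yw (V.y j) g ∧ W g - yw (V.y j) g ≤ yw (V.y (j + 1)) g ∧
    (W g - yw (V.y j) g) * V.Tf j ≤ 3 * wd g

/-- what has to be delivered at the level `j + 1`. -/
structure Step (j : ℕ) : Prop where
  e0 : 0 ≤ V.e (j + 1)
  anti : Cfg.Anti (V.Post (j + 1))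
  /-- entry: nothing (`j + 1 ≡ 1`), excision (`≡ 2`), box move (`≡ 0` mod 3). -/
  ent : V.LP G j → (∀ s, V.In (j + 1) s → V.Pre (j + 1) s) ∨
    G.Stg (yw (V.y (j + 1))) (V.y (j + 1)) (V.In (j + 1)) (V.Pre (j + 1)) (V.σ (j + 1)) c1 10
      (V.e (j + 1))
  lad : V.LP G j → ∀ W, V.AdmW j W → G.LadH W (V.y j) (V.Pre (j + 1)) (V.Post (j + 1)) 2
  stepH : G.StepH (yw (V.y (j + 1))) (V.y j) (V.Pre (j + 1)) (V.Post (j + 1)) (V.e (j + 1) / 10)
  /-- the closed box move of the medium. -/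
  fin : G.LP (yw (V.y j)) (V.Post (j + 1)) (V.σ (j + 1)) c1 10 (V.e (j + 1))

variable {V G}

lemma y_nn (j : ℕ) : 0 ≤ V.y j := by
  unfold y; split_ifs; exacts [le_rfl, (Real.exp_pos _).le]

lemma y_le_one (h : ∀ j, 0 ≤ V.Tf j) (j : ℕ) : V.y j ≤ 1 := by
  unfold y; split_ifs
  · exact zero_le_one
  · exact Real.exp_le_one_iff.2 (div_nonpos_of_nonpos_of_nonneg (by norm_num) (h j))

end Lev

lemma yw_eq (y : ℝ) (g : Lp T Λ) : yw y g = y ^ wd g := by
  classical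
  unfold yw ub Top.bt wd
  rw [prod_ite, prod_const_one, mul_one, prod_const]
  congr 1
  refine (card_bij (fun x _ => ((0 : Fin T), x)) (fun x hx => ?_) (fun x _ z _ h => ?_)
    fun v hv => ?_).symm
  · simpa using hx
  · exact (Prod.ext_iff.1 h).2
  · obtain ⟨h1, h2⟩ := mem_filter.1 hv
    obtain ⟨a, b⟩ := v
    simp only at h2
    subst h2
    exact ⟨b, by simpa using h1, rfl⟩

namespace Lev
variable {V : Lev T Λ} {G : Bs T Λ}

/-- the untilted weight is admissible. -/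
lemma admW_yw {j : ℕ} (h0 : V.Tf 0 = 0) (h : ∀ j, 0 ≤ V.Tf j) (hy : V.y j ≤ V.y (j + 1)) :
    V.AdmW j (yw (V.y (j + 1))) := fun g => by
  simp only [yw_eq]
  have a1 := pow_le_pow_left₀ (V.y_nn j) hy (wd g)
  have a2 := pow_nonneg (V.y_nn j) (wd g)
  have a3 : V.y (j + 1) ^ wd g ≤ 1 := pow_le_one₀ (V.y_nn _) (y_le_one h _)
  refine ⟨by linarith, by linarith, ?_⟩
  rcases (h j).eq_or_lt with h1 | h1
  · rw [← h1]; simp
  have hj : j ≠ 0 := fun e => by rw [e, h0] at h1; exact lt_irrefl _ h1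
  have a4 : 1 - wd g / V.Tf j ≤ V.y j ^ wd g := by
    rw [y, if_neg hj, ← Real.exp_nat_mul]
    have := Real.add_one_le_exp (wd g * (-1 / V.Tf j))
    rwa [show (wd g : ℝ) * (-1 / V.Tf j) + 1 = 1 - wd g / V.Tf j by ring] at this
  have a5 : (V.y (j + 1) ^ wd g - V.y j ^ wd g) ≤ wd g / V.Tf j := by linarith
  have a6 := (le_div_iff₀ h1).1 a5
  have a7 : (0 : ℝ) ≤ wd g := Nat.cast_nonneg _
  linarith

/-- peel and closed box move. -/
lemma low (hP : PeelStmt) (hM : MonoStmt) (hG : G.Ok) (h : ∀ j, 0 ≤ V.Tf j) {j : ℕ}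
    (S : V.Step G j) {W : Lp T Λ → ℝ} (hW : ∀ g, 0 ≤ W g) {In : Cfg T Λ → Prop}
    (hL : G.LadH W (V.y j) In (V.Post (j + 1)) 2)
    (hS : G.StepH W (V.y j) In (V.Post (j + 1)) (V.e (j + 1) / 10)) :
    G.LP W In (V.σ (j + 1)) (c1 * (1 + c1)) 20 (12 * V.e (j + 1)) := by
  have e0 := S.e0
  have a1 := hM _ _ G W _ In In _ _ _ (V.σ (j + 1)) _ _ _ c1 10 (V.e (j + 1)) hG hW (fun _ h => h)
    (fun _ h => h) le_rfl (by norm_num [c1]) le_rfl (le_of_eq (by ring))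
    (hP _ _ G W _ _ 2 In _ (V.σ (j + 1)) hG (V.y_nn j) (y_le_one h j) (by norm_num) le_rfl S.anti
      hL hS)
  have a2 := comp _ _ G W _ _ _ _ _ _ _ _ _ _ _ _ hG hW (by norm_num [c1]) (by norm_num [c1])
    (by norm_num) e0 e0 a1 S.fin
  exact hM _ _ G W _ In In _ _ _ _ _ _ _ _ _ _ hG hW (fun _ h => h) (fun _ h => h) le_rfl le_rfl
    (by norm_num) (le_of_eq (by ring)) a2

/-- **the induction over the levels.** -/
theorem lp (hP : PeelStmt) (hM : MonoStmt) (hZ : ZeroStmt) (hG : G.Ok) (h0 : V.Tf 0 = 0)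
    (h : ∀ j, 0 ≤ V.Tf j) (hy : ∀ j, V.y j ≤ V.y (j + 1)) (e0 : 0 ≤ V.e 0) :
    ∀ J, (∀ j < J, V.Step G j) → V.LP G J := by
  intro J
  induction J with
  | zero =>
    intro _
    have : V.y 0 = 0 := if_pos rfl
    rw [LP, this]
    exact hZ _ _ G _ _ _ _ _ hG (by norm_num [c3, c1]) (by norm_num) (by positivity)
  | succ j ih =>
    intro hS
    have L := ih fun i hi => hS i (by omega)
    have S := hS j (by omega)
    have hW := yw_nn (T := T) (Λ := Λ) (V.y_nn (j + 1))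
    have a := low hP hM hG h S hW (S.lad L _ (admW_yw h0 h (hy j))) S.stepH
    have e1 := S.e0
    rcases S.ent L with b | b
    · exact hM _ _ G _ _ _ _ _ _ _ _ _ _ _ _ _ _ hG hW b (fun _ h => h) le_rfl
        (by norm_num [c3, c1]) (by norm_num) (by linarith) a
    · have := comp _ _ G _ _ _ _ _ _ _ _ _ _ _ _ _ hG hW (by norm_num [c1]) (by norm_num [c1])
        (by norm_num) e1 (by positivity) b a
      exact hM _ _ G _ _ _ _ _ _ _ _ _ _ _ _ _ _ hG hW (fun _ h => h) (fun _ h => h) le_rfl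
        le_rfl (by norm_num) (le_of_eq (by ring)) this

/-- **the top**: an admissible weight of level `J + 1` in one configuration. -/
theorem top (hP : PeelStmt) (hM : MonoStmt) (hZ : ZeroStmt) (hG : G.Ok) (h0 : V.Tf 0 = 0)
    (h : ∀ j, 0 ≤ V.Tf j) (hy : ∀ j, V.y j ≤ V.y (j + 1)) (e0 : 0 ≤ V.e 0) {J : ℕ}
    (hS : ∀ j ≤ J, V.Step G j) {W : Lp T Λ → ℝ} (hW : V.AdmW J W) {s : Cfg T Λ}
    (hs : V.Pre (J + 1) s)
    (hH : G.StepH W (V.y J) (fun s' => s' = s) (V.Post (J + 1)) (V.e (J + 1) / 10)) :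
    G.LP W (fun s' => s' = s) (V.σ (J + 1)) (c1 * (1 + c1)) 20 (12 * V.e (J + 1)) :=
  low hP hM hG h (hS J le_rfl) (fun g => by linarith [(hW g).1, yw_nn (V.y_nn J) g])
    (fun s' v e => (hS J le_rfl).lad (lp hP hM hZ hG h0 h hy e0 J fun j hj => hS j hj.le) W hW s' v
      (e ▸ hs)) hH

end Lev

end Crest.Agent.N337.M
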