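import Crest.Agent.N337.M.Defs
import Crest.Agent.N337.Pc.Peel

/-!
# Row 337, the chain: the peel as a stage
-/

set_option autoImplicit false
set_option linter.unusedSectionVars false

namespace Crest.Agent.N337.M

open Finset Crest.Agent.N337.Op Crest.Agent.N337.Gas

namespace Pl

section abs
variable {Γ κ : Type} [Fintype Γ] [DecidableEq Γ] [Fintype κ] [DecidableEq κ]
  {q : Finset Γ → ℝ} {v : Γ × κ → ℝ} {x : Finset Γ}

lemma sh_sh (h : q x ≠ 0) (z : Finset Γ) : sh (sh q x) z = sh q (x ∪ z) := by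
  funext A; rw [sh, sh, sh, sh, div_div_div_cancel_right₀ h, union_assoc]

/-- conditioning a labelled gas on extra up loops. -/
lemma giv_lab (hq : Cpt q) (hv : ∀ y, 0 ≤ v y) (hx : q x ≠ 0) (Φ : Finset (Γ × κ) → ℝ) :
    ex (nu (qL q) v) (fun X => (if Disjoint (fg X) x then sh q (fg X) x else 0) * Φ X) =
      ex (nu (qL q) v) (fun X => if Disjoint (fg X) x then sh q (fg X) x else 0) *
        ex (nu (qL (sh q x)) (off (fun y => y.1 ∈ x) v)) Φ := by
  have key : ∀ X, gw (qL q) v X * (if Disjoint (fg X) x then sh q (fg X) x else 0) =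
      q x * gw (qL (sh q x)) (off (fun y => y.1 ∈ x) v) X := fun X => by
    have e : X.filter (fun y => y.1 ∈ x) = ∅ ↔ Disjoint (fg X) x := by
      simp only [filter_eq_empty_iff, disjoint_left, mem_fg]
      exact ⟨fun h g ⟨a, ha⟩ => h ha, fun h y hy => h ⟨y.2, hy⟩⟩
    rw [gw_off]
    simp only [e, gw, qL, sh]
    split_ifs
    · by_cases h0 : q (fg X) = 0
      · have : q (x ∪ fg X) = 0 := by
          by_contra h; exact hq.ne_of_sub subset_union_right h h0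
        simp [h0, this]
      · rw [union_comm]; field_simp
    all_goals simp
  have z := (Gas.gZ_pos (hq.sh hx).qL (off_nn (Q := fun y => y.1 ∈ x) hv)).ne'
  simp only [ex_nu, ← mul_assoc, key]
  simp only [mul_assoc, ← mul_sum, ← gZ.eq_1]
  field_simp

end abs

variable {Λ : Type} [Fintype Λ] [DecidableEq Λ] {T : ℕ} [NeZero T] {G : Bs T Λ} {s : Cfg T Λ}
  {x : Finset (Lp T Λ)}

lemma p01 (hG : G.Ok) (r : Fin T) : 0 ≤ G.p r ∧ G.p r ≤ 1 := ⟨(hG.p r).1, by linarith [(hG.p r).2]⟩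

lemma cpt_q (hG : G.Ok) (s : Cfg T Λ) : Cpt (G.q s) := cpt_qq (pin_mem (p01 hG) _)

lemma q_eq (hs : G.Val s) : G.q s = sh (qq G.ex G.ey G.p) s.e := (sh_qq hs).symm

lemma val_add (hs : G.Val s) : G.Val (s.add x) ↔ G.q s x ≠ 0 := by
  rw [q_eq hs, sh, div_ne_zero_iff]
  exact ⟨fun h => ⟨h, hs⟩, fun h => h.1⟩

lemma sh_q (hs : G.Val s) (hx : G.Val (s.add x)) : sh (G.q s) x = G.q (s.add x) := by
  rw [q_eq hs, q_eq hx, sh_sh hs]; rfl

lemma off_u (hs : G.Val s) (hx : G.Val (s.add x)) (W : Lp T Λ → ℝ) {g : Lp T Λ}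
    (hg : G.q (s.add x) {g} ≠ 0) : off (· ∈ x) (s.u W) g = (s.add x).u W g := by
  have h1 := (val_add hs).1 hx
  have h2 : qq G.ex G.ey (pin G.ex G.ey (G.pn s) x) {g} ≠ 0 := by
    rw [← sh_qq h1]; rwa [← sh_q hs hx] at hg
  have e : Hit (s.add x).K g ↔ g ∈ x ∨ Hit s.K g := by
    simp only [Hit, Cfg.K, Cfg.add, pts_union, ← union_assoc, mem_union (s := s.Z ∪ pts s.e)]
    refine ⟨fun ⟨v, hv, h⟩ => h.elim (fun h => .inr ⟨v, hv, h⟩) fun h => .inl ?_, fun h => ?_⟩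
    · exact (mem_or_disjoint h1 h2).resolve_right fun hd => disjoint_left.1 hd hv h
    · rcases h with h | ⟨v, hv, h⟩
      · obtain ⟨v, hv⟩ := qq_nonempty h1 h
        exact ⟨v, hv, .inr (mem_pts.2 ⟨g, h, hv⟩)⟩
      · exact ⟨v, hv, .inl h⟩
  simp only [off, Cfg.u, e]
  by_cases h3 : g ∈ x <;> simp [h3]

lemma med_eq (hG : G.Ok) (hs : G.Val s) (hx : G.Val (s.add x)) (W : Lp T Λ → ℝ) :
    Pc.med (G.q s) (s.u W) x = G.gs W (s.add x) := by
  rw [Pc.med, sh_q hs hx]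
  exact nu_congr (cpt_q hG _) fun g hg => off_u hs hx W hg

lemma add_comm' (s : Cfg T Λ) (x z : Finset (Lp T Λ)) : (s.add x).add z = (s.add z).add x := by
  simp only [Cfg.add, union_right_comm]

/-- the two-colour gas of a configuration. -/
noncomputable abbrev m2 (G : Bs T Λ) (W : Lp T Λ → ℝ) (y' : ℝ) (s : Cfg T Λ) :
    Finset (Lp T Λ × Bool) → ℝ :=
  nu (qL (G.q s)) (Pc.two (s.u (yw y')) (s.u fun g => W g - yw y' g))

lemma tot_u (W : Lp T Λ → ℝ) (y' : ℝ) (s : Cfg T Λ) :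
    (fun g => s.u (yw y') g + s.u (fun g => W g - yw y' g) g) = s.u W := by
  funext g; simp only [Cfg.u, off]; split_ifs <;> ring

lemma ex_m2 (W : Lp T Λ → ℝ) (y' : ℝ) (s : Cfg T Λ) (F : Finset (Lp T Λ) → ℝ) :
    ex (m2 G W y' s) (fun X => F (fg X)) = ex (G.gs W s) F := by
  rw [ex_forget, Pc.tot_two, tot_u]; rfl

lemma giv_hi (hG : G.Ok) {W : Lp T Λ → ℝ} {y' : ℝ} (hu : ∀ g, 0 ≤ s.u (yw y') g)
    (hD : ∀ g, 0 ≤ s.u (fun g => W g - yw y' g) g) (hs : G.Val s) (hx : G.Val (s.add x))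
    (f : Finset (Lp T Λ) → ℝ) :
    ex (m2 G W y' s) (fun X => G.ph s x (fg X) * f (fg (Pc.hi X))) =
      ex (G.gs W s) (G.ph s x) * G.hE W y' (s.add x) f := by
  rw [← ex_m2 W y' s]
  refine (giv_lab (cpt_q hG s) (Pc.two_nn hu hD) ((val_add hs).1 hx) _).trans ?_
  congr 2
  rw [sh_q hs hx]
  refine nu_congr (cpt_q hG _).qL fun y hy => ?_
  have h1 : G.q (s.add x) {y.1} ≠ 0 := by simpa [fg] using (qL_supp hy).2
  simp only [Pc.two, ← off_u hs hx _ h1, off]
  split_ifs <;> rfl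

end Pl

open Pl in
theorem peel : PeelStmt := by
  classical
  intro Λ _ _ T _ G W y' ε κb In Out σ hG y0 y1 k0 k2 hA hL hS s hs hI
  obtain ⟨Gd, hLad, hGd⟩ := hL s hs hI
  have hP := hLad.pr
  have hu := hLad.u0
  have hD := hLad.D0
  set ν := Pc.nuA (Rep.Pw (G.pn s)) (L G.ex G.ey) (s.u (yw y')) (s.u fun g => W g - yw y' g)
  have hν : Pr ν := Pc.pr_nuA hP hu fun g => ⟨hD g, hLad.D1 g⟩
  have hμ : Pr (m2 G W y' s) := Pc.pr_mu hP hu hD
  have hval : ∀ A, ν A ≠ 0 → G.Val (s.add A) := fun A h =>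
    (val_add hs).2 (Pc.q_ne hP (Pe.zz_ne h))
  have hex : ∀ φ : Finset (Lp T Λ × Bool) → ℝ, ex (m2 G W y' s) φ =
      ex ν fun A => ex (G.gs (yw y') (s.add A)) fun w => φ (Pc.lab w A) := fun φ =>
    (Pc.ex_mu_med hP hu hD φ).trans (ex_congr fun A h => by rw [← med_eq hG hs (hval A h)]; rfl)
  have hpr : ∀ A, ν A ≠ 0 → Pr (G.gs (yw y') (s.add A)) := fun A h =>
    med_eq hG hs (hval A h) (yw y') ▸ Pc.pr_med' hP hu h
  set b : Finset (Lp T Λ) → ℝ := Op.ind fun A => ¬ Out (s.add A) with hb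
  set β := G.hE W y' s b with hβ
  have b0 : ∀ A, 0 ≤ b A := fun A => ind_nn _ A
  have β0 : 0 ≤ β := ex_nn hμ.nn fun X => b0 _
  have β1 : β ≤ 1 := (ex_mono hμ.nn fun X => ind_le_one _ _).trans_eq (hμ.ex_const 1)
  have βε : β ≤ ε := hS s hs hI
  set ρ : Finset (Lp T Λ × Bool) → ℝ := fun X => m2 G W y' s X * (β + b (fg (Pc.hi X))) with hρ
  have hρ0 : ∀ X, 0 ≤ ρ X := fun X => mul_nonneg (hμ.nn X) (add_nonneg β0 (b0 _))
  have hmass : ∀ F : Finset (Lp T Λ) → ℝ, ex (mass ρ fg) F =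
      ex (m2 G W y' s) fun X => (β + b (fg (Pc.hi X))) * F (fg X) := fun F => by
    rw [ex_mass]; exact sum_congr rfl fun X _ => mul_assoc _ _ _
  have ph0 : ∀ x0 w, 0 ≤ G.ph s x0 w := fun x0 w => by
    unfold Bs.ph; split_ifs
    exacts [div_nonneg ((cpt_q hG s).nn _) ((cpt_q hG s).nn _), le_rfl]
  have hgs : ∀ w, 0 ≤ G.gs W s w := nu_nn (cpt_q hG s) fun g => by
    rw [← tot_u W y' s]; exact add_nonneg (hu g) (hD g)
  have hgiv : ∀ x0, G.Val (s.add x0) → In (s.add x0) → ex (m2 G W y' s) (fun X =>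
      G.ph s x0 (fg X) * Op.ind (fun A => ¬ Out ((s.add x0).add A)) (fg (Pc.hi X))) ≤
      ε * ex (G.gs W s) (G.ph s x0) := fun x0 h1 h2 => by
    rw [giv_hi hG hu hD hs h1, mul_comm ε]
    exact mul_le_mul_of_nonneg_left (hS _ h1 h2) (ex_nn hgs (ph0 x0))
  refine ⟨⟨Finset (Lp T Λ), fun A => ν A * (1 - b A), id, fun _ => s.Z, fun _ => y', fun _ => True⟩,
    mass ρ fg, fun A => mul_nonneg (hν.nn A) (sub_nonneg.2 (ind_le_one _ _)), fun A h => ?_,
    fun A h _ => ⟨rfl, ?_⟩, fun A _ h => absurd trivial h, fun F hF => ?_, fun F => ?_,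
    mass_nn hρ0, fun w => ?_, fun x0 h1 h2 => ?_, fun x0 h1 h2 => ?_⟩
  · exact ⟨hval A (left_ne_zero_of_mul h), Subset.rfl, y0, y1⟩
  · by_contra h'
    replace h' : ¬ Out (s.add A) := h'
    exact right_ne_zero_of_mul h (by simp only [hb, Op.ind]; rw [if_pos h', sub_self])
  · rw [← ex_m2 W y' s, hex]
    refine sum_le_sum fun A _ => ?_
    simp only [Pc.fg_lab]
    by_cases h : ν A = 0
    · simp [Bs.fE, h]
    · exact mul_le_mul_of_nonneg_right (mul_le_of_le_one_right (hν.nn A) (by linarith [b0 A]))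
        (ex_nn (hpr A h).nn fun w => hF _)
  · have h := Pc.peel_blind hLad le_rfl k0 F 0
    rw [tot_u] at h
    have h1 : ex (m2 G W y' s) (fun X => var (Pc.med (G.q s) (s.u (yw y')) (fg (Pc.hi X)))
        fun w => F (fg (Pc.hi X) ∪ w)) ≤
        (∑ A, ν A * (1 - b A) * var (G.gs (yw y') (s.add A)) fun w => F (A ∪ w)) +
          ex (m2 G W y' s) fun X => b (fg (Pc.hi X)) * F (fg X) ^ 2 := by
      rw [hex, hex, ex, ex, ← sum_add_distrib]
      refine sum_le_sum fun A _ => ?_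
      by_cases h : ν A = 0
      · simp [h]
      simp only [Pc.fg_lab, Pc.fg_hi_lab]
      rw [(hpr A h).ex_const, ex_mul, med_eq hG hs (hval A h), ← nsq_eq_ex]
      nlinarith [mul_le_mul_of_nonneg_left ((hpr A h).var_le fun w => F (A ∪ w))
        (mul_nonneg (hν.nn A) (b0 A))]
    have hbS : ∀ X, Pc.bS Gd X ≤ b (fg (Pc.hi X)) := fun X => by
      by_cases h1 : Out (s.add (fg (Pc.hi X)))
      · simp [Pc.bS, hb, Op.ind, h1, hGd _ h1]
      · simp only [hb, Op.ind, if_pos h1]; exact ind_le_one _ _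
    have h2 : ex (m2 G W y' s) (fun X => (ex (m2 G W y' s) (Pc.bS Gd) + Pc.bS Gd X) *
        (F (fg X) - 0) ^ 2) ≤ nsq (mass ρ fg) F := by
      rw [nsq_eq_ex, hmass]
      refine ex_mono hμ.nn fun X => ?_
      rw [sub_zero]
      exact mul_le_mul_of_nonneg_right (add_le_add (ex_mono hμ.nn hbS) (hbS X)) (sq_nonneg _)
    have h3 : ex (m2 G W y' s) (fun X => b (fg (Pc.hi X)) * F (fg X) ^ 2) ≤ nsq (mass ρ fg) F := by
      rw [nsq_eq_ex, hmass]
      exact ex_mono hμ.nn fun X => mul_le_mul_of_nonneg_right (by linarith) (sq_nonneg _)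
    have h4 : 0 ≤ ∑ A, ν A * (1 - b A) * var (G.gs (yw y') (s.add A)) fun w => F (A ∪ w) :=
      sum_nonneg fun A _ => by
        by_cases h : ν A = 0
        · simp [h]
        · exact mul_nonneg (mul_nonneg (hν.nn A) (sub_nonneg.2 (ind_le_one _ _)))
            (var_nn (hpr A h).nn _)
    have h5 := Dir_nn hgs F
    have h6 := nsq_nn (mass_nn (π := fg) hρ0) F
    have h7 := mul_le_mul_of_nonneg_left (h1.trans (add_le_add le_rfl h3))
      (by linarith : 0 ≤ 1 + 22 * κb)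
    have h8 := mul_le_mul_of_nonneg_right (by linarith : 1 + 22 * κb ≤ 45) (add_nonneg h4 h6)
    show var (G.gs W s) F ≤ 400 * (Dir (G.gs W s) F + (∑ A, ν A * (1 - b A) *
      var (G.gs (yw y') (s.add A)) fun w => F (A ∪ w)) + nsq (mass ρ fg) F)
    replace h : var (G.gs W s) F ≤ (1 + 22 * κb) * ex (m2 G W y' s) (fun X =>
      var (Pc.med (G.q s) (s.u (yw y')) (fg (Pc.hi X))) fun w => F (fg (Pc.hi X) ∪ w)) + 22 * Dir (G.gs W s) F +
      200 * ex (m2 G W y' s) fun X => (ex (m2 G W y' s) (Pc.bS Gd) + Pc.bS Gd X) *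
        (F (fg X) - 0) ^ 2 := h
    linarith
  · have e : ∀ m : Finset (Lp T Λ) → ℝ, m w = ex m fun w' => if w' = w then 1 else 0 :=
      fun m => by simp [ex]
    rw [e (mass ρ fg), e (G.gs W s), hmass, ← ex_m2 W y' s, ← ex_mul]
    refine ex_mono hμ.nn fun X => mul_le_mul_of_nonneg_right ?_ (by split_ifs <;> norm_num)
    linarith [ind_le_one (fun A => ¬ Out (s.add A)) (fg (Pc.hi X))]
  · have h3 := hgiv x0 h1 h2
    have h4 := ex_nn hgs (ph0 x0)
    have h5 : ex (mass ρ fg) (G.ph s x0) ≤ ex (m2 G W y' s) fun X => β * G.ph s x0 (fg X) +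
        G.ph s x0 (fg X) * Op.ind (fun A => ¬ Out ((s.add x0).add A)) (fg (Pc.hi X)) := by
      rw [hmass]
      refine ex_mono hμ.nn fun X => ?_
      rw [add_mul, mul_comm (b _)]
      refine add_le_add le_rfl (mul_le_mul_of_nonneg_left ?_ (ph0 _ _))
      by_cases h6 : Out ((s.add x0).add (fg (Pc.hi X)))
      · simp [hb, Op.ind, h6, hA _ x0 (add_comm' s x0 _ ▸ h6)]
      · simp only [Op.ind, if_pos h6]; exact ind_le_one _ _
    rw [ex_add, ex_mul, ex_m2] at h5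
    nlinarith [mul_le_mul_of_nonneg_right βε h4, mul_nonneg (β0.trans βε) h4]
  · have h3 := hgiv x0 h1 h2
    have h4 := mul_nonneg (β0.trans βε) (ex_nn hgs (ph0 x0))
    refine le_trans (le_trans ?_ h3) (by linarith)
    rw [hex]
    refine sum_le_sum fun A _ => ?_
    simp only [Pc.fg_lab, Pc.fg_hi_lab, mul_comm (G.ph s x0 _), true_and]
    by_cases h : ν A = 0
    · simp [Bs.fE, h]
    have n0 := ex_nn (hpr A h).nn fun w => ph0 x0 (A ∪ w)
    rw [ex_mul, Op.ind, add_comm' s x0 A]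
    show (if ¬ Out ((s.add A).add x0) then ν A * (1 - b A) *
      ex (G.gs (yw y') (s.add A)) fun w => G.ph s x0 (A ∪ w) else 0) ≤ _
    split_ifs
    · simp
    · rw [one_mul]
      exact mul_le_mul_of_nonneg_right (mul_le_of_le_one_right (hν.nn A) (by linarith [b0 A])) n0

end Crest.Agent.N337.M
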