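import Crest.Agent.N337.M.Defs
import Crest.Agent.N337.Pc.Loop
import Crest.Agent.N337.A.Geo

/-!
# Row 337, the chain (helper62): Zero, Mono, and the passage from `LP` to the input of block TK
-/

set_option autoImplicit false
set_option linter.unusedSectionVars false

namespace Crest.Agent.N337.M

open Finset Crest.Agent.N337.Op Crest.Agent.N337.Gas Crest.Agent.N337.A Crest.Agent.N337.Rep

variable {Λ : Type} [Fintype Λ] [DecidableEq Λ] {T : ℕ} [NeZero T]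

namespace Tk

variable {G : Bs T Λ} {W : Lp T Λ → ℝ} {s : Cfg T Λ} {ex ey : Fin T → Λ} {p : Fin T → ℝ}

lemma p_mem (hG : G.Ok) (r : Fin T) : 0 ≤ G.p r ∧ G.p r ≤ 1 :=
  ⟨(hG.p r).1, (hG.p r).2.trans (by norm_num)⟩

lemma cpt_q (hG : G.Ok) (s : Cfg T Λ) : Cpt (G.q s) := cpt_qq (pin_mem (p_mem hG) _)

lemma u_nn (hW : ∀ g, 0 ≤ W g) (s : Cfg T Λ) (g : Lp T Λ) : 0 ≤ s.u W g := off_nn hW g

lemma pr_gs (hG : G.Ok) (hW : ∀ g, 0 ≤ W g) (s : Cfg T Λ) : Op.Pr (G.gs W s) :=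
  pr_nu (cpt_q hG s) (u_nn hW s)

lemma yw_nn {y : ℝ} (hy : 0 ≤ y) (g : Lp T Λ) : 0 ≤ yw y g :=
  ub_nn (fun v => by unfold Top.bt; split_ifs; exacts [hy, zero_le_one]) g

lemma ph_nn (hG : G.Ok) (s : Cfg T Λ) (x0 w : Finset (Lp T Λ)) : 0 ≤ G.ph s x0 w := by
  unfold Bs.ph
  split_ifs
  exacts [div_nonneg ((cpt_q hG s).nn _) ((cpt_q hG s).nn _), le_rfl]

lemma Bk.mono {σ σ' : ℕ} {Z : Finset (Fin T × Λ)} (h : G.Bk σ Z) (hσ : σ ≤ σ') : G.Bk σ' Z :=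
  let ⟨B, h1, h2, h3⟩ := h
  ⟨B, h1, fun i x hx z hz => (h2 i x hx z hz).trans hσ, h3⟩

section
variable {y' : ℝ} {In Out : Cfg T Λ → Prop} {σ : ℕ} {C K ε : ℝ} {m : Mix T Λ}
  {μ : Finset (Lp T Λ) → ℝ}

lemma res_nn (hG : G.Ok) (h : G.Red W y' In Out σ C K ε s m μ) (F : Finset (Lp T Λ) → ℝ) :
    0 ≤ G.res m s F := sum_nonneg fun i _ => by
  by_cases h0 : m.c i = 0
  · rw [h0, zero_mul]
  · exact mul_nonneg (h.c0 i) (var_nn (pr_gs hG (yw_nn (h.ok i h0).2.2.1) _).nn _)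

lemma fE_nn (hG : G.Ok) (h : G.Red W y' In Out σ C K ε s m μ) {F : Finset (Lp T Λ) → ℝ}
    (hF : ∀ w, 0 ≤ F w) (i : m.I) : 0 ≤ G.fE m s F i := by
  unfold Bs.fE
  by_cases h0 : m.c i = 0
  · rw [h0, zero_mul]
  · exact mul_nonneg (h.c0 i) (ex_nn (pr_gs hG (yw_nn (h.ok i h0).2.2.1) _).nn fun _ => hF _)

end

/-- iterated pinning -/
lemma qq_pin_pin (hp : ∀ r, 0 ≤ p r ∧ p r ≤ 1) {e x : Finset (Lp T Λ)}
    (h : qq ex ey p (e ∪ x) ≠ 0) : qq ex ey (pin ex ey p e) x ≠ 0 ∧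
      qq ex ey (pin ex ey (pin ex ey p e) x) = qq ex ey (pin ex ey p (e ∪ x)) := by
  have he := (cpt_qq hp).ne_of_sub subset_union_left h
  have h1 : qq ex ey (pin ex ey p e) x ≠ 0 := by rw [← sh_qq he]; exact div_ne_zero h he
  refine ⟨h1, ?_⟩
  rw [← sh_qq h1, ← sh_qq he, ← sh_qq h]
  funext A
  simp only [sh, union_assoc]
  field_simp

/-- a loop that lives on non adjacent blocks lives on one of them -/
lemma in_blk {ι : Type} {B : ι → Finset Λ} (hB : Apart ex ey B) {ξ : Fin T → Bool} {g : Lp T Λ}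
    (hg : g ∈ L ex ey ξ) (h : ∀ v ∈ g.2, ∃ i, v.2 ∈ B i) {v0 : Fin T × Λ} (h0 : v0 ∈ g.2) {j : ι}
    (hj : v0.2 ∈ B j) : Gas.In (B j) g := by
  obtain rfl := eq_lp hg h0
  have key : ∀ k : ℕ, ((Sg ex ey ξ ^ k) v0).2 ∈ B j := fun k => by
    induction k with
    | zero => exact hj
    | succ k ih =>
      obtain ⟨i, hi⟩ := h ((Sg ex ey ξ ^ (k + 1)) v0) (mem_obv.2 (o_eq.2
        (Equiv.Perm.sameCycle_pow_left.2 (Equiv.Perm.SameCycle.refl _ _))))
      rw [pow_succ', Equiv.Perm.mul_apply] at hi ⊢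
      generalize (Sg ex ey ξ ^ k) v0 = u at *
      obtain ⟨t, x⟩ := u
      rw [Sg_apply] at hi ⊢
      simp only [sg] at hi ih ⊢
      split_ifs at hi ⊢
      · by_cases h1 : x = ex t
        · subst h1
          rw [Equiv.swap_apply_left] at hi ⊢
          exact hB.2 j i t ih hi ▸ hi
        · by_cases h2 : x = ey t
          · subst h2
            rw [Equiv.swap_apply_right] at hi ⊢
            exact hB.2 i j t hi ih ▸ hi
          · rwa [Equiv.swap_apply_of_ne_of_ne h1 h2]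
      · exact ih
  refine ⟨⟨v0, h0⟩, fun v hv => ?_⟩
  obtain ⟨k, -, rfl⟩ := (o_eq.1 (mem_obv.1 hv).symm).exists_pow_eq'
  exact key k

open Classical in
/-- sets of diameter `≤ r` are near to `≤ n1` slots and meet `≤ n2` zones -/
def Cnt (d : Λ → Λ → ℕ) (near : Λ → Λ → Prop) (Z : Λ → Finset Λ) (r n1 n2 : ℕ) : Prop :=
  ∀ A : Finset Λ, (∀ x ∈ A, ∀ z ∈ A, d x z ≤ r) →
    (univ.filter fun y => ∃ x ∈ A, near y x).card ≤ n1 ∧
      (univ.filter fun a => ∃ x ∈ A, x ∈ Z a).card ≤ n2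

/-- **`Bk` gives `TK.Blk`** -/
theorem blk (hd : Met G.ex G.ey G.d) {near : Λ → Λ → Prop} {Z : Λ → Finset Λ} {σ N n1 n2 : ℕ}
    (hn : Cnt G.d near Z (σ + 2) n1 n2) (hb : G.Bk σ s.Z) (hN : s.Sup N) (p : Fin T → ℝ)
    (W : Lp T Λ → ℝ) : TK.Blk G.ex G.ey near Z N n1 n2 p (s.u W) := by
  classical
  obtain ⟨B, h1, h2, h3⟩ := hb
  obtain ⟨S, hS, h4⟩ := hN
  have dm : ∀ i, ∀ x ∈ nbd G.d 1 (B i), ∀ z ∈ nbd G.d 1 (B i), G.d x z ≤ σ + 2 := fun i x hx z hz => by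
    obtain ⟨a, ha, a1⟩ := mem_nbd.1 hx
    obtain ⟨b, hb, b1⟩ := mem_nbd.1 hz
    have := hd.2.2.1 x a z
    have := hd.2.2.1 a b z
    have := h2 i a ha b hb
    have := hd.2.1 b z
    omega
  have sub : ∀ i, B i ⊆ nbd G.d 1 (B i) := fun i x hx => mem_nbd.2 ⟨x, hx, by rw [hd.1]; omega⟩
  refine ⟨{i : Λ // ∃ x ∈ S, x ∈ B i}, inferInstance, inferInstance, fun i => B i.1,
    fun i => nbd G.d 1 (B i.1), ⟨fun i j x a b => Subtype.ext (h1.1 _ _ x a b),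
      fun i j t a b => Subtype.ext (h1.2 _ _ t a b)⟩, fun g hg hu => ?_, fun i => sub i.1,
    fun i t ht => ?_, ?_, fun i => ?_, fun i => ?_⟩
  · obtain ⟨ξ, -, hξ⟩ := qq_supp hg
    have hL := hξ (mem_singleton_self g)
    have off : ∀ v ∈ g.2, v ∉ s.Z := fun v hv hz => hu (if_pos ⟨v, hv, mem_union_left _ hz⟩)
    obtain ⟨v, hv⟩ := L_nonempty hL
    obtain ⟨j, hj⟩ := h3 v (off v hv)
    exact ⟨⟨j, _, h4 v (off v hv), hj⟩, in_blk h1 hL (fun v hv => h3 v (off v hv)) hv hj⟩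
  · rcases ht with a | a
    · exact ⟨sub _ a, mem_nbd.2 ⟨_, a, hd.ends (Or.inr rfl) (Or.inl rfl)⟩⟩
    · exact ⟨mem_nbd.2 ⟨_, a, hd.2.2.2 t⟩, sub _ a⟩
  · refine le_trans ?_ hS
    rw [← Fintype.card_coe S]
    refine Fintype.card_le_of_injective (fun i => ⟨i.2.choose, i.2.choose_spec.1⟩) fun i j e => ?_
    have e' : i.2.choose = j.2.choose := congrArg Subtype.val e
    exact Subtype.ext (h1.1 _ _ _ i.2.choose_spec.2 (e' ▸ j.2.choose_spec.2))
  · convert (hn _ (dm i.1)).1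
  · convert (hn _ (dm i.1)).2

lemma i1_nn (P : Prop) : 0 ≤ TK.i1 P := by unfold TK.i1; split_ifs <;> norm_num

lemma Up_nn (hp : ∀ r, 0 ≤ p r ∧ p r ≤ 1) (w : Finset (Lp T Λ)) (g : Lp T Λ) :
    0 ≤ TK.Up ex ey p w g := by
  unfold TK.Up
  split_ifs
  exacts [le_rfl, (cpt_qq (pin_mem hp w)).nn _]

lemma rare_mono (hp : ∀ r, 0 ≤ p r ∧ p r ≤ 1) {u : Lp T Λ → ℝ} (hu : ∀ g, 0 ≤ u g) {g : Lp T Λ}
    {E E' : Finset (Lp T Λ) → Prop} {ε ε' : ℝ} (h : TK.Rare ex ey p u g E ε) (hE : ∀ w, E' w → E w)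
    (hε : ε ≤ ε') : TK.Rare ex ey p u g E' ε' := by
  have h0 := nu_nn (cpt_qq (ex := ex) (ey := ey) hp) hu
  refine le_trans (ex_mono h0 fun w => mul_le_mul_of_nonneg_right ?_ (Up_nn hp w g))
    (h.trans (mul_le_mul_of_nonneg_right hε (ex_nn h0 fun w => Up_nn hp w g)))
  unfold TK.i1
  split_ifs with a b
  exacts [le_rfl, absurd (hE w a) b, zero_le_one, le_rfl]

lemma rare_or (hp : ∀ r, 0 ≤ p r ∧ p r ≤ 1) {u : Lp T Λ → ℝ} (hu : ∀ g, 0 ≤ u g) {g : Lp T Λ}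
    {E E' : Finset (Lp T Λ) → Prop} {ε ε' : ℝ} (h : TK.Rare ex ey p u g E ε)
    (h' : TK.Rare ex ey p u g E' ε') : TK.Rare ex ey p u g (fun w => E w ∨ E' w) (ε + ε') := by
  have h0 := nu_nn (cpt_qq (ex := ex) (ey := ey) hp) hu
  unfold TK.Rare at *
  rw [add_mul]
  refine le_trans ?_ (add_le_add h h')
  rw [← ex_add]
  refine ex_mono h0 fun w => ?_
  rw [← add_mul]
  refine mul_le_mul_of_nonneg_right ?_ (Up_nn hp w g)
  by_cases a : E w <;> by_cases b : E' w <;> simp [TK.i1, a, b]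

lemma ph_single {w : Finset (Lp T Λ)} (h : G.q s w ≠ 0) (g : Lp T Λ) :
    G.ph s {g} w = TK.Up G.ex G.ey (G.pn s) w g := by
  rw [Bs.ph, TK.Up, Bs.q, sh_qq h]
  simp only [disjoint_singleton_right, ite_not]

/-- impossible pins have probability zero -/
lemma ph_zero (hG : G.Ok) (hv : G.Val s) {x0 : Finset (Lp T Λ)} (h : ¬G.Val (s.add x0))
    (w : Finset (Lp T Λ)) : G.ph s x0 w = 0 := by
  have h1 : G.q s x0 = 0 := by
    rw [Bs.q, Bs.pn, ← sh_qq hv, sh, show qq G.ex G.ey G.p (s.e ∪ x0) = 0 from not_not.1 h, zero_div]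
  have h2 : G.q s (w ∪ x0) = 0 := by
    by_contra h2
    exact (cpt_q hG s).ne_of_sub subset_union_right h2 h1
  rw [Bs.ph, sh, h2, zero_div, ite_self]

end Tk

open Tk

theorem zeroStmt : ZeroStmt := by
  intro Λ _ _ T _ G In σ C K ε hG hC hK hε s _ _
  have hP := pr_gs hG (yw_nn le_rfl) s
  have h0 : ∀ w, G.gs (yw 0) s w ≠ 0 → w = ∅ := fun w hw => by
    obtain ⟨h1, h2⟩ := nu_supp hw
    obtain ⟨ξ, -, hξ⟩ := qq_supp h1
    refine eq_empty_of_forall_notMem fun g hg => h2 g hg ?_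
    obtain ⟨x, hx⟩ := Pc.exists_root (hξ hg)
    have : yw 0 g = 0 := prod_eq_zero hx (if_pos rfl)
    simp only [Cfg.u, off, this, ite_self]
  refine ⟨⟨Empty, fun i => i.elim, fun i => i.elim, fun i => i.elim, fun i => i.elim, fun i => i.elim⟩,
    fun _ => 0, fun i => i.elim, fun i => i.elim, fun i => i.elim, fun i => i.elim, fun F hF => ?_,
    fun F => ?_, fun _ => le_rfl, fun w => mul_nonneg hK (hP.nn w), fun x0 _ _ => ?_, fun x0 _ _ => ?_⟩
  · rw [Fintype.sum_empty]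
    exact ex_nn hP.nn hF
  · refine (hP.var_le_sub F (F ∅)).trans (le_trans (le_of_eq (sum_eq_zero fun w _ => ?_))
      (mul_nonneg hC (add_nonneg (add_nonneg (Dir_nn hP.nn F) (sum_nonneg fun i _ => i.elim))
        (nsq_nn (fun _ => le_rfl) F))))
    by_cases hw : G.gs (yw 0) s w = 0
    · rw [hw, zero_mul]
    · rw [h0 w hw]; simp
  · exact le_trans (le_of_eq (by simp [Op.ex])) (mul_nonneg hε (ex_nn hP.nn (ph_nn hG s x0)))
  · rw [Fintype.sum_empty]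
    exact mul_nonneg hε (ex_nn hP.nn (ph_nn hG s x0))

theorem monoStmt : MonoStmt := by
  intro Λ _ _ T _ G W y' In In' Out Out' σ σ' C K ε C' K' ε' hG hW hI hO hσ hC hK hε h s hv hs
  obtain ⟨m, μ, R⟩ := h s hv (hI s hs)
  have hP := pr_gs hG hW s
  refine ⟨m, μ, R.c0, R.ok, fun i a b => ⟨(R.opn i a b).1, hO _ (R.opn i a b).2⟩,
    fun i a b => Bk.mono (R.cls i a b) hσ, R.dom, fun F => (R.var F).trans ?_, R.μ0,
    fun w => (R.μ1 w).trans (mul_le_mul_of_nonneg_right hK (hP.nn w)),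
    fun x0 a b => (R.rare x0 a (hI _ b)).trans
      (mul_le_mul_of_nonneg_right hε (ex_nn hP.nn (ph_nn hG s x0))),
    fun x0 a b => le_trans (sum_le_sum fun i _ => ?_) ((R.next x0 a (hI _ b)).trans
      (mul_le_mul_of_nonneg_right hε (ex_nn hP.nn (ph_nn hG s x0))))⟩
  · exact mul_le_mul_of_nonneg_right hC
      (add_nonneg (add_nonneg (Dir_nn hP.nn F) (res_nn hG R F)) (nsq_nn R.μ0 F))
  · split_ifs with c d d
    exacts [le_rfl, absurd ⟨c.1, fun e => c.2 (hO _ e)⟩ d, fE_nn hG R (ph_nn hG s x0) i, le_rfl]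

/-- **toTK**: the local Poincaré inequality in the form of block TK.  `Bad` is `η`-rare given any extra
pins in the class; it may be enlarged. -/
theorem toTK {G : Bs T Λ} (hG : G.Ok) {W : Lp T Λ → ℝ} (hW : ∀ g, 0 ≤ W g) {In : Cfg T Λ → Prop}
    {σ N n1 n2 : ℕ} {C K ε η Nr : ℝ} (h : G.LP W In σ C K ε) (hC : 0 ≤ C) (hη : 0 < η)
    (hε : ε ≤ η ^ 2) (h1 : C ≤ Nr) (h2 : C * K ≤ Nr) {near : Λ → Λ → Prop} {Z : Λ → Finset Λ}
    (hn : Cnt G.d near Z (σ + 2) n1 n2) {s : Cfg T Λ} (hv : G.Val s) (hs : In s) (hN : s.Sup N) :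
    ∃ Bad : Finset (Lp T Λ) → Prop,
      (∀ x0, (G.Val (s.add x0) → In (s.add x0)) →
        Op.ex (G.gs W s) (fun w => TK.i1 (Bad w) * G.ph s x0 w) ≤ η * Op.ex (G.gs W s) (G.ph s x0)) ∧
      (∀ g, (G.Val (s.add {g}) → In (s.add {g})) → TK.Rare G.ex G.ey (G.pn s) (s.u W) g Bad η) ∧
      ∀ (Bad' : Finset (Lp T Λ) → Prop) (η' : ℝ), (∀ w, Bad w → Bad' w) → η ≤ η' →
        TK.LP G.ex G.ey (G.pn s) (s.u W) C 1 (fun w => Nr * (η' + TK.i1 (Bad' w)))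
          (TK.Blk G.ex G.ey near Z N n1 n2) := by
  obtain ⟨m, μ, R⟩ := h s hv hs
  have hP := pr_gs hG hW s
  have rare : ∀ x0, (G.Val (s.add x0) → In (s.add x0)) →
      Op.ex (G.gs W s) (fun w => TK.i1 (η * G.gs W s w < μ w) * G.ph s x0 w) ≤
        η * Op.ex (G.gs W s) (G.ph s x0) := fun x0 hx => by
    by_cases a : G.Val (s.add x0)
    · have a1 := R.rare x0 a (hx a)
      have a2 := ex_nn hP.nn (ph_nn hG s x0)
      refine le_of_mul_le_mul_left (le_trans ?_ (a1.trans (by nlinarith))) hη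
      rw [Op.ex, Op.ex, mul_sum]
      refine sum_le_sum fun w _ => ?_
      have a3 := ph_nn hG s x0 w
      unfold TK.i1
      split_ifs with b
      · rw [one_mul, ← mul_assoc]; exact mul_le_mul_of_nonneg_right b.le a3
      · rw [zero_mul, mul_zero, mul_zero]; exact mul_nonneg (R.μ0 w) a3
    · simp [Op.ex, ph_zero hG hv a]
  refine ⟨fun w => η * G.gs W s w < μ w, rare, fun g hg => ?_, fun Bad' η' hB hη' => ?_⟩
  · have := rare {g} hg
    rwa [ex_congr (g := fun w => TK.i1 (η * G.gs W s w < μ w) * TK.Up G.ex G.ey (G.pn s) w g)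
      fun w hw => by rw [ph_single (nu_supp hw).1],
      ex_congr (μ := G.gs W s) (f := G.ph s {g}) (g := fun w => TK.Up G.ex G.ey (G.pn s) w g)
        fun w hw => ph_single (nu_supp hw).1 g] at this
  · have pp := fun i a => qq_pin_pin (p_mem hG) (e := s.e) (x := m.x i) (R.ok i a).1
    have fl : ∀ i, m.c i ≠ 0 → nu (qq G.ex G.ey (pin G.ex G.ey (G.pn s) (m.x i)))
        ((m.cf s i).u (yw (m.lv i))) = G.fl m s i := fun i a => by
      rw [Bs.pn, (pp i a).2]; rfl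
    refine ⟨m.I, inferInstance, m.c, m.x, fun i => (m.cf s i).u (yw (m.lv i)), R.c0,
      fun i a => ⟨(pp i a).1, u_nn (yw_nn (R.ok i a).2.2.1) _, ?_⟩, fun F hF => ?_, fun F => ?_⟩
    · obtain ⟨S, b1, b2⟩ := hN
      exact blk hG.d hn (R.cls i a fun o => (R.opn i a o).2)
        ⟨S, b1, fun v hv => b2 v fun hz => hv ((R.ok i a).2.1 hz)⟩ _ _
    · rw [one_mul]
      refine le_trans (le_of_eq (sum_congr rfl fun i _ => ?_)) (R.dom F hF)
      by_cases a : m.c i = 0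
      · rw [Bs.fE, a, zero_mul, zero_mul]
      · rw [fl i a, Bs.fE]
    · have e : ∑ i, m.c i * var (nu (qq G.ex G.ey (pin G.ex G.ey (G.pn s) (m.x i)))
          ((m.cf s i).u (yw (m.lv i)))) (fun A => F (m.x i ∪ A)) = G.res m s F :=
        sum_congr rfl fun i _ => by
          by_cases a : m.c i = 0
          · rw [a, zero_mul, zero_mul]
          · rw [fl i a]
      rw [e]
      refine (R.var F).trans ?_
      rw [mul_add]
      refine add_le_add le_rfl ?_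
      rw [nsq, Op.ex, mul_sum]
      refine sum_le_sum fun w _ => ?_
      change C * (μ w * F w ^ 2) ≤ G.gs W s w * (Nr * (η' + TK.i1 (Bad' w)) * F w ^ 2)
      rw [← mul_assoc, ← mul_assoc]
      refine mul_le_mul_of_nonneg_right ?_ (sq_nonneg _)
      have n0 := hP.nn w
      have N0 := hC.trans h1
      by_cases b : η * G.gs W s w < μ w
      · rw [TK.i1, if_pos (hB w b)]
        nlinarith [mul_le_mul_of_nonneg_left (R.μ1 w) hC, mul_le_mul_of_nonneg_right h2 n0,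
          mul_nonneg n0 (mul_nonneg N0 (hη.le.trans hη'))]
      · nlinarith [mul_le_mul_of_nonneg_left (not_lt.1 b) hC, mul_nonneg n0 (mul_nonneg N0 (i1_nn (Bad' w))),
          mul_le_mul_of_nonneg_left (mul_le_mul h1 hη' hη.le N0) n0]

end Crest.Agent.N337.M
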