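import Crest.Agent.N337.M.Bas
import Crest.Agent.N337.M.Zero

/-!
# Row 337, the chain (helper78): the key estimate in a configuration (definitions, statements)

All junk enters through classes of configurations.
-/

set_option autoImplicit false
set_option linter.unusedSectionVars false

namespace Crest.Agent.N337.M

open Finset Crest.Agent.N337.Op Crest.Agent.N337.Gas Crest.Agent.N337.A

variable {Λ : Type} [Fintype Λ] [DecidableEq Λ] {T : ℕ} [NeZero T]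

/-- everything outside the slots `B` is killed; new cover centres. -/
def Cfg.box (s : Cfg T Λ) (B F : Finset Λ) : Cfg T Λ := ⟨s.e, s.Z ∪ cyl Bᶜ, F⟩

/-- test loops: alive, winding `≤ Km`, and `s + g` lies in the class. -/
def Cfg.Cg (s : Cfg T Λ) (Cw : Cfg T Λ → Prop) (Km : ℕ) (g : Lp T Λ) : Prop :=
  Cw (s.add {g}) ∧ wd g ≤ Km ∧ ¬ Hit s.K g

/-- admissible top colours: `D ≤ 1`, `D ≤ δ * winding` (if `k0 ≠ 0`), `D ≤ η` on long loops. -/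
structure AdmD (D : Lp T Λ → ℝ) (δ η : ℝ) (k0 Km : ℕ) : Prop where
  D0 : ∀ g, 0 ≤ D g
  D1 : ∀ g, D g ≤ 1
  small : k0 ≠ 0 → ∀ g, D g ≤ δ * wd g
  long : ∀ g, Km < wd g → D g ≤ η

namespace Bs
variable (G : Bs T Λ)

/-- total form of the key estimate in the configuration `s`. -/
def TT (y' : ℝ) (D : Lp T Λ → ℝ) (s : Cfg T Λ) (S : Lp T Λ → Prop) (κ : ℝ) : Prop :=
  Pc.TKt (G.q s) (s.u (yw y')) (s.u D) S κ
/-- response form. -/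
def TB (y' : ℝ) (D : Lp T Λ → ℝ) (s : Cfg T Λ) (S : Lp T Λ → Prop) (κ : ℝ) : Prop :=
  Pc.TKb (G.q s) (s.u (yw y')) (s.u D) S κ

open Classical in
/-- mean number of marked up loops with the property `P` (medium `y'` integrated out). -/
noncomputable def NmC (y' : ℝ) (D : Lp T Λ → ℝ) (s : Cfg T Λ) (P : Lp T Λ → Prop) : ℝ :=
  Pc.Nm (G.q s) (s.u (yw y')) fun g => if P g then s.u D g else 0

open Classical in
/-- **junk step**: all down loops are pinned. -/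
def StepW (y : ℝ) (In Out : Cfg T Λ → Prop) (ε : ℝ) : Prop :=
  ∀ s, G.Val s → In s → Op.ex (G.gs (yw y) s) (Op.ind fun w => ¬ Out (s.add w)) ≤ ε
/-- **junk step**: birth of one loop of weight `y ^ winding`. -/
def StepB (y : ℝ) (In Out : Cfg T Λ → Prop) (ε : ℝ) : Prop :=
  ∀ s, G.Val s → In s → ∑ g, s.u (yw y) g * G.q s {g} * TK.i1 (¬ Out (s.add {g})) ≤ ε
/-- **junk step**: one marked up loop. -/
def StepM (y' : ℝ) (D : Lp T Λ → ℝ) (In Out : Cfg T Λ → Prop) (ε : ℝ) : Prop :=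
  ∀ s, G.Val s → In s → G.NmC y' D s (fun g => ¬ Out (s.add {g})) ≤ ε
/-- **reset**: a loop marked in `s + x` (class `Big`) is tested in `s` (class `In`). -/
def StepR (y' : ℝ) (D : Lp T Λ → ℝ) (In Big Out : Cfg T Λ → Prop) (κ : ℝ) : Prop :=
  ∀ (s : Cfg T Λ) x, G.Val (s.add x) → In s → Big (s.add x) →
    G.NmC y' D (s.add x) (fun g => Big (s.add {g}) ∧ ¬ Out (s.add {g})) ≤ κ

/-- windows, and counts for sets of diameter `≤ σ + 2`. -/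
structure Geo (ws : Fin T → Fin T) (near : Λ → Λ → Prop) (Z : Λ → Finset Λ) (σ Bn n1 n2 : ℕ) :
    Prop where
  hws : ∀ s, ws s ≤ s
  hB : (univ.image ws).card ≤ Bn
  cnt : Tk.Cnt G.d near Z (σ + 2) n1 n2

/-- the cross Gram bound on the test loops of the class `Cw`. -/
def Gram (Cw : Cfg T Λ → Prop) (Km k0 : ℕ) (κ δ : ℝ) : Prop :=
  ∀ s, G.Val s → ∀ D : Lp T Λ → ℝ, (∀ g, 0 ≤ D g ∧ D g ≤ 1) → (k0 ≠ 0 → ∀ g, D g ≤ δ * wd g) →
    TK.Crs G.ex G.ey (G.pn s) (s.Cg Cw Km) D (κ ^ 2)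
/-- the closing bound on the long test loops of the class `Cw`. -/
def HitC (Cw : Cfg T Λ → Prop) (ws : Fin T → Fin T) (near : Λ → Λ → Prop) (Z : Λ → Finset Λ)
    (Km k0 : ℕ) (q : ℝ) : Prop :=
  ∀ s, G.Val s → TK.Hit G.ex G.ey (Arc.spd ws near) Z (G.pn s)
    (fun g => s.Cg Cw Km g ∧ 2 ^ k0 ≤ wd g) q
/-- the loops of the class are slow. -/
def SlwC (Cw : Cfg T Λ → Prop) (ws : Fin T → Fin T) (near : Λ → Λ → Prop) : Prop :=
  ∀ (s : Cfg T Λ) g, G.Val (s.add {g}) → Cw (s.add {g}) → ¬ Hit s.K g →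
    TK.Slw G.ex G.ey (Arc.spd ws near) g

/-- **inputs of the key estimate over the medium `y'`** (class `In` of `LP`, `Cb` = with all down
loops, `Cw` = with one more loop). -/
structure TkIn (y' : ℝ) (In Cb Cw : Cfg T Λ → Prop) (ws : Fin T → Fin T) (near : Λ → Λ → Prop)
    (Z : Λ → Finset Λ) (κ ε q δ η : ℝ) (n σ Bn n1 n2 k0 Km : ℕ) : Prop where
  y0 : 0 ≤ y'
  y1 : y' ≤ 1
  κ0 : 0 ≤ κ
  ε0 : 0 < ε
  q0 : 0 < q
  δ0 : 0 ≤ δ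
  η0 : 0 < η
  η1 : η ≤ 1
  k1 : k0 ≠ 0
  long : y' ^ Km ≤ η
  sup : ∀ s, In s → s.Sup n
  anti : Cfg.Anti Cb
  sub : ∀ s, In s → Cw s
  sub' : ∀ s, Cb s → Cw s
  stepW : G.StepW y' In Cb ε
  stepB : G.StepB y' Cb Cw ε
  geo : G.Geo ws near Z σ Bn n1 n2
  gram : G.Gram Cw Km k0 κ δ
  hit : G.HitC Cw ws near Z Km k0 q
  slow : G.SlwC Cw ws near

/-- **boxes** of the level `3 m`: `Big` = class of the tests, `I0 ⊆ I1 ⊆ In` = classes in one box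
with a frozen cover. -/
structure BoxIn (y' : ℝ) (D : Lp T Λ → ℝ) (Big I0 I1 In : Cfg T Λ → Prop) (σ n : ℕ) (κ ε : ℝ) :
    Prop where
  κ0 : 0 < κ
  num : 4 * n * ε ≤ (2 * κ) ^ 2
  big : ∀ (s : Cfg T Λ) B F, Big s → Big (s.box B F)
  anti : Cfg.Anti In
  cov : ∀ s, Big s → ∀ B : Finset Λ, (∀ x ∈ B, ∀ z ∈ B, G.d x z ≤ σ) → ∃ F, I0 (s.box B F)
  s01 : ∀ s, I0 s → I1 s
  s1n : ∀ s, I1 s → In s
  sup : ∀ s, In s → s.Sup n
  d1 : G.StepR y' D I0 Big I1 κ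
  d2 : G.StepM y' D I1 In ε

open Classical in
/-- the ladder of the peel without the key estimate; tests lie in the class `Big`. -/
structure LdIn (y' : ℝ) (D : Lp T Λ → ℝ) (Out Big : Cfg T Λ → Prop) (s : Cfg T Λ)
    (Gd : ℕ → Finset (Lp T Λ) → Prop) : Prop where
  down : ∀ i A B, B ⊆ A → Gd i A → Gd i B
  mono : ∀ i A, Gd i A → Gd (i + 1) A
  h1 : ∀ i ≤ 26, ∀ A, Gd i A → G.Val (s.add A) → (∀ g ∈ A, s.u D g ≠ 0) →
    Pc.kB (Rep.Pw (G.pn s)) (L G.ex G.ey) (s.u (yw y')) (s.u D) A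
      (Op.ind fun B => ¬ Gd (i + 1) (A ∪ B)) ≤ 1 / 10 ^ 9
  h2 : ∀ A, Gd 26 A → G.Val (s.add A) → (∀ g ∈ A, s.u D g ≠ 0) →
    Pc.kB (Rep.Pw (G.pn s)) (L G.ex G.ey) (s.u (yw y')) (s.u D) A
      (Op.ind fun B => ¬ Gd 0 B) ≤ 1 / 10 ^ 9
  out : ∀ A, Out (s.add A) → Gd 0 A
  big : ∀ A, Gd 27 A → Big (s.add A)

/-- the key estimate holds in the class `Big`. -/
def TkC (y' : ℝ) (D : Lp T Λ → ℝ) (Big : Cfg T Λ → Prop) (κ κb : ℝ) : Prop :=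
  ∀ s, G.Val s → Big s → G.TT y' D s (fun g => Big (s.add {g})) κ ∧
    G.TB y' D s (fun g => Big (s.add {g})) κb

end Bs

/-- total error probability. -/
noncomputable def eT (n : ℕ) (ε η εL : ℝ) : ℝ := ε + 2 * n * η + Real.sqrt εL
/-- the gain of the short tests. -/
noncomputable def κS (κ ε q δ η εL C K : ℝ) (n Bn n1 n2 k0 Km : ℕ) : ℝ :=
  TK.κa n κ (eT n ε η εL) (Real.sqrt (n * eT n ε η εL)) +
    TK.κb n κ (eT n ε η εL) q δ C 1 (C * (K + 1)) Bn n n1 n2 k0 Km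

/-- **(TkCfg)** the key estimate from `LP` of the medium. -/
def TkCfgStmt : Prop :=
  ∀ (Λ : Type) [Fintype Λ] [DecidableEq Λ] (T : ℕ) [NeZero T] (G : Bs T Λ) (y' : ℝ)
    (D : Lp T Λ → ℝ) (In Cb Cw : Cfg T Λ → Prop) (ws : Fin T → Fin T) (near : Λ → Λ → Prop)
    (Z : Λ → Finset Λ) (κ ε q δ η εL C K : ℝ) (n σ Bn n1 n2 k0 Km : ℕ), G.Ok → 0 ≤ C → 0 ≤ K →
    0 < εL → 1 ≤ n → G.LP (yw y') In σ C K εL →
    G.TkIn y' In Cb Cw ws near Z κ ε q δ η n σ Bn n1 n2 k0 Km → AdmD D δ η k0 Km →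
    G.TkC y' D In (2 * κS κ ε q δ η εL C K n Bn n1 n2 k0 Km + 10 * n * Real.sqrt η)
      (2 * κS κ ε q δ η εL C K n Bn n1 n2 k0 Km + 2 * n * η)

/-- **(TkOne)** level one: no medium. -/
def TkOneStmt : Prop :=
  ∀ (Λ : Type) [Fintype Λ] [DecidableEq Λ] (T : ℕ) [NeZero T] (G : Bs T Λ) (D : Lp T Λ → ℝ)
    (Big : Cfg T Λ → Prop) (κ δ η : ℝ) (n Km : ℕ), G.Ok → 0 ≤ κ → 0 < η → η ≤ 1 → 1 ≤ n →
    (∀ s, Big s → s.Sup n) → G.Gram Big Km 0 κ δ → AdmD D δ η 0 Km →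
    G.TkC 0 D Big (2 * κ + 10 * n * Real.sqrt η) 0

/-- **(TkBox)** level `3 m`: additivity over the boxes and dirty tests. -/
def TkBoxStmt : Prop :=
  ∀ (Λ : Type) [Fintype Λ] [DecidableEq Λ] (T : ℕ) [NeZero T] (G : Bs T Λ) (y' : ℝ)
    (D : Lp T Λ → ℝ) (Big I0 I1 In : Cfg T Λ → Prop) (σ n : ℕ) (κ0 κb κ ε : ℝ), G.Ok →
    0 ≤ y' → y' ≤ 1 → (∀ g, 0 ≤ D g ∧ D g ≤ 1) → 0 ≤ κ0 → (∀ s, Big s → G.Bk σ s.Z) →
    G.BoxIn y' D Big I0 I1 In σ n κ ε → G.TkC y' D In κ0 κb →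
    G.TkC y' D Big (κ0 + 10 * κ) (1 + (κ0 + 10 * κ))

/-- **(Lad)** -/
def LadStmt : Prop :=
  ∀ (Λ : Type) [Fintype Λ] [DecidableEq Λ] (T : ℕ) [NeZero T] (G : Bs T Λ) (W : Lp T Λ → ℝ)
    (y' κ κb κb' : ℝ) (In Out Big : Cfg T Λ → Prop), G.Ok → 0 ≤ y' →
    (∀ g, 0 ≤ W g - yw y' g ∧ W g - yw y' g ≤ 1) → κ ≤ 1 / 5 → κb ≤ κb' →
    (∀ s, G.Val s → In s → ∃ Gd, G.LdIn y' (fun g => W g - yw y' g) Out Big s Gd) →
    G.TkC y' (fun g => W g - yw y' g) Big κ κb → G.LadH W y' In Out κb'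

end Crest.Agent.N337.M
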