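import Crest.Agent.N337.M.Exc
import Crest.Agent.N337.M.Peel
import Crest.Agent.N337.M.TkD
import Crest.Agent.N337.M.Ind
import Crest.Agent.N337.L4.Ret2

/-!
# Row 337, the chain: one-point bounds in a configuration, anchors, blocks round balls
-/

set_option autoImplicit false
set_option linter.unusedSectionVars false

namespace Crest.Agent.N337.M

open Finset Equiv Crest.Agent.N337.Op Crest.Agent.N337.Gas Crest.Agent.N337.A
  Crest.Agent.N337.Rep

variable {Λ : Type} [Fintype Λ] [DecidableEq Λ] {T : ℕ} [NeZero T]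

namespace Bs
variable (G : Bs T Λ)

open Classical in
/-- **junk step**: the loops that meet `U s` are pinned, nothing is killed. -/
def StepX (y : ℝ) (U : Cfg T Λ → Finset (Fin T × Λ)) (In Out : Cfg T Λ → Prop) (ε : ℝ) : Prop :=
  ∀ s, G.Val s → In s →
    Op.ex (G.gs (yw y) s) (Op.ind fun w => ¬ Out (s.add (w.filter (Hit (U s))))) ≤ ε

open Classical in
/-- **junk step**: the down loops of a gas with more killed points are pinned. -/
def StepV (y : ℝ) (U : Cfg T Λ → Finset (Fin T × Λ)) (In Out : Cfg T Λ → Prop) (ε : ℝ) : Prop :=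
  ∀ s, G.Val s → In s →
    Op.ex (G.gs (yw y) (s.rev ∅ (U s))) (Op.ind fun w => ¬ Out (s.add w)) ≤ ε

/-- **closure** of the up loops through `z` that reach the far slots `F`. -/
def RetC (y : ℝ) (Cl : Cfg T Λ → Prop) (Pr : Cfg T Λ → Λ → Λ → Prop) (γ : ℝ) : Prop :=
  ∀ s, G.Val s → Cl s → ∀ (z : Fin T × Λ) (F : Finset Λ), z.2 ∉ F → (∀ f ∈ F, Pr s z.2 f) →
    ∑ g, (if z ∈ g.2 ∧ Hit (cyl F) g then s.u (yw y) g * G.q s {g} else 0) ≤ γ

/-- Green bound on good point sets, bad purple sets are rare. -/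
def GrnC (y : ℝ) (Cl : Cfg T Λ → Prop) (Pr : Cfg T Λ → Λ → Λ → Prop) (γ ε : ℝ) : Prop :=
  ∀ s ξ, Cl s → Pw G.p ξ ≠ 0 → s.e ⊆ L G.ex G.ey ξ → ∃ Gd, Arc.Mono G.ex G.ey Gd ∧
    Arc.HG G.ex G.ey G.p (kill (Top.bt y) s.Z) Gd (fun z f => Pr s z.2 f.2) γ ∧
    Arc.bm G.ex G.ey G.p (kill (Top.bt y) s.Z) Gd (pts s.e) ξ ≤ ε

end Bs

section pt
variable {ex ey : Fin T → Λ} {d : Λ → Λ → ℕ}

/-- sums over the loops through a point. -/
lemma sum_pt (p : Fin T → ℝ) (z : Fin T × Λ) (φ : Lp T Λ → ℝ) :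
    ∑ g, (if z ∈ g.2 then φ g * qq ex ey p {g} else 0) = ∑ ξ, Pw p ξ * φ (lp ex ey ξ z) := by
  have : ∀ g : Lp T Λ, (if z ∈ g.2 then φ g * qq ex ey p {g} else 0) =
      ∑ ξ, if lp ex ey ξ z = g then Pw p ξ * φ g else 0 := fun g => by
    split_ifs with h
    · rw [qq, mul_sum]
      refine sum_congr rfl fun ξ _ => ?_
      by_cases k : g ∈ L ex ey ξ
      · rw [if_pos (singleton_subset_iff.2 k), if_pos (eq_lp k h).symm]; ring
      · rw [if_neg fun a => k (singleton_subset_iff.1 a), if_neg fun a => k (mem_L.2 ⟨z, a⟩)]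
        ring
    · exact (sum_eq_zero fun ξ _ => if_neg fun a => h (by
        rw [← a]; exact self_mem_obv ξ z)).symm
  simp only [this]
  rw [sum_comm]
  simp

lemma sum_pt_one (p : Fin T → ℝ) (z : Fin T × Λ) (c : ℝ) :
    ∑ g : Lp T Λ, (if z ∈ g.2 then c * qq ex ey p {g} else 0) = c := by
  rw [sum_pt p z fun _ => c, ← sum_mul, sum_Pw, one_mul]

/-- a loop that is slow off `Z` and meets `Z` passes time `0` near `Z`. -/
lemma anchor (hd : Met ex ey d) {Al : Fin T → Prop} {W : Fin T × Λ → Prop} {v : ℕ} {Z : Finset Λ}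
    (hS : Slow ex ey d Al W v) {ξ : Fin T → Bool} {u : Fin T × Λ} (hu : u.2 ∈ Z)
    (hA : ∀ w ∈ obv ex ey ξ u, ξ w.1 = true → w.2 = ex w.1 ∨ w.2 = ey w.1 → Al w.1)
    (hW : ∀ w ∈ obv ex ey ξ u, w.2 ∉ Z → W w) :
    ∃ x ∈ nbd d (v + 1) Z, (0, x) ∈ obv ex ey ξ u := by
  set c : ℕ → Fin T × Λ := fun k => (Sg ex ey ξ ^ k) u with hc
  have hm : ∀ k, c k ∈ obv ex ey ξ u := fun k => mem_obv.2 (o_pow _ _ _)
  have e : ∀ k, (c (k + 1)).2 = (c k).2 ∨
      (Al (c k).1 ∧ (c (k + 1)).2 = swap (ex (c k).1) (ey (c k).1) (c k).2) ∧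
        d (c k).2 (c (k + 1)).2 ≤ 1 := fun k => by
    have e : (c (k + 1)).2 = sg (ex (c k).1) (ey (c k).1) (ξ (c k).1) (c k).2 := by
      simp only [hc]; rw [pow_succ', Perm.mul_apply]; rfl
    by_cases h2 : ξ (c k).1 = true
    · by_cases h3 : (c k).2 = ex (c k).1 ∨ (c k).2 = ey (c k).1
      · refine .inr ⟨⟨hA _ (hm k) h2 h3, by simp [e, sg, h2]⟩, ?_⟩
        rw [e]
        rcases h3 with h3 | h3 <;> rw [h3]
        · simpa [sg, h2] using hd.2.2.2 _
        · rw [hd.2.1]; simpa [sg, h2] using hd.2.2.2 _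
      · push Not at h3
        exact .inl (by simp [e, sg, h2, swap_apply_of_ne_of_ne h3.1 h3.2])
    · exact .inl (by simp [e, sg, h2])
  have key : ∀ i, u.1.val + i ≤ T → ∃ z ∈ Z, ∃ j ≤ i, d (c j).2 z ≤ 1 ∧
      Path ex ey Al W (u.1.val + j) (u.1.val + i) fun r => (c (r - u.1.val)).2 := by
    intro i
    induction i with
    | zero => exact fun _ => ⟨u.2, hu, 0, le_rfl, by simp [hc, hd.1], fun r a b => by omega⟩
    | succ i ih =>
      intro hi
      by_cases h : (c i).2 ∈ Z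
      · refine ⟨_, h, i + 1, le_rfl, ?_, fun r a b => by omega⟩
        rcases e i with k | k
        · rw [k, hd.1]; omega
        · rw [hd.2.1]; exact k.2
      · obtain ⟨z, h1, j, h2, h3, h4⟩ := ih (by omega)
        refine ⟨z, h1, j, by omega, h3, fun r a b => ?_⟩
        rcases (show r.val < u.1.val + i ∨ r.val = u.1.val + i by omega) with k | k
        · exact h4 r a k
        have e1 : (c i).1 = r := by
          apply Fin.ext
          simp only [hc]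
          rw [Sg_pow_val, ← k, Nat.mod_eq_of_lt r.2]
        simp only [k, Nat.add_sub_cancel_left, show u.1.val + i + 1 - u.1.val = i + 1 by omega]
        rw [← e1]
        exact ⟨hW _ (hm i) h, (e i).imp_right fun a => a.1⟩
  have hT := u.1.2
  obtain ⟨z, h1, j, h2, h3, h4⟩ := key (T - u.1.val) (by omega)
  have h5 := hS _ _ _ (by omega) (by omega) h4
  simp only [Nat.add_sub_cancel_left] at h5
  have h0 : (c (T - u.1.val)).1 = 0 := by
    apply Fin.ext
    simp only [hc]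
    rw [Sg_pow_val, Nat.add_sub_cancel' hT.le]; simp
  refine ⟨(c (T - u.1.val)).2, mem_nbd.2 ⟨z, h1, (hd.2.2.1 _ (c j).2 _).trans ?_⟩, h0 ▸ hm _⟩
  rw [hd.2.1]; omega

end pt

variable {G : Bs T Λ} {y y' Y γ ε δ : ℝ} {s : Cfg T Λ} {w : Finset (Lp T Λ)}
  {Cl : Cfg T Λ → Prop} {Pr : Cfg T Λ → Λ → Λ → Prop} {D W : Lp T Λ → ℝ}

/-- a union of at most `n` balls splits into small non adjacent blocks. -/
theorem bk_balls (hd : Met G.ex G.ey G.d) {F : Finset Λ} {r n : ℕ} (hF : F.card ≤ n)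
    {Z : Finset (Fin T × Λ)} (hZ : ∀ v, v ∉ Z → v.2 ∈ nbd G.d r F) : G.Bk (n * (2 * r + 1)) Z := by
  classical
  let H : SimpleGraph F := SimpleGraph.fromRel fun a b => G.d a b ≤ 2 * r + 1
  have h1 : ∀ {a b : F}, G.d a b ≤ 2 * r + 1 →
      H.connectedComponentMk a = H.connectedComponentMk b := fun {a b} h => by
    by_cases e : a = b
    · rw [e]
    · exact SimpleGraph.ConnectedComponent.connectedComponentMk_eq_of_adj
        ((SimpleGraph.fromRel_adj _ _ _).2 ⟨e, .inl h⟩)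
  have h2 : ∀ {a b : F} (p : H.Walk a b), G.d a b ≤ p.length * (2 * r + 1) := fun p => by
    induction p with
    | nil => simp [hd.1]
    | @cons a b c h p ih =>
      have := hd.2.2.1 a b c
      have := ((SimpleGraph.fromRel_adj _ _ _).1 h).2
      rw [hd.2.1 b] at this
      rw [SimpleGraph.Walk.length_cons, add_mul]; omega
  have t := hd.2.2.1
  have sy := hd.2.1
  refine ⟨fun i => univ.filter fun x => ∃ f : F, ((H.connectedComponentMk f).out : Λ) = i ∧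
    G.d x f ≤ r, ⟨fun i j x a b => ?_, fun i j s a b => ?_⟩, fun i x a z b => ?_, fun v hv => ?_⟩
  · obtain ⟨f, rfl, a⟩ := (mem_filter.1 a).2
    obtain ⟨f', rfl, b⟩ := (mem_filter.1 b).2
    rw [h1 (a := f) (b := f') (by have := t f x f'; have := sy x f; omega)]
  · obtain ⟨f, rfl, a⟩ := (mem_filter.1 a).2
    obtain ⟨f', rfl, b⟩ := (mem_filter.1 b).2
    have := t f (G.ex s) f'
    have := t (G.ex s) (G.ey s) f'
    have := hd.2.2.2 s
    have := sy (G.ex s) f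
    rw [h1 (a := f) (b := f') (by omega)]
  · obtain ⟨f, rfl, a⟩ := (mem_filter.1 a).2
    obtain ⟨f', e, b⟩ := (mem_filter.1 b).2
    have e' : H.connectedComponentMk f' = H.connectedComponentMk f := by
      rw [← (H.connectedComponentMk f').out_eq, Subtype.ext e, Quot.out_eq]
    obtain ⟨p, hp⟩ := (SimpleGraph.ConnectedComponent.exact e').exists_isPath
    have a1 := hp.length_lt
    rw [Fintype.card_coe] at a1
    have a2 := (h2 p).trans (Nat.mul_le_mul_right _ (show p.length ≤ n - 1 by omega))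
    have := t x f z
    have := t f f' z
    have := sy f f'
    have := sy z f'
    obtain ⟨k, rfl⟩ : ∃ k, n = k + 1 := ⟨n - 1, by omega⟩
    rw [add_mul]
    simp only [Nat.add_sub_cancel] at a2
    omega
  · obtain ⟨f, a, b⟩ := mem_nbd.1 (hZ v hv)
    exact ⟨_, mem_filter.2 ⟨mem_univ _, ⟨f, a⟩, rfl, b⟩⟩

/-- **RET2 in a configuration.** -/
theorem retC_of (hG : G.Ok) (h0 : 0 ≤ y) (h1 : y < 1) (hγ : 0 ≤ γ) (h : G.GrnC y Cl Pr γ ε) :
    G.RetC y Cl Pr (γ + ε) := by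
  classical
  intro s hv hs z F hz hF
  obtain ⟨ξ0, k0, k1⟩ := qq_supp hv
  obtain ⟨Gd, a1, a2, a3⟩ := h s ξ0 hs k0 k1
  have hb : Arc.Fld (Top.bt (T := T) (Λ := Λ) y) := ⟨fun v => by
    unfold Top.bt; split_ifs; exacts [⟨h0, h1.le⟩, ⟨zero_le_one, le_rfl⟩], fun x => by
    simpa [Top.bt] using h1⟩
  have he : Arc.ends G.ex G.ey ξ0 (pts s.e) = 0 :=
    card_eq_zero.2 (filter_eq_empty_iff.2 fun v a b => b (by
      obtain ⟨g, c, e⟩ := mem_pts.1 a
      refine mem_pts.2 ⟨g, c, ?_⟩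
      rw [eq_lp (k1 c) e]; exact mem_obv.2 (o_apply _ _)))
  have e : G.pn s = Arc.pin G.p (Arc.tch G.ex G.ey (pts s.e)) ξ0 := by
    funext r
    unfold Bs.pn pin Arc.pin
    rw [cn_eq k1]
    by_cases k : tch G.ex G.ey (pts s.e) r
    · rw [if_pos k, if_pos k, if_pos ((Arc.mem_tch _ _).2 k)]
    · rw [if_neg k, if_neg fun h => k ((Arc.mem_tch _ _).1 h)]
  refine le_trans (le_of_eq ?_) ((Arc.ret2 hG.p1 (hb.kill s.Z) a1 a2 hγ (he.trans_le zero_le_one)
    (F := cyl F) (fun a => hz (mem_cyl.1 a)) fun f a => hF _ (mem_cyl.1 a)).trans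
    (add_le_add le_rfl a3))
  rw [← e]
  refine Eq.trans (sum_congr rfl fun g _ => ?_) (sum_pt (ex := G.ex) (ey := G.ey) (G.pn s) z fun g =>
    if Disjoint g.2 (cyl F) then 0 else ub (Arc.kill (Arc.kill (Top.bt y) s.Z) (pts s.e)) g)
  rw [Arc.kill_kill, Bs.u_yw (G := G)]
  by_cases a : z ∈ g.2 <;> by_cases b : Hit (cyl F) g
  · rw [if_pos ⟨a, b⟩, if_pos a, if_neg (not_disjoint_iff.2 b)]; rfl
  · rw [if_neg fun c => b c.2, if_pos a, if_pos (of_not_not fun c => b (not_disjoint_iff.1 c)),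
      zero_mul]
  · rw [if_neg fun c => a c.1, if_neg a]
  · rw [if_neg fun c => a c.1, if_neg a]

lemma up_add (hv : G.Val s) (hw : G.Val (s.add w)) (W : Lp T Λ → ℝ) (g : Lp T Λ) :
    s.u W g * Pc.up (G.q s) w g = (s.add w).u W g * G.q (s.add w) {g} := by
  by_cases h : G.q (s.add w) {g} = 0
  · simp [Pc.up, Pl.sh_q hv hw, h]
  rw [← Pl.off_u hv hw W h, Pc.up, Pl.sh_q hv hw, off]
  split_ifs <;> simp

lemma u_le (hD : ∀ g, 0 ≤ D g) (s : Cfg T Λ) (g : Lp T Λ) : s.u D g ≤ D g := by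
  unfold Cfg.u off; split_ifs; exacts [hD g, le_rfl]

lemma u_mono (h : ∀ g, D g ≤ W g) (s : Cfg T Λ) (g : Lp T Λ) : s.u D g ≤ s.u W g := by
  unfold Cfg.u off; split_ifs; exacts [le_rfl, h g]

lemma wd_le {N : Finset Λ} {g : Lp T Λ} (h : ¬ Hit (cyl Nᶜ) g) :
    (wd g : ℝ) = ∑ x ∈ N, if (0, x) ∈ g.2 then 1 else 0 := by
  rw [sum_boole, wd]
  congr 2; ext x
  simp only [mem_filter, mem_univ, true_and, iff_and_self]
  exact fun a => of_not_not fun b => h ⟨_, a, mem_cyl.2 (mem_compl.2 b)⟩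

lemma yw_mono (h0 : 0 ≤ y) (h : y ≤ Y) (g : Lp T Λ) : yw y g ≤ yw Y g := by
  rw [yw_eq, yw_eq]; exact pow_le_pow_left₀ h0 h _

lemma Bs.RetC.mono (h : G.RetC Y Cl Pr γ) (hG : G.Ok) (h0 : 0 ≤ y) (hy : y ≤ Y)
    {Cl' : Cfg T Λ → Prop} (hC : ∀ s, Cl' s → Cl s) : G.RetC y Cl' Pr γ := fun s a b z F c e =>
  le_trans (sum_le_sum fun g _ => by
    split_ifs
    exacts [mul_le_mul_of_nonneg_right (u_mono (yw_mono h0 hy) s g) ((hG.cpt s).nn _), le_rfl])
    (h s a (hC s b) z F c e)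

/-- the marked up loops through one point. -/
theorem Bs.RetC.pt (h : G.RetC Y Cl Pr γ) (hG : G.Ok) (hv : G.Val s) (hs : Cl s) (hδ : 0 ≤ δ)
    (hD : ∀ g, 0 ≤ D g ∧ D g ≤ δ * wd g ∧ D g ≤ yw Y g) {z : Fin T × Λ} {N : Finset Λ}
    (hz : z.2 ∈ N) (hN : ∀ f, f ∉ N → Pr s z.2 f) :
    ∑ g, (if z ∈ g.2 then s.u D g * G.q s {g} else 0) ≤ δ * N.card + γ := by
  have a := h s hv hs z Nᶜ (fun a => mem_compl.1 a hz) fun f a => hN f (mem_compl.1 a)
  rw [← sum_pt_one (ex := G.ex) (ey := G.ey) (G.pn s) z (δ * N.card)]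
  refine le_trans ?_ (add_le_add le_rfl a)
  rw [← sum_add_distrib]
  refine sum_le_sum fun g _ => ?_
  have q0 : 0 ≤ G.q s {g} := (hG.cpt s).nn _
  by_cases b : z ∈ g.2
  swap
  · simp [b]
  simp only [b, if_true, true_and]
  split_ifs with c
  · exact le_add_of_nonneg_of_le (mul_nonneg (by positivity) q0)
      (mul_le_mul_of_nonneg_right (u_mono (fun g => (hD g).2.2) s g) q0)
  · rw [add_zero]
    refine mul_le_mul_of_nonneg_right ((u_le (fun g => (hD g).1) s g).trans ((hD g).2.1.trans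
      (mul_le_mul_of_nonneg_left ?_ hδ))) q0
    rw [wd_le c, sum_boole]
    exact Nat.cast_le.2 (card_filter_le _ _)

open Classical in
/-- **touch rate**: the top colour meets a given point rarely. -/
theorem Bs.touch (h : G.RetC Y Cl Pr γ) (hG : G.Ok) (hv : G.Val s) (hy : 0 ≤ y') (hδ : 0 ≤ δ)
    (hγ : 0 ≤ γ) (hD : ∀ g, 0 ≤ W g - yw y' g ∧ W g - yw y' g ≤ δ * wd g ∧ W g - yw y' g ≤ yw Y g)
    (hY : ∀ g : Lp T Λ, yw Y g ≤ 1)
    (hs : Op.ex (G.gs W s) (Op.ind fun w => ¬ Cl (s.add w)) ≤ ε) {z : Fin T × Λ} {N : Finset Λ}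
    (hz : z.2 ∈ N) (hN : ∀ w f, f ∉ N → Pr (s.add w) z.2 f) :
    G.hE W y' s (Op.ind fun A => ¬A.filter (Hit {z}) = ∅) ≤ δ * N.card + γ + ε := by
  have hq := hG.cpt s
  have h2 := Pc.two_nn (Cfg.u_nn (yw_nn hy) s) (Cfg.u_nn (fun g => (hD g).1) s)
  have hμ := pr_nu hq.qL h2
  have hν := hG.pr (W := W) (fun g => by linarith [(hD g).1, yw_nn hy g]) s
  set Φ : Finset (Lp T Λ) → ℝ := fun w => ∑ g,
    if z ∈ g.2 then s.u (fun g => W g - yw y' g) g * Pc.up (G.q s) w g else 0 with hΦ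
  have a1 : G.hE W y' s (Op.ind fun A => ¬A.filter (Hit {z}) = ∅) ≤
      Op.ex (Pl.m2 G W y' s) fun X => ∑ u ∈ X, if u.2 = true ∧ z ∈ u.1.2 then 1 else 0 := by
    refine ex_mono hμ.nn fun X => ?_
    have a0 : ∀ u : Lp T Λ × Bool, (0 : ℝ) ≤ if u.2 = true ∧ z ∈ u.1.2 then 1 else 0 := fun u => by
      split_ifs <;> norm_num
    unfold Op.ind
    split_ifs with c
    swap
    · exact sum_nonneg fun u _ => a0 u
    obtain ⟨g, hg⟩ := nonempty_iff_ne_empty.2 c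
    obtain ⟨g1, v, g2, g3⟩ := mem_filter.1 hg
    obtain ⟨b, g4⟩ := mem_fg.1 g1
    have := single_le_sum (fun u _ => a0 u) (mem_filter.1 g4).1
    rwa [if_pos ⟨(mem_filter.1 g4).2, mem_singleton.1 g3 ▸ g2⟩] at this
  have a2 : (Op.ex (Pl.m2 G W y' s) fun X => ∑ u ∈ X, if u.2 = true ∧ z ∈ u.1.2 then 1 else 0) ≤
      Op.ex (Pl.m2 G W y' s) fun X => Φ (fg X) := by
    rw [Op.ex, gnz _ fun _ (u : Lp T Λ × Bool) => if u.2 = true ∧ z ∈ u.1.2 then 1 else 0]
    refine sum_le_sum fun X _ => ?_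
    refine (sum_le_sum fun u hu => mul_le_mul_of_nonneg_right (Ex.nu_insert_le hq h2
      (mem_compl.1 hu)) (by split_ifs <;> norm_num)).trans ((sum_le_univ_sum_of_nonneg fun u =>
      mul_nonneg (mul_nonneg (hμ.nn X) (mul_nonneg (h2 u) (Pc.up_nn hq _ _)))
        (by split_ifs <;> norm_num)).trans (le_of_eq ?_))
    simp only [hΦ, mul_sum, Fintype.sum_prod_type (α₂ := Bool), Fintype.sum_bool, Pc.two]
    exact sum_congr rfl fun g _ => by by_cases c : z ∈ g.2 <;> simp [c]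
  rw [Pl.ex_m2] at a2
  have a3 : Op.ex (G.gs W s) Φ ≤ Op.ex (G.gs W s) fun w =>
      δ * N.card + γ + Op.ind (fun w => ¬ Cl (s.add w)) w := by
    refine ex_mono_ae hν.nn fun w c => ?_
    have c1 := hv.add (Bs.gs_supp c).1
    simp only [hΦ, up_add hv c1, Op.ind]
    by_cases c2 : Cl (s.add w)
    · rw [if_neg (not_not.2 c2), add_zero]
      exact h.pt hG c1 c2 hδ hD hz (hN w)
    · rw [if_pos c2, ← sum_pt_one (ex := G.ex) (ey := G.ey) (G.pn (s.add w)) z 1]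
      refine le_add_of_nonneg_of_le (by positivity) (sum_le_sum fun g _ => ?_)
      split_ifs
      · exact mul_le_mul_of_nonneg_right ((u_le (fun g => (hD g).1) _ g).trans
          ((hD g).2.2.trans (hY g))) ((hG.cpt _).nn _)
      · exact le_rfl
  rw [ex_add, hν.ex_const] at a3
  linarith

end Crest.Agent.N337.M
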