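import Crest.Agent.N337.Ld.Jnk

/-!
# Row 337, the chain (helper56): `Dlv.stepU`, `Dlv.stepH` from the cell claims
-/

set_option autoImplicit false
set_option linter.unusedSectionVars false

namespace Crest.Agent.N337.M

open Finset Crest.Agent.N337.Op Crest.Agent.N337.Gas Crest.Agent.N337.A Crest.Agent.N337.Ld

variable {Λ : Type} [Fintype Λ] [DecidableEq Λ] {T : ℕ} [NeZero T] {X α κ : Type} [Fintype X]
  [DecidableEq X] [SemilatticeSup α] [Preorder κ]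

namespace Par
variable (P : Par Λ) (I : Ins T Λ X α κ) (G : Bs T Λ)

/-- the side condition of all cell claims: everything outside the top cube is killed. -/
def Sd (Z : Finset (Fin T × Λ)) : Prop := ∀ v, v ∉ Z → v.2 ∈ P.Dm

/-- inputs of the two junk steps of level `j + 1` (purple fugacity `Y`). -/
structure StD (j : ℕ) (Y ε : ℝ) (nD : ℕ) : Prop where
  Y0 : 0 ≤ Y
  Y1 : Y ≤ 1
  yy : (P.lev I G).y j ≤ (P.lev I G).y (j + 1)
  alv : AlvH I (P.N (j + 1)) ((j + 1) / 3) nD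
  d : I.S.k0 + I.S.oc + 1 ≤ I.S.tm
  tP : P.tP (j + 1) + 2 ≤ I.S.tm
  tI : (j + 1) % 3 = 0 → P.tI (j + 1) + 1 ≤ P.tP (j + 1)
  tQ : P.tP (j + 1) + 1 ≤ P.tQ (j + 1)
  fH : F123 I G P.Sd ((P.lev I G).y (j + 1)) Y
    (EH G (yw ((P.lev I G).y (j + 1))) ((P.lev I G).y j) Y) (fun _ => ∅) 0 ((j + 1) / 3) 0 0 0 0 0 ε
  fU : (j + 1) % 3 = 0 → ∀ l, F123 I G P.Sd ((P.lev I G).y (j + 1)) Y
    (fun s => EU G ((P.lev I G).y (j + 1)) Y (cyl (P.Co (j + 1) l)) s)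
    (fun _ => cyl (P.Co (j + 1) l)) 0 ((j + 1) / 3) 0 0 0 0 0 ε
  num : 3 * nD * ε ≤ P.e (j + 1) / 10

variable {P I G} {j nD : ℕ} {Y ε : ℝ}

lemma kl_of {m t : ℕ} {s : Cfg T Λ} (h : P.Base j s) (hc : I.Cl m t ∅ 0 s) :
    Kl I P.Sd (P.N j) 0 0 m t (fun _ => ∅) 0 s := ⟨h.1, h.2, le_rfl, hc⟩

theorem StD.stepH (hG : G.Ok) (h : P.StD I G j Y ε nD) :
    G.StepH (yw ((P.lev I G).y (j + 1))) ((P.lev I G).y j) (P.Pre I G (j + 1))
      (I.Cl ((j + 1) / 3) (P.tQ (j + 1)) ∅ 0) (P.e (j + 1) / 10) := fun s hs hi =>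
  (Ld.stepH (μ := fun _ => 0) ⟨hG, Lev.y_nn _, h.Y0, h.Y1, by simp⟩ (Lev.y_nn _) h.yy h.fH h.alv
    ⟨h.d, h.tP, le_rfl, le_rfl, le_rfl⟩ (fun _ hs => kl_of hs.1.1 hs.2)
    (fun _ _ _ hc => Ins.Cl.mono hc Subset.rfl Subset.rfl h.tQ) s hs hi).trans h.num

theorem StD.stepU (hG : G.Ok) (h : P.StD I G j Y ε nD) (h3 : (j + 1) % 3 = 0) (l : Fin 4) :
    G.StepU ((P.lev I G).y (j + 1)) (fun _ => cyl (P.Co (j + 1) l)) (P.In I (j + 1))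
      (I.Cl ((j + 1) / 3) (P.tP (j + 1)) ∅ 0) (P.e (j + 1) / 10) := fun s hs hi =>
  (Ld.stepU (μ := fun _ => 0) ⟨hG, Lev.y_nn _, h.Y0, h.Y1, by simp⟩ (h.fU h3 l) h.alv
    (t := P.tI (j + 1)) ⟨h.d, by have := h.tP; have := h.tI h3; omega, le_rfl, le_rfl, le_rfl⟩
    (fun _ hs => kl_of hs.1 (by have := hs.2; rwa [if_neg (by omega)] at this))
    (fun _ _ _ hc => Ins.Cl.mono hc Subset.rfl Subset.rfl (h.tI h3)) s hs hi).trans h.num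

end Par

end Crest.Agent.N337.M
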