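import Crest.Agent.N337.M.ExcJ
import Crest.Agent.N337.M.StD
import Crest.Agent.N337.M.Zero
import Crest.Agent.N337.C9.Geo

/-!
# Row 337, the chain: `Dlv.exc` from the cell claims, the closure bound and numbers
-/

set_option autoImplicit false
set_option linter.unusedSectionVars false

namespace Crest.Agent.N337.M

open Finset Crest.Agent.N337.Op Crest.Agent.N337.Gas Crest.Agent.N337.A Crest.Agent.N337.Ld
  Crest.Agent.N337.Ex

/-- only the visits within `loc m` matter. -/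
theorem W2_loc {X α κ : Type} [Fintype X] [SemilatticeSup α] [Preorder κ] {S : Rg.Sys X α κ}
    {d m : ℕ} {E : α} {Z : κ} {V V' Q : ℕ → X → Prop} {x : X} (h : S.W2 d E Z V Q m x)
    (hV : ∀ l < m, ∀ y, S.d x y ≤ S.loc m → V l y → V' l y) : S.W2 d E Z V' Q m x := by
  classical
  induction m generalizing x with
  | zero => exact h
  | succ m ih =>
    have k : ∀ y, S.Adm d E Z m x y → V m y → V' m y := fun y a =>
      hV m (by omega) y (a.d_le.trans (Nat.le_add_right _ _))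
    rcases h with ⟨l, hl, c, h⟩ | h | h
    · refine .inl ⟨l, hl, c, h.trans_le (card_le_card fun y hy => ?_)⟩
      simp only [mem_filter, Rg.Sys.T1] at hy ⊢
      exact ⟨hy.1, k y hy.1.2.1 hy.2.1, hy.2.2⟩
    · refine .inr (.inl (Rg.Sys.Sepd.mono h fun y hy => ⟨hy.1, k y ?_ hy.2.1, hy.2.2⟩))
      have := hy.1
      simp only [mem_filter, Rg.Sys.T2] at this
      exact this.2.1
    · refine .inr (.inr (h.mono fun y hy => ⟨hy.1, hy.2.1, ih hy.2.2 fun l hl z hz =>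
        hV l (by omega) z ((S.d_tri x y z).trans (add_le_add hy.1.d_le hz))⟩))

variable {Λ : Type} [Fintype Λ] [DecidableEq Λ] {T : ℕ} [NeZero T] {X α κ : Type} [Fintype X]
  [DecidableEq X] [SemilatticeSup α] [Preorder κ]

section gen
variable {I : Ins T Λ X α κ} {G : Bs T Λ} {Sd : Finset (Fin T × Λ) → Prop}
  {d m t N nc nD R0 R1 R2 R3 R4 : ℕ} {y Y ε : ℝ} {μ : Lp T Λ → ℝ} {Fc : Finset Λ → Finset X}
  {U : Cfg T Λ → Finset (Fin T × Λ)} {In Out : Cfg T Λ → Prop}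

open Classical in
/-- **StepX** from the claims with `U` killed: far from the cover no octant dies. -/
theorem stepX' (h : Std G y Y μ)
    (f : F123 I G Sd y Y (fun s => EU G y Y (U s) s) U d m nc R0 R1 R2 R3 ε)
    (hA : AlvH I N m nD) (n : Rom I.S d t R0 R1 R2 R3) (h4 : R3 ≤ R4)
    (ho : ∀ s x z, ∀ l < m, I.S.Off (Fc s.cv) R4 x → I.S.d x z ≤ I.S.loc m →
      I.S.oct l (I.kz (s.Z ∪ U s)) z ≤ I.S.oct l (I.kz s.Z) z)
    (hI : ∀ s, In s → Kl I Sd N nc d m t Fc R0 s)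
    (hO : ∀ s x, In s → Cd I d m (t + 1) (Fc s.cv) R4 (s.add x) → Out (s.add x)) :
    G.StepX y U In Out (3 * nD * ε) := fun s hs hi => by
  have k := hI s hi
  obtain ⟨Dm, h1, h2⟩ := hA s k.sup
  have tr := tri_EG h.zero (h.pr s) (fun _ hw => hs.add (Bs.gs_supp hw).1)
    (B0 := fun w _ => w.filter (Hit (U s))) (w0 := id)
    (fun _ _ => (filter_subset _ _).trans subset_union_left) (fun _ => rfl) rfl f
    (k.ad hs (by have := n.t; omega))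
  have tr' : Tri I.S (pb (EU G y Y (U s) s)) (fun ω => I.pa ω.1) (fun ω => I.pa ω.2.1)
      (fun ω => I.pa ω.2.2) d (I.pa s.e) (I.kz s.Z) (I.kz s.Z) m (Fc s.cv) R1 R2 R4 ε :=
    ⟨tr.sub, tr.e0, tr.le, tr.f1, tr.f2, fun x hx => (tr.sub.mono _ _ fun ω hω => ⟨hω.1,
      W2_loc hω.2 fun l hl z hz hv => ⟨ho s x z l hl hx hz, hv.2⟩⟩).trans
        (tr.f3 x (hx.mono Subset.rfl h4))⟩
  have e0 := f.e0
  refine le_trans (le_of_eq ((gs_eq Y (U s) (Op.ind fun B => ¬ Out (s.add B))).trans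
    (pb_eq _ fun ω : Tp T Λ => ¬ Out (s.add ω.2.2)).symm))
    ((tr.sub.mono _ _ fun ω hω hc => hω (hO s _ hi (cd_add.2 ?_))).trans
      ((tr'.step ⟨n.d, n.t, n.r1, n.r2, n.r3.trans h4⟩ h2 k.cl le_rfl).trans (by gcongr)))
  exact hc.cls k.cl (n.r1.trans (n.r2.trans (n.r3.trans h4)))

variable {e : Λ → Λ → ℕ} {A B : Finset Λ} {r r' : ℕ} {V : ℕ → ℕ}

lemma nbd_sub (hd : Met G.ex G.ey e) (h : A ⊆ nbd e r B) : nbd e r' A ⊆ nbd e (r + r') B :=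
  fun x hx => by
    obtain ⟨a, h1, h2⟩ := mem_nbd.1 hx
    obtain ⟨b, h3, h4⟩ := mem_nbd.1 (h h1)
    exact mem_nbd.2 ⟨b, h3, (hd.2.2.1 x a b).trans (by omega)⟩

lemma card_nbd (hd : Met G.ex G.ey e) (hV : C9.Vol e V) (hA : A.card ≤ nc) (r : ℕ) :
    (nbd e r A).card ≤ nc * V r :=
  (card_le_card (t := A.biUnion fun a => univ.filter fun x => e x a ≤ r) fun x hx => by
    simpa using mem_nbd.1 hx).trans ((card_biUnion_le_card_mul _ _ _ fun a _ =>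
      C9.card_in hd hV r a).trans (Nat.mul_le_mul_right _ hA))

end gen

/-- the closure bound in the class with one dense party, off the balls `(F, R)`. -/
def RetA (I : Ins T Λ X α κ) (G : Bs T Λ) (Sd : Finset (Fin T × Λ) → Prop) (y : ℝ)
    (N m nc R Rf : ℕ) (γ : ℝ) : Prop :=
  ∀ F, G.RetC y (fun s => s.Sup N ∧ Ad I G Sd 1 m nc R s F) (fun _ z f => Rf ≤ G.d z f) γ

/-- radii and real parameters of the excision. -/
structure ExP where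
  R1 : ℕ
  R2 : ℕ
  R3 : ℕ
  R4 : ℕ
  R5 : ℕ
  /-- reach of the excised set -/
  rZ : ℕ
  /-- distances in the two closure bounds -/
  Rf : ℕ
  Rg : ℕ
  nD : ℕ
  /-- speeds of the tower, range of the clustering -/
  v0 : ℕ
  v1 : ℕ
  D : ℕ
  ε : ℝ
  γ : ℝ
  γg : ℝ
  δ : ℝ
  σ : ℝ
  κb : ℝ

/-- range of the short loops. -/
def ExP.R (E : ExP) : ℕ := E.Rf + E.v0 + 1 + E.R5

/-- **numbers of the excision** at level `j + 1` (`V` = volume of balls, `kd = k0 + oc`). -/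
structure ExN {Λ : Type} (P : Par Λ) (E : ExP) (V : ℕ → ℕ) (j kd tm : ℕ) : Prop where
  T0 : 0 < P.Tf j
  d : kd + 1 ≤ tm
  tI : P.tI (j + 1) + 1 ≤ P.tP (j + 1)
  tP : P.tP (j + 1) + 1 ≤ tm
  r1 : P.R (j + 1) ≤ E.R1
  r2 : E.R1 ≤ E.R2
  r3 : E.R2 ≤ E.R3
  r4 : E.R3 ≤ E.R4
  r5 : E.R4 ≤ E.R5
  rZ : E.rZ ≤ E.R5
  blk : P.nc * (2 * (E.rZ + E.R + E.v1 + 3 * E.D + 3) + 1) ≤ P.σ (j + 1)
  γ0 : 0 ≤ E.γ ∧ 0 ≤ E.γg
  σ0 : 0 ≤ E.σ
  κ0 : 0 ≤ E.κb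
  e1 : 6 * E.nD * E.ε ≤ 1 / 10000
  e2 : 12 * E.nD * E.ε ≤ P.e (j + 1)
  one : 3 / P.Tf j * (P.nc * V (E.rZ + E.R) : ℕ) + (P.nc * V (E.R5 + (E.v0 + 1)) : ℕ) * E.γ ≤
    1 / 10000
  peel : 22 * (3 / P.Tf j * V E.Rg + E.γg + E.nD * E.ε) + 22 * E.κb + 40 * P.e (j + 1) ≤ E.σ ^ 2
  small : (P.nc * V (E.rZ + (E.R + 1 + E.v1)) : ℕ) * (2 * (E.σ + 6 * Real.sqrt E.δ)) +
    2 * Real.sqrt E.δ ≤ 1 / 2

namespace Par
variable (P : Par Λ) (I : Ins T Λ X α κ) (G : Bs T Λ)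

/-- geometry of the excised set `Zs`. -/
structure ExG (E : ExP) (V : ℕ → ℕ) (j : ℕ) (Zs : Finset Λ → Finset Λ) : Prop where
  vol : C9.Vol G.d V
  alv : AlvH I (P.N (j + 1)) ((j + 1) / 3) E.nD
  sub : ∀ F, F ⊆ Zs F ∧ Zs F ⊆ nbd G.d E.rZ F
  dead : ∀ (Z : Finset (Fin T × Λ)) F, ∀ c ∈ F, ∀ z,
    I.S.d (I.π c) z ≤ E.R3 + I.S.loc ((j + 1) / 3) → I.S.dead (I.kz (Z ∪ cyl (Zs F))) z
  oct : ∀ (Z : Finset (Fin T × Λ)) F x z, ∀ l < (j + 1) / 3, I.S.Off (F.image I.π) E.R4 x →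
    I.S.d x z ≤ I.S.loc ((j + 1) / 3) → I.S.oct l (I.kz (Z ∪ cyl (Zs F))) z ≤ I.S.oct l (I.kz Z) z
  slow : ∀ s, Cd I 1 ((j + 1) / 3) (P.tP (j + 1) + 1) (s.cv.image I.π) E.R5 s →
    G.Sl E.v0 (s.rev ∅ (cyl (nbd G.d E.R5 s.cv)))
  tow : ∃ K v g m f, v 0 = E.v0 ∧ v 1 = E.v1 ∧
    Tow G.ex G.ey G.d ⟨G.p, fun _ => 0⟩ ∅ (P.Tf j) E.δ K v g (P.N (j + 1)) m f E.D

/-- the probabilistic claims (purple fugacity `Y`). -/
structure ExC (E : ExP) (j : ℕ) (Zs : Finset Λ → Finset Λ) (Y : ℝ) : Prop where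
  Y0 : 0 ≤ Y
  Y1 : Y ≤ 1
  fU : F123 I G P.Sd ((P.lev I G).y (j + 1)) Y
    (fun s => EU G ((P.lev I G).y (j + 1)) Y (cyl (Zs s.cv)) s) (fun s => cyl (Zs s.cv)) 0
    ((j + 1) / 3) P.nc (P.R (j + 1)) E.R1 E.R2 E.R3 E.ε
  f1 : F1 I G P.Sd ((P.lev I G).y (j + 1)) 0 ((j + 1) / 3) P.nc E.R4 E.R5 E.ε
  ret : RetA I G P.Sd ((P.lev I G).y (j + 1)) (P.N (j + 1)) ((j + 1) / 3) P.nc E.R5 E.Rf E.γ
  reg : RetA I G P.Sd ((P.lev I G).y (j + 1)) (P.N (j + 1)) ((j + 1) / 3) P.nc E.R5 E.Rg E.γg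

variable {P I G} {E : ExP} {V : ℕ → ℕ} {j : ℕ} {Zs : Finset Λ → Finset Λ} {Y : ℝ}

/-- **`Dlv.exc`.** -/
theorem exc_dlv (hG : G.Ok) (h0 : P.Tf 0 = 0) (hT : ∀ j, 0 ≤ P.Tf j)
    (hy : (P.lev I G).y j ≤ (P.lev I G).y (j + 1)) (h3 : (j + 1) % 3 = 2)
    (n : ExN P E V j (I.S.k0 + I.S.oc) I.S.tm) (g : P.ExG I G E V j Zs) (c : P.ExC I G E j Zs Y)
    (hL : G.LadH (yw ((P.lev I G).y (j + 1))) ((P.lev I G).y j) (P.Pre I G (j + 1))
      (P.Post I (j + 1)) E.κb)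
    (hS : G.StepH (yw ((P.lev I G).y (j + 1))) ((P.lev I G).y j) (P.Pre I G (j + 1))
      (I.Cl ((j + 1) / 3) (P.tQ (j + 1)) ∅ 0) (P.e (j + 1) / 10)) :
    G.Stg (yw ((P.lev I G).y (j + 1))) ((P.lev I G).y (j + 1)) (P.In I (j + 1))
      (P.Pre I G (j + 1)) (P.σ (j + 1)) c1 10 (P.e (j + 1)) := by
  classical
  have hW := Lev.admW_yw (V := P.lev I G) h0 hT hy
  have y1 := Lev.y_le_one (V := P.lev I G) hT (j + 1)
  have ey : (P.lev I G).y j = Real.exp (-1 / P.Tf j) := if_neg (by omega)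
  set y := (P.lev I G).y (j + 1)
  set m := (j + 1) / 3
  have y0 : 0 ≤ y := Lev.y_nn _
  have sd : Std G y Y fun _ => 0 := ⟨hG, y0, c.Y0, c.Y1, by simp⟩
  have e0 := c.fU.e0
  have e1 : 0 ≤ E.nD * E.ε := by positivity
  have hd := hG.d
  have hI : ∀ s, P.In I (j + 1) s → s.cv.card ≤ P.nc ∧
      Kl I P.Sd (P.N (j + 1)) P.nc 0 m (P.tI (j + 1)) (image I.π) (P.R (j + 1)) s := fun s h => by
    have := h.2
    rw [if_pos h3] at this
    exact ⟨this.1, h.1.1, h.1.2, card_image_le.trans this.1, this.2⟩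
  have tI := n.tI
  have tP := n.tP
  have hk := n.d
  have rom : Rom I.S 0 (P.tI (j + 1)) (P.R (j + 1)) E.R1 E.R2 E.R3 :=
    ⟨hk, by omega, n.r1, n.r2, n.r3⟩
  have K : G.ExcK y ((P.lev I G).y j) (P.In I (j + 1)) (P.Pre I G (j + 1))
      (Kl I P.Sd (P.N (j + 1)) P.nc 0 m (P.tI (j + 1) + 1) (image I.π) E.R4)
      (Kl I P.Sd (P.N (j + 1)) P.nc 1 m (P.tI (j + 1) + 1 + 1) (image I.π) E.R5)
      (Kl I P.Sd (P.N (j + 1)) P.nc 1 m (P.tP (j + 1) + 1) (fun _ => ∅) E.R5) Zs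
      (nbd G.d E.R5) (fun _ z f => E.Rf ≤ G.d z f)
      (fun _ z f => E.Rg ≤ G.d z f) E.R E.v0 E.Rg (P.nc * V (E.rZ + E.R))
      (P.nc * V (E.R5 + (E.v0 + 1))) (V E.Rg) (3 * E.nD * E.ε) (3 * E.nD * E.ε) (E.nD * E.ε)
      E.γ E.γg (3 / P.Tf j) := by
    refine ⟨anti_Pre _, Kl.anti, Kl.anti, fun s U h => ⟨⟨h.1.1.mono subset_union_left, by omega⟩,
      h.2.mono (union_empty _).subset subset_union_left le_rfl⟩,
      Ld.stepU sd c.fU g.alv rom (fun s h => (hI s h).2) fun s x h hc =>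
        ⟨⟨h.1.mono subset_union_left, by omega⟩, fun z _ => ?_⟩,
      stepX' sd c.fU g.alv rom n.r4 (fun s => g.oct s.Z s.cv) (fun s h => (hI s h).2)
        fun s x h hc => (hI s h).2.add hc,
      fun s hs h => (Ld.stepV sd e0 c.f1 g.alv (by omega) (by omega) n.r5 (fun _ h => h)
        (fun s x h hc => h.add hc) s hs h _).trans (by linarith [n.e1]),
      Ld.stepW sd e0 c.f1 g.alv (by omega) (t := P.tP (j + 1)) (by omega) n.r5
        (Fc := fun _ => ∅) (fun s h => ⟨h.1.1.1, h.1.1.2, Nat.zero_le _, fun z _ => h.2 z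
          fun _ a => absurd a (notMem_empty _)⟩) fun s x h hc =>
          ⟨h.1.1.1, h.1.1.2, Nat.zero_le _, hc⟩,
      fun s a h => c.ret _ s a ⟨h.sup, h.ad a (by omega)⟩,
      fun s a h => c.reg ∅ s a ⟨h.sup, h.ad a tP⟩,
      fun s h => g.slow s (h.mono le_rfl (by omega) le_rfl).cl,
      fun s _ => ⟨fun x hx => ?_, fun x hx => ⟨?_, fun f hf => ?_⟩⟩,
      fun s h => ⟨(card_le_card (nbd_sub hd (g.sub _).2)).trans (card_nbd hd g.vol (hI s h).1 _),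
        (card_le_card (nbd_sub hd Subset.rfl)).trans (card_nbd hd g.vol (hI s h).1 _)⟩,
      fun x => ⟨(card_nbd hd g.vol (card_singleton x).le _).trans_eq (one_mul _), fun _ f hf => ?_⟩,
      div_nonneg (by norm_num) n.T0.le, n.γ0, fun g => ?_, n.one⟩
    · by_cases k : I.S.Off (s.cv.image I.π) E.R3 z
      · exact (hc z k).up tI
      · simp only [Rg.Sys.Off, not_forall, not_lt, mem_image] at k
        obtain ⟨_, ⟨a, a1, rfl⟩, a2⟩ := k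
        exact Rg.Sys.good_dead fun u hu => g.dead _ _ a a1 u ((I.S.d_tri _ z u).trans (by omega))
    · obtain ⟨a, a1, a2⟩ := mem_nbd.1 ((g.sub _).2 hx)
      exact mem_nbd.2 ⟨a, a1, a2.trans n.rZ⟩
    · obtain ⟨a, a1, a2⟩ := mem_nbd.1 (nbd_sub hd Subset.rfl hx)
      exact mem_nbd.2 ⟨a, (g.sub _).1 a1, a2.trans (by unfold ExP.R; omega)⟩
    · obtain ⟨a, a1, a2⟩ := mem_nbd.1 (nbd_sub hd Subset.rfl hx)
      have k1 : E.R < G.d f a := lt_of_not_ge fun k => hf (mem_nbd.2 ⟨a, (g.sub _).1 a1, k⟩)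
      have k2 := hd.2.2.1 f x a
      rw [hd.2.1 f x] at k2
      unfold ExP.R at k1
      omega
    · rw [hd.2.1]
      exact le_of_not_ge fun k => hf (mem_nbd.2 ⟨x, mem_singleton_self x, k⟩)
    · rw [div_mul_eq_mul_div, le_div_iff₀ n.T0]; exact (hW g).2.2
  obtain ⟨Kt, v, gt, mt, ft, v0, v1, tw⟩ := g.tow
  have J := K.excJ hG (Lev.y_nn _) hy y1
  rw [ey] at J hL hS hy
  refine monoStmt _ _ G _ _ _ _ _ _ _ _ _ _ _ _ _ _ hG (yw_nn y0) (fun _ h => h) (fun _ h => h)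
    n.blk (by norm_num [c1]) (by norm_num) (by linarith [n.e2])
    (exc _ _ G y _ _ _ (P.Post I (j + 1)) Zs
      (fun F => (nbd G.d (E.rZ + E.R + E.v1 + 3 * E.D + 3) F)ᶜ) _ _ E.δ E.σ _ _ _ E.κb Kt v gt _ _
      mt ft E.D (P.nc * V (E.rZ + (E.R + 1 + E.v1))) _ hG hy y1 (by linarith [n.e1]) n.κ0 J
      ⟨tw, fun s h => h.1.1, fun s _ z hz a ha => ?_, fun s h => bk_balls hd (hI s h).1 fun u hu =>
        of_not_not fun k => hu (mem_union_right _ (mem_cyl.2 (mem_compl.2 k))),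
        fun s h => v1 ▸ (card_le_card (nbd_sub hd (g.sub _).2)).trans
          (card_nbd hd g.vol (hI s h).1 _), fun s h => ?_, n.σ0, n.small⟩ hL
      (hS.and fun s x h => h.1.1) (by linarith [n.peel]))
  · obtain ⟨b, b1, b2⟩ := mem_nbd.1 ((g.sub _).2 hz)
    have k1 : ¬ G.d a b ≤ _ := fun k => mem_compl.1 ha (mem_nbd.2 ⟨b, b1, k⟩)
    have k2 := hd.2.2.1 a z b
    omega
  · have := g.slow (s.cov ∅) fun z _ => (h.2 z fun _ a => absurd a (notMem_empty _)).mono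
      (Nat.zero_le 1) le_rfl le_rfl (Nat.le_succ _)
    rw [v0]
    simpa [Bs.Sl, Cfg.rev, Cfg.cov, nbd, cyl] using this

end Par

end Crest.Agent.N337.M
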