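import Crest.Agent.N337.M.Ind
import Crest.Agent.N337.Rg.Defs

/-!
# Row 337, the chain (helper56): the classes on the rung and the list of deliverables

Level `j` tracks the cells of scale `j / 3` (scale `0` = base cells).  Entry move of level `j`:
nothing if `j % 3 = 1`, excision of the frozen cover `cv` if `j % 3 = 2`, box move if `j % 3 = 0`.
-/

set_option autoImplicit false
set_option linter.unusedSectionVars false

namespace Crest.Agent.N337.M

open Finset Crest.Agent.N337.Op Crest.Agent.N337.Gas Crest.Agent.N337.A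

/-- the rung seen from the loops: sites, party of a family of loops, killed set. -/
structure Ins (T : ℕ) (Λ X α κ : Type) [DecidableEq Λ] [SemilatticeSup α] [Preorder κ] where
  S : Rg.Sys X α κ
  π : Λ → X
  pa : Finset (Lp T Λ) → α
  kz : Finset (Fin T × Λ) → κ
  pa_union : ∀ A B, pa (A ∪ B) = pa A ⊔ pa B
  kz_mono : Monotone kz

/-- the parameters of the levels. -/
structure Par (Λ : Type) where
  /-- inverse fields, `Tf 0 = 0` -/
  Tf : ℕ → ℝ
  /-- number of alive slots at level `j` -/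
  N : ℕ → ℕ
  /-- rungs at the entry, before and after the peel -/
  tI : ℕ → ℕ
  tP : ℕ → ℕ
  tQ : ℕ → ℕ
  /-- diameter of the closed blocks of `LP_j` -/
  σ : ℕ → ℕ
  /-- diameter of the boxes of level `j` (`j % 3 = 0`) -/
  bx : ℕ → ℕ
  /-- radius and number of the balls of the frozen cover (`j % 3 = 2`) -/
  R : ℕ → ℕ
  nc : ℕ
  /-- error of a stage of level `j` -/
  e : ℕ → ℝ
  /-- the top cube -/
  Dm : Finset Λ
  /-- corridors of the open box move of level `j` and of the closed box move that ends `LP_j` -/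
  Co : ℕ → Fin 4 → Finset Λ
  Cc : ℕ → Fin 4 → Finset Λ
  /-- speed of the pins at level `j`, ranges of the two box moves -/
  v : ℕ → ℕ
  Do : ℕ → ℕ
  Dc : ℕ → ℕ

variable {Λ : Type} [Fintype Λ] [DecidableEq Λ] {T : ℕ} [NeZero T] {X α κ : Type} [Fintype X]
  [DecidableEq X] [SemilatticeSup α] [Preorder κ]

namespace Ins
variable (I : Ins T Λ X α κ)

/-- all cells of scale `m` off the balls `(F, R)` have rung `≤ t`. -/
def Cls (d : ℕ) (E : α) (Z : κ) (m t : ℕ) (F : Finset X) (R : ℕ) : Prop :=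
  ∀ x, I.S.Off F R x → I.S.Good d E Z m t x

/-- the same for a configuration. -/
def Cl (m t : ℕ) (F : Finset X) (R : ℕ) (s : Cfg T Λ) : Prop :=
  I.Cls 0 (I.pa s.e) (I.kz s.Z) m t F R

variable {I}

lemma pa_mono : Monotone I.pa := fun A B h => by
  rw [← union_eq_right.2 h, I.pa_union]; exact le_sup_left

lemma Cls.mono {d d' m t t' R R' : ℕ} {E E' : α} {Z Z' : κ} {F F' : Finset X}
    (h : I.Cls d E Z m t F R) (hd : d ≤ d') (hE : E' ≤ E) (hZ : Z ≤ Z') (ht : t ≤ t')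
    (hF : F ⊆ F') (hR : R ≤ R') : I.Cls d' E' Z' m t' F' R' :=
  fun x hx => (h x (hx.mono hF hR)).mono hd hE hZ ht

lemma Cl.mono {m t t' R : ℕ} {F : Finset X} {s s' : Cfg T Λ} (h : I.Cl m t F R s)
    (he : s'.e ⊆ s.e) (hZ : s.Z ⊆ s'.Z) (ht : t ≤ t') : I.Cl m t' F R s' :=
  Cls.mono h le_rfl (pa_mono he) (I.kz_mono hZ) ht Subset.rfl le_rfl

end Ins

namespace Par
variable (P : Par Λ) (I : Ins T Λ X α κ) (G : Bs T Λ)

/-- the alive points lie in the top cube, over at most `N j` slots. -/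
def Base (j : ℕ) (s : Cfg T Λ) : Prop := s.Sup (P.N j) ∧ ∀ v, v ∉ s.Z → v.2 ∈ P.Dm

def In (j : ℕ) (s : Cfg T Λ) : Prop := P.Base j s ∧
  if j % 3 = 2 then s.cv.card ≤ P.nc ∧ I.Cl (j / 3) (P.tI j) (s.cv.image I.π) (P.R j) s
  else I.Cl (j / 3) (P.tI j) ∅ 0 s

def Pre (j : ℕ) (s : Cfg T Λ) : Prop :=
  (P.Base j s ∧ (j % 3 = 0 → G.Bk (P.bx j) s.Z)) ∧ I.Cl (j / 3) (P.tP j) ∅ 0 s

def Post (j : ℕ) (s : Cfg T Λ) : Prop := P.Base j s ∧ I.Cl (j / 3) (P.tQ j) ∅ 0 s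

/-- the levels. -/
def lev : Lev T Λ := ⟨P.Tf, P.In I, P.Pre I G, P.Post I, P.σ, P.e⟩

/-- **deliverables of level `j + 1`.** -/
structure Dlv (j : ℕ) : Prop where
  e0 : 0 ≤ P.e (j + 1)
  /-- (79, 80) good cells give slow pins -/
  slow : ∀ s t, t = P.tI (j + 1) ∨ t = P.tQ (j + 1) → I.Cl ((j + 1) / 3) t ∅ 0 s →
    G.Sl (P.v (j + 1)) s
  /-- (79, 80) the closed box move at fugacity `y j` -/
  numC : j ≠ 0 → G.NumA (P.N (j + 1)) (P.Tf j) (P.e (j + 1) / 10) (P.v (j + 1)) (P.Dc (j + 1))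
  geoC : j ≠ 0 → (∀ x ∈ P.Dm, ∃ l, x ∉ nbd G.d (12 * P.Dc (j + 1)) (P.Cc (j + 1) l)) ∧
    ∀ l Z, (∀ v, v ∉ Z → v.2 ∈ P.Dm) → G.Bk (P.σ (j + 1)) (Z ∪ cyl (P.Cc (j + 1) l))
  /-- (79, 80) the open box move -/
  numO : (j + 1) % 3 = 0 →
    G.NumA (P.N (j + 1)) (P.Tf (j + 1)) (P.e (j + 1) / 10) (P.v (j + 1)) (P.Do (j + 1))
  geoO : (j + 1) % 3 = 0 → (∀ x ∈ P.Dm, ∃ l, x ∉ nbd G.d (12 * P.Do (j + 1)) (P.Co (j + 1) l)) ∧
    ∀ l Z, (∀ v, v ∉ Z → v.2 ∈ P.Dm) → G.Bk (P.bx (j + 1)) (Z ∪ cyl (P.Co (j + 1) l))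
  /-- (77) the loops that meet a corridor raise the rung rarely -/
  stepU : (j + 1) % 3 = 0 → ∀ l, G.StepU ((P.lev I G).y (j + 1)) (fun _ => cyl (P.Co (j + 1) l))
    (P.In I (j + 1)) (I.Cl ((j + 1) / 3) (P.tP (j + 1)) ∅ 0) (P.e (j + 1) / 10)
  one : (j + 1) % 3 = 1 → P.tI (j + 1) ≤ P.tP (j + 1)
  /-- (84) the excision -/
  exc : (j + 1) % 3 = 2 → (P.lev I G).LP G j →
    G.Stg (yw ((P.lev I G).y (j + 1))) ((P.lev I G).y (j + 1)) (P.In I (j + 1))
      (P.Pre I G (j + 1)) (P.σ (j + 1)) c1 10 (P.e (j + 1))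
  /-- (78, 77, 42, 7, 96) the ladder -/
  lad : (P.lev I G).LP G j → ∀ W, (P.lev I G).AdmW j W →
    G.LadH W ((P.lev I G).y j) (P.Pre I G (j + 1)) (P.Post I (j + 1)) 2
  /-- (77) the top colour raises the rung rarely -/
  stepH : G.StepH (yw ((P.lev I G).y (j + 1))) ((P.lev I G).y j) (P.Pre I G (j + 1))
    (I.Cl ((j + 1) / 3) (P.tQ (j + 1)) ∅ 0) (P.e (j + 1) / 10)

variable {P I G}

lemma Base.mono {j : ℕ} {s s' : Cfg T Λ} (h : P.Base j s) (hZ : s.Z ⊆ s'.Z) : P.Base j s' := by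
  obtain ⟨⟨S, h1, h2⟩, h3⟩ := h
  exact ⟨⟨S, h1, fun v hv => h2 v fun a => hv (hZ a)⟩, fun v hv => h3 v fun a => hv (hZ a)⟩

lemma anti_In (j : ℕ) : Cfg.Anti (P.In I j) := fun s x h => by
  refine ⟨h.1, ?_⟩
  have := h.2
  split_ifs at this ⊢
  exacts [⟨this.1, this.2.mono subset_union_left Subset.rfl le_rfl⟩,
    this.mono subset_union_left Subset.rfl le_rfl]

lemma anti_Pre (j : ℕ) : Cfg.Anti (P.Pre I G j) := fun _ _ h =>
  ⟨h.1, h.2.mono subset_union_left Subset.rfl le_rfl⟩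

lemma anti_Post (j : ℕ) : Cfg.Anti (P.Post I j) := fun _ _ h =>
  ⟨h.1, h.2.mono subset_union_left Subset.rfl le_rfl⟩

end Par

lemma Bs.StepU.and {G : Bs T Λ} {y ε : ℝ} {U : Cfg T Λ → Finset (Fin T × Λ)}
    {In Out Q : Cfg T Λ → Prop} (h : G.StepU y U In Out ε)
    (hQ : ∀ s x, In s → Q (s.rev x (U s))) : G.StepU y U In (fun s => Q s ∧ Out s) ε :=
  fun s v hs => by
    convert h s v hs using 3 with w
    simp [hQ s _ hs]

lemma Bs.StepH.and {G : Bs T Λ} {W : Lp T Λ → ℝ} {y ε : ℝ} {In Out Q : Cfg T Λ → Prop}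
    (h : G.StepH W y In Out ε) (hQ : ∀ s x, In s → Q (s.add x)) :
    G.StepH W y In (fun s => Q s ∧ Out s) ε :=
  fun s v hs => by
    convert h s v hs using 3 with w
    simp [hQ s _ hs]

namespace Par
variable {P : Par Λ} {I : Ins T Λ X α κ} {G : Bs T Λ}

theorem Dlv.step (hO : BoxOStmt) (hC : BoxCStmt) (hM : MonoStmt) (hZ : ZeroStmt) (hG : G.Ok)
    {j : ℕ} (D : P.Dlv I G j) : (P.lev I G).Step G j := by
  have e0 := D.e0
  refine ⟨e0, anti_Post _, fun L => ?_, D.lad, D.stepH.and fun s x h => h.1.1, ?_⟩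
  · have h3 : (j + 1) % 3 = 1 ∨ (j + 1) % 3 = 2 ∨ (j + 1) % 3 = 0 := by omega
    rcases h3 with h3 | h3 | h3
    · refine .inl fun s h => ⟨⟨h.1, by omega⟩, ?_⟩
      have := h.2
      rw [if_neg (by omega)] at this
      exact this.mono Subset.rfl Subset.rfl (D.one h3)
    · exact .inr (D.exc h3 L)
    · have ey : (P.lev I G).y (j + 1) = Real.exp (-1 / P.Tf (j + 1)) := if_neg (by omega)
      have a := hO _ _ G (P.Tf (j + 1)) _ (P.In I (j + 1)) (P.Pre I G (j + 1)) (P.Co (j + 1)) _ _ _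
        (P.σ (j + 1)) hG (D.numO h3) (fun s h => ⟨h.1.1, D.slow s _ (.inl rfl) (by
          have := h.2
          rwa [if_neg (by omega)] at this), fun v hv => (D.geoO h3).1 _ (h.1.2 v hv)⟩)
        (anti_Pre _) fun l => ey ▸ (D.stepU h3 l).and fun s x h =>
          ⟨h.1.mono subset_union_left, fun _ => (D.geoO h3).2 l _ h.1.2⟩
      rw [ey]
      exact .inr (hM _ _ G _ _ _ _ _ _ _ _ _ _ _ _ _ _ hG (yw_nn (Real.exp_pos _).le) (fun _ h => h)
        (fun _ h => h) le_rfl (by norm_num [c1]) le_rfl (le_of_eq (by simp [lev]; ring)) a)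
  · by_cases hj : j = 0
    · have : (P.lev I G).y j = 0 := if_pos hj
      rw [this]
      exact hZ _ _ G _ _ _ _ _ hG (by norm_num [c1]) (by norm_num) e0
    · have ey : (P.lev I G).y j = Real.exp (-1 / P.Tf j) := if_neg hj
      have a := hC _ _ G (P.Tf j) _ (P.Post I (j + 1)) (P.Cc (j + 1)) _ _ _ (P.σ (j + 1)) hG
        (D.numC hj) fun s h => ⟨h.1.1, D.slow s _ (.inr rfl) h.2,
          fun v hv => (D.geoC hj).1 _ (h.1.2 v hv), fun l => (D.geoC hj).2 l _ h.1.2⟩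
      rw [ey]
      exact hM _ _ G _ _ _ _ _ _ _ _ _ _ _ _ _ _ hG (yw_nn (Real.exp_pos _).le) (fun _ h => h)
        (fun _ h => h) le_rfl (by norm_num [c1]) le_rfl (le_of_eq (by simp [lev]; ring)) a

end Par

end Crest.Agent.N337.M
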