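import Crest.Agent.N337.M.Cel
import Crest.Agent.N337.M.Wd
import Crest.Agent.N337.Par.LevD
import Crest.Agent.N337.Par.Rung
import Crest.Agent.N337.C9.Fin

/-!
# Row 337, the chain (helper56): the concrete objects of the final assembly

Top level `3 (ms + 1) + 1`, scales `m ≤ ms + 1`, top cube of side `x u (ms + 1) 27`.
-/

set_option autoImplicit false
set_option linter.unusedSectionVars false

namespace Crest.Agent.N337.M

open Finset Crest.Agent.N337.Free Crest.Agent.N337.Gas Crest.Agent.N337.A Crest.Agent.N337.Top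
  Crest.Agent.N337.Par

variable {L n : ℕ} [NeZero L] [NeZero n]

/-- **the context**: `u` = size of the lowest tier, `ms + 1` = top scale. -/
structure Ctx (u ms : ℕ) (β : ℝ) (w : ℕ) (sy : List (Sl L n × Sl L n × ℝ)) : Prop where
  bg : Bg n u
  B1 : Y u 10 ≤ Bw β
  B2 : Bw β ≤ Y u 11
  wd : Wd β w sy
  hL : Y u (48 * ms + 1000) ≤ L

/-- rung thresholds, frozen covers. -/
def rt (u : ℕ) : Rt :=
  ⟨Rung.tI (ck0 + 27) cK, Rung.tP (ck0 + 27) cK, Rung.tQ (ck0 + 27) cK, fun j => Rr u (j / 3) 3,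
    (ctm + 1) * ca⟩

/-- side of the top cube. -/
abbrev lt (u ms : ℕ) : ℕ := x u (ms + 1) 27
/-- the largest fugacity. -/
noncomputable def Yt (u ms : ℕ) : ℝ := Real.exp (-1 / (lt u ms : ℕ))
/-- the fugacity of level `j`. -/
noncomputable def yl (u j : ℕ) : ℝ := if j = 0 then 0 else Real.exp (-1 / Tf u j)
/-- the next radius round a cover of scale `m`. -/
def nx (u m R : ℕ) : ℕ := (cLam + 1) * max R (x u m 12)
/-- the levels. -/
noncomputable abbrev PP (n u ms : ℕ) (β : ℝ) (z : Tor 3 L) : Par (Sl L n) :=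
  _root_.Crest.Agent.N337.Par.lev n β u (rt u) z (lt u ms)

lemma le_Rr (u m i : ℕ) : x u m 12 ≤ Rr u m i :=
  Nat.le_mul_of_pos_left _ (pow_pos (Nat.succ_pos _) _)

lemma nx_Rr (u m i : ℕ) : nx u m (Rr u m i) = Rr u m (i + 1) := by
  rw [nx, max_eq_left (le_Rr u m i), Rr, Rr, ← mul_assoc, ← pow_succ', add_assoc]

lemma Rr_mono (u m : ℕ) {i k : ℕ} (h : i ≤ k) : Rr u m i ≤ Rr u m k :=
  Nat.mul_le_mul_right _ (Nat.pow_le_pow_right (Nat.succ_pos _) (by omega))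

lemma le_nx (u m R : ℕ) : R ≤ nx u m R :=
  (le_max_left _ _).trans (Nat.le_mul_of_pos_left _ (Nat.succ_pos _))

lemma nx_mono (u m : ℕ) {R R' : ℕ} (h : R ≤ R') : nx u m R ≤ nx u m R' :=
  Nat.mul_le_mul_left _ (max_le_max_right _ h)

lemma ctm_eq : ctm = Rung.tm (ck0 + 27) cK := by rw [Rung.tm_eq]; rfl

lemma yl_nn (u j : ℕ) : 0 ≤ yl u j := by unfold yl; split_ifs; exacts [le_rfl, (Real.exp_pos _).le]

lemma yl_mono (u : ℕ) {j k : ℕ} (h : j ≤ k) : yl u j ≤ yl u k := by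
  by_cases hj : j = 0
  · rw [yl, if_pos hj]; exact yl_nn u k
  · rw [yl, yl, if_neg hj, if_neg (by omega), Tf_ne hj, Tf_ne (by omega), neg_div, neg_div]
    exact Real.exp_le_exp.2 (neg_le_neg (one_div_le_one_div_of_le (Yr_pos _ _)
      (Nat.cast_le.2 (Y_mono (by have := tb_mono h; omega)))))

lemma yl_le {u ms j : ℕ} (h : j ≤ 3 * ms + 4) : yl u j ≤ Yt u ms := by
  refine (yl_mono u h).trans ?_
  rw [yl, if_neg (by omega), Tf_ne (by omega), Yt, neg_div, neg_div]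
  exact Real.exp_le_exp.2 (neg_le_neg (one_div_le_one_div_of_le (Yr_pos _ _)
    (Nat.cast_le.2 (Y_mono (by have := tb_eq (3 * ms + 4); omega)))))

lemma Yt_lt (u ms : ℕ) : Yt u ms < 1 :=
  Real.exp_lt_one_iff.2 (div_neg_of_neg_of_pos (by norm_num) (Yr_pos _ _))

lemma half_le_Yt {u : ℕ} (hu : 100 ≤ u) (ms : ℕ) : 1 / 2 ≤ Yt u ms := by
  have h1 : (2 : ℝ) ≤ (lt u ms : ℕ) := by exact_mod_cast le_trans (by norm_num) (num_le hu _)
  have h2 : 1 / ((lt u ms : ℕ) : ℝ) ≤ 1 / 2 := one_div_le_one_div_of_le two_pos h1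
  have h3 := Real.add_one_le_exp (-1 / ((lt u ms : ℕ) : ℝ))
  rw [neg_div] at h3
  rw [Yt, neg_div]
  linarith

namespace Ctx
variable {u ms w : ℕ} {β : ℝ} {sy : List (Sl L n × Sl L n × ℝ)} (C : Ctx u ms β w sy)

/-- the rung numbers. -/
noncomputable abbrev Q : I.Num := _root_.Crest.Agent.N337.Par.num C.bg (Dw w sy) 12
/-- the rung. -/
noncomputable abbrev I (z : Tor 3 L) := insT C.Q z β w sy
/-- the word seen by G1. -/
noncomputable abbrev W (_ : Ctx u ms β w sy) : Gl.Wd (TT β w sy) := wdT β w sy (Yt u ms)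
/-- unions of grid cubes of all scales below `m`. -/
def Gr (_ : Ctx u ms β w sy) (z : Tor 3 L) (m : ℕ) (A : Finset (Sl L n)) : Prop :=
  ∀ k < m, Ld.Grd z (x u k 13) A

/-- **the cell claims of scale `m`** at the purple fugacity `Yp`. -/
abbrev Cel (z : Tor 3 L) (m : ℕ) (Yp : ℝ) : Prop :=
  _root_.Crest.Agent.N337.M.Cel (C.I z) (GT β w sy) (PP n u ms β z).Sd (C.Gr z m) m Yp (3 / Tf u (3 * m - 1))
    (_root_.Crest.Agent.N337.Par.eps u m)
    ((ctm + 1) * ca) (Rr u m 30) (nx u m)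
/-- the claims on the children of a cell of scale `m + 1`. -/
abbrev Cen (z : Tor 3 L) (m : ℕ) (Yp : ℝ) : Prop :=
  _root_.Crest.Agent.N337.M.Cen (C.I z) (GT β w sy) (PP n u ms β z).Sd m Yp (3 / Tf u (3 * m + 2)) (sx u (m + 1) 0 ^ 1000)

include C

lemma hu : 100 ≤ u := C.bg.hu
lemma ok : (GT β w sy).Ok := C.wd.ok
lemma hT : TT β w sy = Bw β * C.Q.D := T_eq β w sy

lemma y_eq (z : Tor 3 L) (j : ℕ) : ((PP n u ms β z).lev (C.I z) (GT β w sy)).y j = yl u j := rfl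

lemma wr {Yp : ℝ} (h0 : 0 ≤ Yp) (h1 : Yp ≤ Yt u ms) : C9.Wr C.W (GT β w sy) C.Q.toLf Yp :=
  ⟨C.ok, rfl, C.wd.gl rfl (half_le_Yt C.hu ms) (Yt_lt u ms), rfl, bt_le h1, h0, h1.trans_lt (Yt_lt u ms)⟩

lemma le_L {k : ℕ} (hk : k ≤ 48 * ms + 1000) : Y u k ≤ L := (Y_mono hk).trans C.hL

lemma le_w {k : ℕ} (hk : k ≤ 48 * ms + 1000) : Y u k ≤ w := by
  have h1 := C.wd.big
  have h2 := C.le_L hk
  have h3 : 1 ≤ n ^ 2 := Nat.one_le_pow _ _ (NeZero.pos n)
  have h4 : L ≤ L ^ 5 := Nat.le_self_pow (by norm_num) L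
  have h5 := C.wd.hL
  nlinarith

/-- the Trotter error is below every tier in use. -/
lemma er {k : ℕ} (hk : k ≤ 48 * ms + 1000) : C.W.er L n ≤ s u k := by
  have h0 : (0 : ℝ) < L := by exact_mod_cast NeZero.pos L
  refine C.wd.er_le (Yt_lt u ms) ?_ ?_
  · have h1 : (2 : ℝ) ≤ (lt u ms : ℕ) := by exact_mod_cast le_trans (by norm_num) (num_le C.hu _)
    have hu := C.hu
    have h2 : 2 * lt u ms ≤ L := le_trans (by tier! (48 * (ms + 1) + 11 + 27)) C.hL
    have h3 : (2 * (lt u ms : ℕ) : ℝ) ≤ L := by exact_mod_cast h2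
    have h4 := Yt_lt u ms
    rw [div_le_iff₀ (by linarith)]
    set t : ℝ := ((lt u ms : ℕ) : ℝ)
    have h5 : Yt u ms * (1 + 1 / t) ≤ 1 := by
      rw [Yt, neg_div, Real.exp_neg, inv_mul_le_iff₀ (Real.exp_pos _), mul_one, add_comm]
      exact Real.add_one_le_exp _
    have h6 := half_le_Yt C.hu ms
    have h7 : 1 / t * t = 1 := one_div_mul_cancel (by linarith)
    have h8 : 0 < 1 / t := by positivity
    nlinarith
  · rw [s, one_div]
    exact inv_anti₀ (Yr_pos _ _) (by exact_mod_cast C.le_L hk)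

end Ctx

end Crest.Agent.N337.M
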