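import Crest.Agent.N337.M.Box

/-!
# Row 337, the chain: numerics and geometry of the box move on the torus word
-/

set_option autoImplicit false
set_option linter.unusedSectionVars false

namespace Crest.Agent.N337.M

open Finset Crest.Agent.N337.Gas Crest.Agent.N337.A

section gen
variable {Λ : Type} [Fintype Λ] [DecidableEq Λ] {T : ℕ} [NeZero T] {G : Bs T Λ}

/-- the numerics of the box move from rate bounds. -/
theorem numA_of {Kn : ℕ → ℕ} {N Tn lg v0 : ℕ} {Tf δ : ℝ} (hN : 1 ≤ N) (hT : 1 ≤ Tf) (hTn : Tf ≤ Tn)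
    (hδ : 0 < δ) (hδ1 : δ ≤ 1 / 4800) (hl : 6400 * N ^ 2 * Tf ≤ δ * Real.exp lg)
    (hR : ∀ r ≤ vt Kn lg v0 4 + 2, Rate G.ex G.ey G.d ⟨G.p, fun _ => 0⟩ r (Kn r)) :
    G.NumA N Tf (2 * δ) v0 (Dn (Kn (vt Kn lg v0 4 + 2)) Tn lg (vt Kn lg v0 4)) := by
  have h8 : δ ≤ 1 / 8 := by linarith
  have h2 := ((num_ok hN hT hTn hδ h8 hl 0 0).small hN).2
  have h3 := fast_ok hN hT hδ h8 hl (Kn (v0 + 2))
  exact ⟨δ, Kn (v0 + 2), fun i => Kn (vt Kn lg v0 (i + 1) + 2), fun i => vt Kn lg v0 (i + 1),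
    fun i => 40 * Kn (vt Kn lg v0 (i + 1) + 2) + lg, mw Tn lg, _, 40 * Kn (v0 + 2) + lg, hN,
    hR _ (Nat.add_le_add_right (vt_mono Kn lg v0 (Nat.zero_le 4)) 2), rfl, by linarith, by linarith,
    fun i hi => ⟨vt_succ _ _ _ _, hR _ (Nat.add_le_add_right (vt_mono Kn lg v0 (by omega)) 2),
      fast_ok hN hT hδ h8 hl _⟩, num_ok hN hT hTn hδ h8 hl _ _⟩

/-- blocks with an arbitrary index type. -/
theorem bk_of {ι : Type} {B : ι → Finset Λ} {σ : ℕ} {Z : Finset (Fin T × Λ)}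
    (hB : Apart G.ex G.ey B) (hd : ∀ i, ∀ x ∈ B i, ∀ z ∈ B i, G.d x z ≤ σ)
    (hc : ∀ v, v ∉ Z → ∃ i, v.2 ∈ B i) : G.Bk σ Z := by
  classical
  have : ∀ i, ∃ r : Λ, ∀ z ∈ B i, r ∈ B i := fun i =>
    (B i).eq_empty_or_nonempty.elim (fun h => ⟨G.ex 0, by simp [h]⟩) fun ⟨r, h⟩ => ⟨r, fun _ _ => h⟩
  choose r hr using this
  refine ⟨fun x => univ.filter fun z => ∃ i, z ∈ B i ∧ r i = x, ⟨fun x x' z a b => ?_,
    fun x x' s a b => ?_⟩, fun x z a z' b => ?_, fun v hv => ?_⟩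
  · obtain ⟨i, a', e⟩ := (mem_filter.1 a).2
    obtain ⟨j, b', e'⟩ := (mem_filter.1 b).2
    rw [← e, ← e', hB.1 i j z a' b']
  · obtain ⟨i, a', e⟩ := (mem_filter.1 a).2
    obtain ⟨j, b', e'⟩ := (mem_filter.1 b).2
    rw [← e, ← e', hB.2 i j s a' b']
  · obtain ⟨i, a', e⟩ := (mem_filter.1 a).2
    obtain ⟨j, b', e'⟩ := (mem_filter.1 b).2
    obtain rfl := hB.1 i j _ (hr i z a') ((e'.trans e.symm) ▸ hr j z' b')
    exact hd i z a' z' b'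
  · obtain ⟨i, hi⟩ := hc v hv
    exact ⟨r i, mem_filter.2 ⟨mem_univ _, i, hi, rfl⟩⟩

end gen

open Crest.Agent.N337.Top

variable {L n : ℕ} [NeZero L] [NeZero n] {β : ℝ} {w : ℕ} {sy : List (Sl L n × Sl L n × ℝ)}

/-- the numerics of the box move for the torus word. -/
theorem numA_word (hβ : 0 ≤ β) (hs : Sym sy) {N Tn lg v0 : ℕ} {Tf δ : ℝ} (hN : 1 ≤ N) (hT : 1 ≤ Tf)
    (hTn : Tf ≤ Tn) (hδ : 0 < δ) (hδ1 : δ ≤ 1 / 4800) (hl : 6400 * N ^ 2 * Tf ≤ δ * Real.exp lg)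
    (hw : 60 * n ^ 2 * (2 * (vt (Kw n β) lg v0 4 + 2) + 1) ^ 3 ≤ w + 1) :
    (GT β w sy).NumA N Tf (2 * δ) v0
      (Dn (Kw n β (vt (Kw n β) lg v0 4 + 2)) Tn lg (vt (Kw n β) lg v0 4)) :=
  numA_of hN hT hTn hδ hδ1 hl fun r hr => rate_word hβ hs _ (le_trans (by gcongr) hw)

/-- the corridors of the top cube cover and cut (`Dlv.geoC`, `Dlv.geoO`). -/
theorem geo_word (hs : Sym sy) {z : Tor 3 L} {l q wd D : ℕ} (hl : 2 * l ≤ L) (hw : 1 ≤ wd)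
    (hq : wd + 24 * D ≤ q) :
    (∀ x ∈ cubeS n z l, ∃ i, x ∉ nbd (GT β w sy).d (12 * D) (Cor (cubeS n z l) (coz z) q wd i)) ∧
      ∀ i Z, (∀ v, v ∉ Z → v.2 ∈ cubeS n z l) →
        (GT β w sy).Bk (4 * q) (Z ∪ cyl (Cor (cubeS n z l) (coz z) q wd i)) :=
  ⟨cor_cover hl (fun _ => mem_cubeS.1) (by omega), fun i _ hZ =>
    bk_of (blk_apart hl (fun _ => mem_cubeS.1) hs hw i) (fun _ _ a _ b => blk_diam (by omega) a b)
      fun v hv => ⟨_, exists_Blk (hZ v fun h => hv (mem_union_left _ h))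
        fun h => hv (mem_union_right _ (mem_cyl.2 h))⟩⟩

end Crest.Agent.N337.M
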