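import Crest.Agent.N337.M.LadP
import Crest.Agent.N337.Ld.Grd

/-!
# Row 337, the chain (helper56): the uniform cell claims of one scale

`Cel` is the cut between the producers (G4, ENG, TP) and the consumers (`StD`, `LadD`, `ExC`).
-/

set_option autoImplicit false
set_option linter.unusedSectionVars false

namespace Crest.Agent.N337.M

open Finset Crest.Agent.N337.Op Crest.Agent.N337.Gas Crest.Agent.N337.A Crest.Agent.N337.Ld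
  Crest.Agent.N337.Pc

variable {Λ : Type} [Fintype Λ] [DecidableEq Λ] {T : ℕ} [NeZero T] {X α κ : Type} [Fintype X]
  [DecidableEq X] [SemilatticeSup α] [Preorder κ]

section defs
variable (I : Ins T Λ X α κ) (G : Bs T Λ) (Sd : Finset (Fin T × Λ) → Prop)

/-- thin colours below the purple fugacity. -/
def Thin (Y δ : ℝ) (D : Lp T Λ → ℝ) : Prop := ∀ g, 0 ≤ D g ∧ D g ≤ yw Y g ∧ D g ≤ δ * wd g

/-- **the cell claims of scale `m`**: covers of `≤ nc` balls of radius `R ≤ cap`; the claims hold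
off the balls of radius `nx R`; `Gr C` = the set of slots `C` is a union of grid cubes. -/
structure Cel (Gr : Finset Λ → Prop) (m : ℕ) (Y δ ε : ℝ) (nc cap : ℕ) (nx : ℕ → ℕ) : Prop where
  e0 : 0 ≤ ε
  le : ∀ R, R ≤ nx R
  /-- (G4) -/
  f1 : ∀ y d R, 0 ≤ y → y ≤ Y → d ≤ 2 → R ≤ cap → F1 I G Sd y d m nc R (nx R) ε
  /-- (ENG) -/
  f2 : ∀ d R, d ≤ 3 → R ≤ cap → F2 I G Sd Y d m nc R (nx R) ε
  /-- (TP) -/
  fK : ∀ y D R0 R, 0 ≤ y → y ≤ Y → (∀ g, 0 ≤ D g ∧ D g ≤ yw Y g) → (m ≠ 0 → Thin Y δ D) → R0 ≤ R →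
    R ≤ cap → F3 I G Sd (EK G y Y (Ld.mk D Y)) (fun _ => ∅) 0 m nc R0 R (nx R) ε
  fH : ∀ y y' R0 R, 0 ≤ y' → y' ≤ y → y ≤ Y →
    (m ≠ 0 → Thin Y δ fun g : Lp T Λ => yw y g - yw y' g) → R0 ≤ R → R ≤ cap →
    F3 I G Sd (EH G (yw y) y' Y) (fun _ => ∅) 0 m nc R0 R (nx R) ε
  fU : ∀ y (C : Cfg T Λ → Finset Λ) R0 R, 0 ≤ y → y ≤ Y → (∀ s, Gr (C s)) → R0 ≤ R → R ≤ cap →
    F3 I G Sd (fun s => EU G y Y (cyl (C s)) s) (fun s => cyl (C s)) 0 m nc R0 R (nx R) ε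

/-- **the claims on the children** (scale `m`) of a cell of scale `m + 1`. -/
structure Cen (m : ℕ) (Y δ ε : ℝ) : Prop where
  e0 : 0 ≤ ε
  n1 : ∀ y, 0 ≤ y → y ≤ Y → N1 I G Sd y 0 m ε
  n2 : N2 I G Sd Y 1 m ε
  n3 : ∀ y D, 0 ≤ y → y ≤ Y → Thin Y δ D → N3 I G Sd (EK G y Y (Ld.mk D Y)) 0 m ε

end defs

variable {I : Ins T Λ X α κ} {G : Bs T Λ} {Sd : Finset (Fin T × Λ) → Prop} {Gr : Finset Λ → Prop}
  {m nc cap R : ℕ} {y y' Y δ ε : ℝ} {nx : ℕ → ℕ} {D : Lp T Λ → ℝ} {C : Cfg T Λ → Finset Λ}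

namespace Cel
variable (c : Cel I G Sd Gr m Y δ ε nc cap nx) (hR : nx (nx R) ≤ cap)
include c hR

lemma r1 : nx R ≤ cap := (c.le _).trans hR
lemma r0 : R ≤ cap := (c.le _).trans (c.r1 hR)
lemma r2 : R ≤ nx (nx R) := (c.le _).trans (c.le _)

/-- marked up loops. -/
theorem eK (h0 : 0 ≤ y) (hy : y ≤ Y) (h1 : ∀ g, 0 ≤ D g ∧ D g ≤ yw Y g) (hD : m ≠ 0 → Thin Y δ D) :
    F123 I G Sd y Y (EK G y Y (Ld.mk D Y)) (fun _ => ∅) 0 m nc R (nx R) (nx (nx R))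
      (nx (nx (nx R))) ε :=
  ⟨c.e0, c.f1 _ _ _ h0 hy (by omega) (c.r0 hR), c.f2 _ _ (by omega) (c.r1 hR),
    c.fK _ _ _ _ h0 hy h1 hD (c.r2 hR) hR⟩

/-- the top colour. -/
theorem eH (h0 : 0 ≤ y') (h1 : y' ≤ y) (hy : y ≤ Y)
    (hD : m ≠ 0 → Thin Y δ fun g : Lp T Λ => yw y g - yw y' g) :
    F123 I G Sd y Y (EH G (yw y) y' Y) (fun _ => ∅) 0 m nc R (nx R) (nx (nx R))
      (nx (nx (nx R))) ε :=
  ⟨c.e0, c.f1 _ _ _ (h0.trans h1) hy (by omega) (c.r0 hR), c.f2 _ _ (by omega) (c.r1 hR),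
    c.fH _ _ _ _ h0 h1 hy hD (c.r2 hR) hR⟩

/-- the loops that meet `C`, which is killed. -/
theorem eU (h0 : 0 ≤ y) (hy : y ≤ Y) (hU : ∀ s, Gr (C s)) :
    F123 I G Sd y Y (fun s => EU G y Y (cyl (C s)) s) (fun s => cyl (C s)) 0 m nc R (nx R)
      (nx (nx R)) (nx (nx (nx R))) ε :=
  ⟨c.e0, c.f1 _ _ _ h0 hy (by omega) (c.r0 hR), c.f2 _ _ (by omega) (c.r1 hR),
    c.fU _ _ _ _ h0 hy hU (c.r2 hR) hR⟩

end Cel

end Crest.Agent.N337.M
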