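import Crest.Agent.N337.M.Fin0
import Crest.Agent.N337.Rg.Fin

/-!
# Row 337, the chain (helper23): the cell claims from the final forms of G4, ENG, TP
-/

set_option autoImplicit false
set_option linter.unusedSectionVars false

namespace Crest.Agent.N337.M

open Finset Crest.Agent.N337.Free Crest.Agent.N337.Gas Crest.Agent.N337.A Crest.Agent.N337.Top
  Crest.Agent.N337.Par Crest.Agent.N337.Ld

variable {L n : ℕ} [NeZero L] [NeZero n]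

namespace Ctx
variable {u ms w : ℕ} {β : ℝ} {sy : List (Sl L n × Sl L n × ℝ)} (C : Ctx u ms β w sy)

lemma ptN : C9.PtN C.Q.toLf (Bw β) where
  n1 := (one_le_Dp 100).trans cE_eq.ge
  j1 := two_le_Y C.hu _
  l1 := pow_pos (Y_pos _ _) _
  l := ((ll_le C.bg).trans (Y_mono (by omega))).trans C.B1

variable (z : Tor 3 L)

/-- the point parties. -/
noncomputable abbrev pp : C9.Pp (C.I z) (GT β w sy) := C9.ppI (GT β w sy) C.Q z C.hT C.ptN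

/-- final form of G4. -/
structure J4 : Prop where
  f1 : ∀ m ≤ ms + 1, ∀ y d R, 0 ≤ y → y ≤ Yt u ms → d ≤ 2 → R ≤ Rr u m 30 →
    F1 (C.I z) (GT β w sy) (PP n u ms β z).Sd y d m ((ctm + 1) * ca) R (nx u m R) (Par.eps u m)
  n1 : ∀ m ≤ ms, ∀ y, 0 ≤ y → y ≤ Yt u ms →
    N1 (C.I z) (GT β w sy) (PP n u ms β z).Sd y 0 m (sx u (m + 1) 0 ^ 1000)

/-- joint (B): `F2` given an arc. -/
def JB : Prop := ∀ m ≤ ms + 1, ∀ Yp d R, 0 ≤ Yp → Yp ≤ Yt u ms → d ≤ 3 → R ≤ Rr u m 30 →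
  C9.F2A (C.pp z) (PP n u ms β z).Sd Yp d m ((ctm + 1) * ca) R (nx u m R) (Par.eps u m)

/-- the engine on the children. -/
def JN : Prop := ∀ m ≤ ms, ∀ Yp, 0 ≤ Yp → Yp ≤ Yt u ms →
  N2 (C.I z) (GT β w sy) (PP n u ms β z).Sd Yp 1 m (sx u (m + 1) 0 ^ 1000)

/-- final form of the covisit bounds. -/
structure J3 : Prop where
  tp : ∀ m ≤ ms + 1, ∀ Yp, yl u (3 * m) ≤ Yp → Yp ≤ Yt u ms →
    Rg.Tp3 (C.I z) (GT β w sy) (PP n u ms β z).Sd (C.Gr z m) m Yp (3 / Tf u (3 * m - 1))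
      (Par.eps u m) ((ctm + 1) * ca) (Rr u m 30) (nx u m)
  n3 : ∀ m ≤ ms, ∀ Yp, yl u (3 * m + 3) ≤ Yp → Yp ≤ Yt u ms → ∀ y D, 0 ≤ y → y ≤ Yp →
    Thin Yp (3 / Tf u (3 * m + 2)) D → N3 (C.I z) (GT β w sy) (PP n u ms β z).Sd
      (EK (GT β w sy) y Yp (Ld.mk D Yp)) 0 m (sx u (m + 1) 0 ^ 1000)

/-- the claims on the children, all scales. -/
def JC : Prop := ∀ m ≤ ms, ∀ Yp, yl u (3 * m + 3) ≤ Yp → Yp ≤ Yt u ms → C.Cen z m Yp

variable {C z}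

/-- **joint (A).** -/
theorem ja_of (h4 : C.J4 z) (hB : C.JB z) (h3 : C.J3 z) : C.JA z := fun m hm Yp h0 h1 =>
  ⟨(s_pos _ _).le, le_nx u m, fun y d R a b => h4.f1 m hm y d R a (b.trans h1),
    fun d R a b => (hB m hm Yp d R ((yl_nn _ _).trans h0) h1 a b).f2, (h3.tp m hm Yp h0 h1).fK,
    (h3.tp m hm Yp h0 h1).fH, (h3.tp m hm Yp h0 h1).fU⟩

theorem jc_of (h4 : C.J4 z) (hN : C.JN z) (h3 : C.J3 z) : C.JC z := fun m hm Yp h0 h1 =>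
  ⟨pow_nonneg (s_pos _ _).le _, fun y a b => h4.n1 m hm y a (b.trans h1),
    hN m hm Yp ((yl_nn _ _).trans h0) h1, h3.n3 m hm Yp h0 h1⟩

end Ctx

/-- a union bound over the children of a cell. -/
lemma vol_eps {u : ℕ} (hu : 100 ≤ u) (m : ℕ) :
    Par.eps u (m + 1) + ((2 * x u (m + 1) 0 + 1) ^ 3 : ℕ) * Par.eps u m ≤ sx u (m + 1) 0 ^ 1000 := by
  have h1 : Par.eps u (m + 1) ≤ Par.eps u m := s_anti (by omega)
  have h2 : (1 + ((2 * x u (m + 1) 0 + 1) ^ 3 : ℕ)) * s u (48 * (m + 1) + 11 + 1) ≤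
      s u (48 * (m + 1) + 11 + 0) ^ 1000 := by rtier! (48 * (m + 1) + 11)
  rw [add_mul, one_mul] at h2
  exact (add_le_add h1 le_rfl).trans h2

end Crest.Agent.N337.M
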