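import Crest.Agent.N337.M.CelI
import Crest.Agent.N337.Rg.FinC
import Crest.Agent.N337.Par.Fin4

/-!
# Row 337, the chain (helper23): `JA`, `JC` from the engine alone
-/

set_option autoImplicit false

namespace Crest.Agent.N337.M.Ctx

open Crest.Agent.N337.Free Crest.Agent.N337.A Crest.Agent.N337.Top Crest.Agent.N337.Par

variable {L n : ℕ} [NeZero L] [NeZero n] {u ms w : ℕ} {β : ℝ} {sy : List (Sl L n × Sl L n × ℝ)}
  (C : Ctx u ms β w sy) (z : Tor 3 L)

theorem j4 : C.J4 z :=
  ⟨fun _ a _ _ _ b c e f => C.f1c z (by omega) b c (by omega) f,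
    fun _ a _ b c => C.n1 z (by omega) b c (by omega)⟩

variable {C z}

/-- **joint (A)** from the engine. -/
theorem ja (hB : C.JB z) : C.JA z := ja_of (C.j4 z) hB (C.j3 z)

theorem jc (hN : C.JN z) : C.JC z := jc_of (C.j4 z) hN (C.j3 z)

end Crest.Agent.N337.M.Ctx
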