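import Crest.Agent.N337.M.TopA
import Crest.Agent.N337.Geo.Shell

/-!
# Row 337, the top (helper49): the variance bound from the chain
-/

set_option autoImplicit false
set_option linter.unusedSectionVars false

namespace Crest.Agent.N337.M

open Finset Equiv Filter Crest.Agent.N337.Rep Crest.Agent.N337.Op Crest.Agent.N337.Gas
  Crest.Agent.N337.A

namespace Tp

section gen
variable {Λ : Type} [Fintype Λ] [DecidableEq Λ] {T : ℕ} [NeZero T] {G : Bs T Λ}
  {W : Lp T Λ → ℝ} {s : Cfg T Λ} {K : ℕ}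

lemma yw_nn {y : ℝ} (hy : 0 ≤ y) (g : Lp T Λ) : 0 ≤ yw y g := ub_nn (fun v => by unfold Top.bt; split_ifs; exacts [hy, zero_le_one]) g

lemma pn_mem (hG : G.Ok) (s : Cfg T Λ) (r : Fin T) : 0 ≤ G.pn s r ∧ G.pn s r ≤ 1 :=
  pin_mem (fun r => ⟨(hG.p r).1, (hG.p r).2.trans (by norm_num)⟩) _ r

lemma u_supp {g : Lp T Λ} (h : s.u W g ≠ 0) {v : Fin T × Λ} (hv : v ∈ g.2) :
    v ∉ s.Z ∧ v ∉ pts s.e := not_or.1 fun h' => h (if_pos ⟨v, hv, mem_union.2 h'⟩)

/-- **the variance of the number of points on short loops.** -/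
theorem var_NG {In : Cfg T Λ → Prop} {σ : ℕ} {C K' η c N : ℝ} {S : Finset Λ} (hG : G.Ok)
    (hW : ∀ g, 0 ≤ W g) (hv : G.Val s) (hI : In s) (hL : G.LP W In σ C K' η) (hC : 0 ≤ C)
    (hS : ∀ v, v ∉ s.Z → v.2 ∈ S) (hN : (S.card : ℝ) ≤ N) (c0 : 0 ≤ c)
    (hc : ∀ B : Finset Λ, (∀ x ∈ B, ∀ z ∈ B, G.d x z ≤ σ) → (B.card : ℝ) ≤ c) :
    var (G.gs W s) (NG K) ≤ C * (K * N + c * N + η * N ^ 2) := by
  classical
  obtain ⟨m, μ, h⟩ := hL s hv hI
  have hq : ∀ s, Cpt (G.q s) := fun s => cpt_qq (pn_mem hG s)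
  have hp : Pr (G.gs W s) := pr_nu (hq s) (off_nn hW)
  have S0 : 0 ≤ N := (Nat.cast_nonneg _).trans hN
  have b0 : ∀ A, G.gs W s A ≠ 0 → NG K A ≤ N := fun A hA => (NG_le (nu_supp hA).1
    fun g hg v hv => hS v (u_supp ((nu_supp hA).2 g hg) hv).1).trans hN
  refine (h.var _).trans (mul_le_mul_of_nonneg_left (add_le_add (add_le_add ?_ ?_) ?_) hC)
  · rw [← hp.ex_const (K * _)]
    refine ex_mono_ae hp.nn fun A hA => le_trans (sum_le_sum (g := fun g => K * kw K g)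
      fun g hg => ?_) ?_
    · rw [NG, NG, ← add_sum_erase A _ hg, add_sub_cancel_right, sq]
      exact mul_le_mul_of_nonneg_right (kw_le K g) (kw_nn K g)
    · rw [← mul_sum]; exact mul_le_mul_of_nonneg_left (b0 A hA) (Nat.cast_nonneg _)
  · have h1 : ∑ i, m.c i ≤ 1 := by
      refine le_trans (sum_le_sum fun i _ => ?_) ((h.dom (fun _ => 1) fun _ => zero_le_one).trans_eq
        (hp.ex_const 1))
      by_cases hi : m.c i = 0
      · simp [Bs.fE, hi]
      · have : Pr (G.fl m s i) := pr_nu (hq _) (off_nn (yw_nn (h.ok i hi).2.2.1))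
        rw [Bs.fE, this.ex_const, mul_one]
    refine le_trans (sum_le_sum (g := fun i => m.c i * (c * N)) fun i _ => ?_) ?_
    · by_cases hi : m.c i = 0
      · simp [hi]
      refine mul_le_mul_of_nonneg_left ?_ (h.c0 i)
      obtain ⟨a1, a2, a3, -⟩ := h.ok i hi
      obtain ⟨B, b1, b2, b3⟩ := h.cls i hi fun ho => (h.opn i hi ho).2
      have hp' : Pr (G.fl m s i) := pr_nu (hq _) (off_nn (yw_nn a3))
      have e : var (G.fl m s i) (fun A => NG K (m.x i ∪ A)) = var (G.fl m s i) (NG K) := by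
        have : ∀ A, G.fl m s i A ≠ 0 → NG K (m.x i ∪ A) = NG K (m.x i) + NG K A := fun A hA =>
          sum_union (disjoint_left.2 fun g hg hg' => by
            obtain ⟨v, hv⟩ := qq_nonempty (nu_supp hA).1 hg'
            exact (u_supp (s := m.cf s i) ((nu_supp hA).2 g hg') hv).2
              (mem_pts.2 ⟨g, mem_union_right _ hg, hv⟩))
        rw [var_congr this]
        simp only [var, ex_add, hp'.ex_const, add_sub_add_left_eq_sub]
      rw [e]
      exact (var_blk b1 (pn_mem hG _) (off_nn (yw_nn a3)) c0 (fun i => hc _ (b2 i))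
        fun g hg v hv => ⟨hS v fun h' => (u_supp (s := m.cf s i) hg hv).1 (a2 h'),
          b3 v (u_supp (s := m.cf s i) hg hv).1⟩).trans (mul_le_mul_of_nonneg_left hN c0)
    · rw [← sum_mul]; exact mul_le_of_le_one_left (mul_nonneg c0 S0) h1
  · have e0 : s.add ∅ = s := by simp [Cfg.add]
    have h1 := h.rare ∅ (e0.symm ▸ hv) (e0.symm ▸ hI)
    have e1 : ∀ A, G.gs W s A ≠ 0 → G.ph s ∅ A = 1 := fun A hA => by
      rw [Bs.ph, if_pos (disjoint_empty_right A), sh, union_empty, div_self (nu_supp hA).1]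
    have sp : ∀ A, μ A ≠ 0 → G.gs W s A ≠ 0 := fun A hA h0 =>
      hA (le_antisymm (by simpa [h0] using h.μ1 A) (h.μ0 A))
    rw [ex_congr e1, hp.ex_const, mul_one] at h1
    refine le_trans ?_ (mul_le_mul_of_nonneg_right h1 (sq_nonneg _))
    rw [mul_comm, ← ex_mul, nsq_eq_ex]
    refine ex_mono_ae h.μ0 fun A hA => ?_
    rw [e1 A (sp A hA), mul_one]
    exact pow_le_pow_left₀ (NG_nn K A) (b0 A (sp A hA)) 2

lemma var_sum (hG : G.Ok) (hW : ∀ g, 0 ≤ W g) {F : Finset (Lp T Λ) → ℝ} {lam a : ℝ}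
    (h : lam * var (G.gs W s) F ≤ a) :
    lam * ((∑ A, gw (G.q s) (s.u W) A * F A ^ 2) * (∑ A, gw (G.q s) (s.u W) A * F A ^ 0) -
      (∑ A, gw (G.q s) (s.u W) A * F A ^ 1) ^ 2) ≤
      a * (∑ A, gw (G.q s) (s.u W) A * F A ^ 0) ^ 2 := by
  have hq : Cpt (G.q s) := cpt_qq (pn_mem hG _)
  have hZ : 0 < gZ (G.q s) (s.u W) := Gas.gZ_pos hq (off_nn hW)
  have hp : Pr (G.gs W s) := pr_nu hq (off_nn hW)
  simp only [pow_zero, pow_one, mul_one]
  rw [hp.var_eq, nsq_eq_ex, Bs.gs, ex_nu, ex_nu] at h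
  change lam * (_ * gZ _ _ - _) ≤ _ * gZ _ _ ^ 2
  refine le_trans (le_of_eq ?_) (mul_le_mul_of_nonneg_right h (sq_nonneg _))
  field_simp

lemma val_empty (hG : G.Ok) (h : s.e = ∅) : G.Val s := by
  rw [Bs.Val, h, (cpt_qq fun r => ⟨(hG.p r).1, (hG.p r).2.trans (by norm_num)⟩).empty]
  exact one_ne_zero

lemma tw_eq (y t : ℝ) (K : ℕ) (g : Lp T Λ) : tw y t K g = yw y g * Real.exp (t * kw K g) := by
  simp [tw, kw]

end gen

section word
open Crest.Agent.N337.Top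
variable {L n : ℕ} [NeZero L] [NeZero n]

lemma card_cubeS (z : Tor 3 L) (l : ℕ) : (cubeS n z l).card ≤ n * l ^ 3 := by
  have := card_le_card_of_injOn (s := cubeS n z l)
    (t := (univ : Finset (Fin n)) ×ˢ Fintype.piFinset fun _ : Fin 3 => range l)
    (fun x => (x.2, coz z x)) (fun x hx => by
      simpa [coz, cube] using mem_cubeS.1 (mem_coe.1 hx)) fun x _ y _ h => by
      refine Prod.ext (funext fun a => ?_) (congrArg Prod.fst h)
      exact sub_left_injective (ZMod.val_injective _ (congrFun (congrArg Prod.snd h) a))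
  simpa using this

lemma card_diam {σ : ℕ} (B : Finset (Sl L n)) (h : ∀ x ∈ B, ∀ z ∈ B, dS x z ≤ σ) :
    (B.card : ℝ) ≤ n * (2 * σ + 1) ^ 3 := by
  rcases B.eq_empty_or_nonempty with rfl | ⟨x, hx⟩
  · simp only [card_empty, Nat.cast_zero]; positivity
  have h1 : B ⊆ Geo.bl x.1 σ ×ˢ univ := fun z hz =>
    mem_product.2 ⟨Geo.mem_bl.2 (h x hx z hz), mem_univ _⟩
  have h2 := Geo.card_bl x.1 σ
  refine (Nat.cast_le.2 (card_le_card h1)).trans ?_
  rw [card_product, card_univ, Fintype.card_fin, mul_comm]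
  push_cast at h2 ⊢
  exact mul_le_mul_of_nonneg_left h2 (Nat.cast_nonneg _)

lemma GT_ok {β : ℝ} {w : ℕ} {sy : List (Sl L n × Sl L n × ℝ)} (hβ : 0 ≤ β) (hs : Sym sy) :
    (GT β w sy).Ok := ⟨Sh.pp_mem hβ hs, met_word hs⟩

lemma s0_u {T : ℕ} [NeZero T] (y t : ℝ) (K : ℕ) (z : Tor 3 L) (l : ℕ) (g : Lp T (Sl L n)) :
    (s0 z l).u (tw y t K) g = ub (bx y z l) g * Real.exp (t * kw K g) := by
  have : bx (n := n) (T := T) y z l = kill (bt y) (s0 z l).K := by
    funext v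
    have : v ∈ (s0 (n := n) (T := T) z l).K ↔ v.2.1 ∉ cube z l := by simp [Cfg.K, s0, pts]
    unfold bx kill
    by_cases h : v.2.1 ∈ cube z l
    · rw [if_pos h, if_neg fun h' => this.1 h' h]
    · rw [if_neg h, if_pos (this.2 h)]
  rw [this, ub_kill, Cfg.u, off, off, tw_eq, yw]
  split_ifs <;> simp

end word

end Tp

export Tp (card_cubeS)

open Tp Crest.Agent.N337.Top in
/-- **(Top)** -/
theorem top : TopStmt := by
  intro hC n _
  obtain ⟨β0, hC⟩ := hC n
  refine ⟨max β0 0, fun β hβ K ε hε => ?_⟩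
  obtain ⟨x, lam, C, K', η, l, σ, h1, h2, h3, h4, h5, h6, hC⟩ :=
    hC β ((le_max_left _ _).trans hβ) K ε hε
  have hβ0 : 0 ≤ β := (le_max_right _ _).trans hβ
  have hl : 0 ≤ lam := by nlinarith
  refine ⟨x, lam, l, h1, h2, h3, h4, hC.mono fun L hL sy hs => (hL sy hs).mono ?_⟩
  intro w hw z t t0 t1
  obtain ⟨In, hI, hLP⟩ := hw z t t0 t1
  have hG := GT_ok (w := w) hβ0 hs
  set G := GT β w sy with hGd
  set W : Lp (TT β w sy) (Sl (L + 1) n) → ℝ := tw (Real.exp (-x)) t K with hW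
  have W0 : ∀ g, 0 ≤ W g := fun g => mul_nonneg (yw_nn (Real.exp_pos _).le g) (Real.exp_pos _).le
  have hV := var_NG (K := K) (S := cubeS n z l) hG W0 (val_empty hG rfl) hI hLP h5
    (fun v h => mem_cubeS.2 (by simpa [s0] using h)) (N := n * l ^ 3)
    (by exact_mod_cast card_cubeS z l) (by positivity) card_diam
  have hm : ∀ j : ℕ, EW β w sy (bx (Real.exp (-x)) z l)
      (fun π D => Real.exp (t * Ns K π D) * (Ns K π D : ℝ) ^ j) =
      ∑ A, gw (G.q (s0 z l)) ((s0 z l).u W) A * NG K A ^ j := fun j => by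
    rw [EW, EE_gas (F := fun A => Real.exp (t * NG K A) * NG K A ^ j) _ fun ξ D h => by
      rw [Ns_eq h]]
    refine sum_congr rfl fun A _ => ?_
    simp only [gw, hW, s0_u, prod_mul_distrib, ← Real.exp_sum, ← mul_sum, NG]
    simp only [Bs.q, Bs.pn, s0, pin_empty, hGd, GT]
    ring
  intro m
  simp only [m, hm]
  refine var_sum hG W0 ((mul_le_mul_of_nonneg_left hV hl).trans ?_)
  refine le_trans (le_of_eq ?_) (mul_le_mul_of_nonneg_right h6 (by positivity))
  ring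

end Crest.Agent.N337.M
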