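import Crest.Agent.N337.M.Cls
import Crest.Agent.N337.M.Peel
import Crest.Agent.N337.I.Geom
import Crest.Agent.N337.M.Box
import Crest.Agent.N337.M.Zero
import Crest.Agent.N337.M.Top
import Crest.Agent.N337.Top.Fin
import Crest.Agent.N337.Top.Short
import Crest.Agent.N337.Top.Kill
import Crest.Agent.N337.Top.Sym
import Crest.Agent.N337.Top.Bridge

/-!
# Row 337, the chain (helper56): the instance on the torus and the final assembly
-/

set_option autoImplicit false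
set_option linter.unusedSectionVars false

namespace Crest.Agent.N337.M

open Finset Filter Crest.Agent.N337.Gas Crest.Agent.N337.A Crest.Agent.N337.Top

variable {L n : ℕ} [NeZero L] [NeZero n]

/-- the rung of the torus word (grid with corner `z0`). -/
noncomputable abbrev insT (Q : I.Num) (z0 : Tor 3 L) (β : ℝ) (w : ℕ)
    (sy : List (Sl L n × Sl L n × ℝ)) :
    Ins (TT β w sy) (Sl L n) (Tor 3 L) (I.Ev L n (TT β w sy)) (Finset (Tor 3 L)) :=
  I.ins (Top.ex β w sy) (Top.ey β w sy) Q z0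

lemma ok_GT {β : ℝ} (hβ : 0 ≤ β) (w : ℕ) {sy : List (Sl L n × Sl L n × ℝ)} (hs : Sym sy) :
    (GT β w sy).Ok := ⟨Sh.pp_mem hβ hs, met_word hs⟩

/-- without pins every cell has rung `0`. -/
lemma good_bot {X α κ : Type} [Fintype X] [SemilatticeSup α] [Preorder κ] (S : Rg.Sys X α κ)
    {E : α} {Z : κ} (h : ∀ x, S.G0 0 E Z x) (d m t : ℕ) (x : X) : S.Good d E Z m t x := by
  classical
  induction m generalizing t x with
  | zero => exact S.G0_mono (Nat.zero_le t) le_rfl le_rfl (h x)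
  | succ m ih =>
    refine ⟨∅, by simp, fun y _ _ => ih _ y, fun l _ c => ?_⟩
    rw [filter_eq_empty_iff.2 fun y _ hy => hy.2.2.2 (ih _ y)]
    simp

lemma cl_s0 (Q : I.Num) (z0 z : Tor 3 L) (β : ℝ) (w : ℕ) (sy : List (Sl L n × Sl L n × ℝ))
    (l m t R : ℕ) (F : Finset (Tor 3 L)) : (insT Q z0 β w sy).Cl m t F R (s0 z l) := by
  classical
  refine fun x _ => good_bot _ (fun x i => ?_) _ _ _ x
  have e : (insT Q z0 β w sy).pa (s0 z l).e = ⊥ := I.ev_empty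
  rw [e]
  have key : ∀ Z k z r, I.cnt (I.vis Z (∅ : Finset (I.V L n (TT β w sy)))) k z r = 0 :=
    fun Z k z r => I.cnt_zero fun y hy => absurd (I.vis_sub hy) (notMem_empty _)
  refine ⟨fun k _ => (key _ k x _).trans_le (Nat.zero_le _),
    fun i' _ => (sum_eq_zero fun k _ => key _ k x _).trans_le (Nat.zero_le _), ?_⟩
  rw [filter_eq_empty_iff.2 fun i' _ ⟨k, _, z, _, h2⟩ => by
    have := key ((insT Q z0 β w sy).kz (s0 z l).Z) k z Q.A
    exact absurd (h2.trans_eq this) (by norm_num)]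
  simp

/-- **everything that remains**: parameters and deliverables of all levels and of the top. -/
def FinStmt : Prop :=
  ∀ (n : ℕ) [NeZero n], ∃ β0 : ℝ, ∀ β : ℝ, β0 ≤ β → ∀ (K : ℕ) (ε : ℝ), 0 < ε →
    ∃ (J l σ : ℕ) (Tf : ℕ → ℝ) (lam η : ℝ), Tf 0 = 0 ∧
      (∀ j, 0 < Tf (j + 1) ∧ Tf (j + 1) ≤ Tf (j + 2)) ∧ 1 / Tf (J + 1) ≤ ε * lam ∧ lam ≤ ε ∧
      β ≤ ε * (1 / Tf (J + 1)) * l ∧ (J + 1) % 3 ≠ 0 ∧
      lam * (c1 * (1 + c1)) * (n * K + n ^ 2 * (2 * σ + 1) ^ 3 + η * n ^ 2 * l ^ 3) ≤ ε ∧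
      ∀ᶠ L : ℕ in atTop, ∀ sy : List (Sl (L + 1) n × Sl (L + 1) n × ℝ), Sym sy →
        ∀ᶠ w : ℕ in atTop, ∀ z : Tor 3 (L + 1), ∃ (Q : I.Num) (P : Par (Sl (L + 1) n)),
          P.Tf = Tf ∧ P.σ (J + 1) = σ ∧ 12 * P.e (J + 1) = η ∧ 0 ≤ P.e 0 ∧
          P.Dm = cubeS n z l ∧ n * l ^ 3 ≤ P.N (J + 1) ∧
          (∀ j ≤ J, P.Dlv (insT Q z β w sy) (GT β w sy) j) ∧
          ∀ t, 0 ≤ t → t ≤ lam →
            let V := P.lev (insT Q z β w sy) (GT β w sy)
            V.AdmW J (tw (V.y (J + 1)) t K) ∧ (GT β w sy).StepH (tw (V.y (J + 1)) t K) (V.y J)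
              (fun s => s = s0 z l) (V.Post (J + 1)) (V.e (J + 1) / 10)

theorem chain_of (hO : BoxOStmt) (hC : BoxCStmt) (hM : MonoStmt) (hZ : ZeroStmt) (hF : FinStmt) :
    ChainStmt := by
  intro n _
  obtain ⟨β0, hF⟩ := hF n
  refine ⟨max β0 0, fun β hβ K ε hε => ?_⟩
  obtain ⟨J, l, σ, Tf, lam, η, t0, t1, a1, a2, a3, a5, a4, hF⟩ :=
    hF β ((le_max_left _ _).trans hβ) K ε hε
  refine ⟨1 / Tf (J + 1), lam, c1 * (1 + c1), 20, η, l, σ, one_div_pos.2 (t1 J).1, a1, a2, a3,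
    by norm_num [c1], a4, hF.mono fun L hL sy hs => (hL sy hs).mono fun w hw z t h1 h2 => ?_⟩
  obtain ⟨Q, P, rfl, rfl, rfl, e0, b1, b2, hD, hT⟩ := hw z
  obtain ⟨c, d⟩ := hT t h1 h2
  have hG := ok_GT ((le_max_right _ _).trans hβ) w hs
  have T0 : ∀ j, 0 ≤ P.Tf j := fun j => by
    cases j with
    | zero => exact t0.ge
    | succ j => exact (t1 j).1.le
  refine ⟨fun s => s = s0 z l, rfl, ?_⟩
  have ey : (P.lev (insT Q z β w sy) (GT β w sy)).y (J + 1) = Real.exp (-(1 / P.Tf (J + 1))) := by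
    rw [Lev.y, if_neg (by omega), neg_div]; rfl
  rw [← ey]
  refine Lev.top peel hM hZ hG t0 T0 (fun j => ?_) e0
    (fun j hj => (hD j hj).step hO hC hM hZ hG) c ⟨⟨⟨⟨cubeS n z l, (card_cubeS z l).trans b2,
      fun v hv => ?_⟩, fun v hv => ?_⟩, fun h => absurd h a5⟩, cl_s0 _ _ _ _ _ _ _ _ _ _ _⟩ d
  · cases j with
    | zero => rw [Lev.y, if_pos rfl]; exact Lev.y_nn _
    | succ j =>
      rw [Lev.y, Lev.y, if_neg (by omega), if_neg (by omega), neg_div, neg_div]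
      exact Real.exp_le_exp.2 (neg_le_neg (one_div_le_one_div_of_le (t1 j).1 (t1 j).2))
  · exact mem_cubeS.2 (by simpa [s0] using hv)
  · rw [b1]; exact mem_cubeS.2 (by simpa [s0] using hv)

/-- **the polar bound** from the blocks. -/
theorem polar (hF : FinStmt) (hL : LongStmt) : C.PolarStmt :=
  polar_of sym bridge (short kill (top (chain_of boxO' boxC' monoStmt zeroStmt hF))) hL

end Crest.Agent.N337.M
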