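import Crest.Agent.N337.M.Bas

/-!
# Row 337, the chain (helper56): composition of stages
-/

set_option autoImplicit false
set_option linter.unusedSectionVars false

namespace Crest.Agent.N337.M

open Finset Crest.Agent.N337.Op Crest.Agent.N337.Gas Crest.Agent.N337.A

variable {Λ : Type} [Fintype Λ] [DecidableEq Λ] {T : ℕ} [NeZero T] {G : Bs T Λ}
  {s : Cfg T Λ} {W : Lp T Λ → ℝ} {m : Mix T Λ}

/-- fibres of fibres. -/
def Mix.comp (m : Mix T Λ) (n : m.I → Mix T Λ) : Mix T Λ where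
  I := Σ i, (n i).I
  c k := m.c k.1 * (n k.1).c k.2
  x k := m.x k.1 ∪ (n k.1).x k.2
  Z k := (n k.1).Z k.2
  lv k := (n k.1).lv k.2
  op k := (n k.1).op k.2

/-- the fibre itself, closed. -/
def Mix.triv (Z : Finset (Fin T × Λ)) (y : ℝ) : Mix T Λ where
  I := Unit
  c _ := 1
  x _ := ∅
  Z _ := Z
  lv _ := y
  op _ := False

lemma Mix.cf_comp (n : m.I → Mix T Λ) (k : (m.comp n).I) :
    (m.comp n).cf s k = (n k.1).cf (m.cf s k.1) k.2 := by
  simp only [Mix.cf, Mix.comp, union_assoc]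

lemma Mix.cf_triv (s : Cfg T Λ) (y : ℝ) (k : Unit) : (Mix.triv s.Z y).cf s k = s := by
  simp [Mix.cf, Mix.triv]

/-- push forward of measures on the fibres. -/
noncomputable def Mix.push (m : Mix T Λ) (ν : m.I → Finset (Lp T Λ) → ℝ) (w : Finset (Lp T Λ)) :
    ℝ := ∑ i, m.c i * ∑ A, if m.x i ∪ A = w then ν i A else 0

lemma Mix.ex_push (ν : m.I → Finset (Lp T Λ) → ℝ) (F : Finset (Lp T Λ) → ℝ) :
    Op.ex (m.push ν) F = ∑ i, m.c i * Op.ex (ν i) fun A => F (m.x i ∪ A) := by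
  simp only [Op.ex, Mix.push, sum_mul, mul_sum]
  rw [sum_comm]
  refine sum_congr rfl fun i _ => ?_
  rw [sum_comm]
  refine sum_congr rfl fun A _ => ?_
  simp only [mul_ite, ite_mul, mul_zero, zero_mul, sum_ite_eq, mem_univ, if_true, mul_assoc]

namespace Bs

lemma fl_comp (n : m.I → Mix T Λ) (k : (m.comp n).I) :
    G.fl (m.comp n) s k = G.fl (n k.1) (m.cf s k.1) k.2 := by
  rw [fl, Mix.cf_comp]; rfl

lemma fE_comp (n : m.I → Mix T Λ) (F : Finset (Lp T Λ) → ℝ) (i : m.I) (j : (n i).I) :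
    G.fE (m.comp n) s F ⟨i, j⟩ = m.c i * G.fE (n i) (m.cf s i) (fun A => F (m.x i ∪ A)) j := by
  simp only [fE, fl_comp]
  simp only [Mix.comp, union_assoc, mul_assoc]

lemma res_comp (n : m.I → Mix T Λ) (F : Finset (Lp T Λ) → ℝ) :
    G.res (m.comp n) s F = ∑ i, m.c i * G.res (n i) (m.cf s i) fun A => F (m.x i ∪ A) := by
  simp only [res, fl_comp, mul_sum]
  refine (Fintype.sum_sigma _).trans (sum_congr rfl fun i _ => sum_congr rfl fun j _ => ?_)
  simp only [Mix.comp, union_assoc, mul_assoc]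

lemma red_triv {y y'' C K ε : ℝ} {In Out : Cfg T Λ → Prop} {σ : ℕ} (hG : G.Ok) (h : G.Val s)
    (hy : 0 ≤ y) (hy1 : y ≤ 1) (hB : G.Bk σ s.Z) (hC : 1 ≤ C) (hK : 0 ≤ K) (hε : 0 ≤ ε) :
    G.Red (yw y) y'' In Out σ C K ε s (Mix.triv s.Z y) fun _ => 0 := by
  have hp := hG.pr (yw_nn hy) s
  have e : ∀ k, G.fl (Mix.triv s.Z y) s k = G.gs (yw y) s := fun k => by
    rw [fl, Mix.cf_triv]; rfl
  have e0 : ∀ x0, 0 ≤ ε * Op.ex (G.gs (yw y) s) (G.ph s x0) := fun x0 =>
    mul_nonneg hε (ex_nn hp.nn (ph_nn hG s x0))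
  refine ⟨fun _ => zero_le_one, fun k _ => ⟨by rwa [Mix.cf_triv], Subset.rfl, hy, hy1⟩,
    fun _ _ h => h.elim, fun _ _ _ => hB, fun F _ => ?_, fun F => ?_, fun _ => le_rfl,
    fun w => mul_nonneg hK (hp.nn w), fun x0 _ _ => ?_, fun x0 _ _ => ?_⟩
  · simp only [fE, e]; simp [Mix.triv]
  · have : G.res (Mix.triv s.Z y) s F = var (G.gs (yw y) s) F := by
      simp only [res, e]; simp [Mix.triv]
    rw [this]
    have h1 := Dir_nn hp.nn F
    have h2 := var_nn hp.nn F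
    have h3 : nsq (fun _ : Finset (Lp T Λ) => (0 : ℝ)) F = 0 := by simp [nsq]
    rw [h3]; nlinarith
  · simpa [Op.ex] using e0 x0
  · simpa [Mix.triv] using e0 x0

lemma Dir_fib {s' : Cfg T Λ} {x : Finset (Lp T Λ)} (hG : G.Ok) (hW : ∀ g, 0 ≤ W g) (h : G.Val s')
    (hx : x ⊆ s'.e) (F : Finset (Lp T Λ) → ℝ) : Dir (G.gs W s') (fun A => F (x ∪ A)) ≤
      Op.ex (G.gs W s') fun A => ∑ g ∈ x ∪ A, (F (x ∪ A) - F ((x ∪ A).erase g)) ^ 2 := by
  refine sum_le_sum fun A _ => ?_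
  by_cases hA : G.gs W s' A = 0
  · simp [hA]
  refine mul_le_mul_of_nonneg_left ?_ ((hG.pr hW s').nn A)
  have hd := (h.disj hA).mono_left hx
  refine le_trans (le_of_eq (sum_congr rfl fun g hg => ?_))
    (sum_le_sum_of_subset_of_nonneg subset_union_right fun _ _ _ => sq_nonneg _)
  rw [erase_union_distrib, erase_eq_of_notMem (disjoint_right.1 hd hg)]

end Bs

open Bs in
theorem comp : CompStmt := by
  intro Λ _ _ T _ G W y' y'' In Mid Out σ C K ε C' K' ε' hG hW hC hC' hK' hε hε' h1 h2 s hs hI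
  classical
  obtain ⟨m, μ, R⟩ := h1 s hs hI
  have hp := hG.pr hW s
  have key : ∀ i, ∃ n ν, m.c i ≠ 0 →
      G.Red (yw (m.lv i)) y'' Mid Out σ C' K' ε' (m.cf s i) n ν ∧
        (¬ m.op i → (∀ j, ¬ n.op j) ∧ ∀ A, ν A = 0) := fun i => by
    by_cases hc : m.c i = 0
    · exact ⟨m, μ, fun h => absurd hc h⟩
    obtain ⟨v1, -, v2, v3⟩ := R.ok i hc
    by_cases ho : m.op i
    · obtain ⟨e1, e2⟩ := R.opn i hc ho
      obtain ⟨n, ν, h⟩ := h2 _ v1 e2
      exact ⟨n, ν, fun _ => ⟨e1 ▸ h, fun h => absurd ho h⟩⟩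
    · exact ⟨Mix.triv (m.cf s i).Z (m.lv i), fun _ => 0, fun _ =>
        ⟨red_triv hG v1 v2 v3 (R.cls i hc ho) hC' hK' hε', fun _ => ⟨fun _ h => h, fun _ => rfl⟩⟩⟩
  choose n ν hn using key
  have pf : ∀ i, m.c i ≠ 0 → Pr (G.fl m s i) := fun i hc => hG.pr (yw_nn (R.ok i hc).2.2.1) _
  -- termwise comparison
  have cmp : ∀ {a b : m.I → ℝ}, (∀ i, m.c i ≠ 0 → a i ≤ b i) →
      ∑ i, m.c i * a i ≤ ∑ i, m.c i * b i := fun h => sum_le_sum fun i _ => by
    by_cases hc : m.c i = 0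
    · simp [hc]
    · exact mul_le_mul_of_nonneg_left (h i hc) (R.c0 i)
  have c1 : ∀ k : (m.comp n).I, (m.comp n).c k ≠ 0 → m.c k.1 ≠ 0 ∧ (n k.1).c k.2 ≠ 0 :=
    fun k h => mul_ne_zero_iff.1 h
  -- the weight `ph` on a fibre
  have phi : ∀ x0 i, m.c i ≠ 0 → (fun A => G.ph s x0 (m.x i ∪ A)) = G.ph (m.cf s i) x0 ∧
      G.Val ((m.cf s i).add x0) ∨ (fun A => G.ph s x0 (m.x i ∪ A)) = fun _ => 0 := fun x0 i hc => by
    have v1 := (R.ok i hc).1
    by_cases hd : Disjoint (m.x i) x0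
    · have e : (fun A => G.ph s x0 (m.x i ∪ A)) = G.ph (m.cf s i) x0 :=
        funext fun A => by rw [ph_union hs v1 rfl, if_pos hd]
      by_cases hv : G.Val ((m.cf s i).add x0)
      · exact .inl ⟨e, hv⟩
      · exact .inr (e.trans (funext fun A => ph_eq_zero hG v1 hv A))
    · exact .inr (funext fun A => by rw [ph_union hs v1 rfl, if_neg hd])
  have phn : ∀ x0 i, m.c i ≠ 0 → 0 ≤ Op.ex (G.fl m s i) fun A => G.ph s x0 (m.x i ∪ A) :=
    fun x0 i hc => ex_nn (pf i hc).nn fun A => ph_nn hG s x0 _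
  have split : ∀ x0 (k : ℝ) (a : m.I → ℝ), G.Val (s.add x0) → In (s.add x0) → 0 ≤ k →
      (∀ i, m.c i ≠ 0 → a i ≤ (ε' + if m.op i ∧ ¬ Mid ((m.cf s i).add x0) then k else 0) *
        Op.ex (G.fl m s i) fun A => G.ph s x0 (m.x i ∪ A)) →
      ∑ i, m.c i * a i ≤ (ε' + k * ε) * Op.ex (G.gs W s) (G.ph s x0) := fun x0 k a v hi hk h => by
    refine (cmp h).trans ?_
    have a1 := mul_le_mul_of_nonneg_left (R.dom _ (ph_nn hG s x0)) hε'
    have a2 := mul_le_mul_of_nonneg_left (R.next x0 v hi) hk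
    rw [add_mul, mul_assoc]
    refine le_trans (le_of_eq ?_) (add_le_add a1 a2)
    rw [mul_sum, mul_sum, ← sum_add_distrib]
    refine sum_congr rfl fun i _ => ?_
    unfold fE
    split_ifs <;> ring
  refine ⟨m.comp n, fun w => μ w + m.push ν w, fun k => ?_, fun k hk => ?_, fun k hk ho => ?_,
    fun k hk ho => ?_, fun F hF => ?_, fun F => ?_, fun w => ?_, fun w => ?_,
    fun x0 v hi => ?_, fun x0 v hi => ?_⟩
  · by_cases hc : m.c k.1 = 0
    · simp [Mix.comp, hc]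
    · exact mul_nonneg (R.c0 _) ((hn _ hc).1.c0 _)
  · obtain ⟨a, b⟩ := c1 k hk
    obtain ⟨v1, v2, v3⟩ := (hn _ a).1.ok _ b
    exact ⟨by rwa [Mix.cf_comp], (R.ok _ a).2.1.trans v2, v3⟩
  · obtain ⟨a, b⟩ := c1 k hk
    rw [Mix.cf_comp]
    exact (hn _ a).1.opn _ b ho
  · obtain ⟨a, b⟩ := c1 k hk
    exact (hn _ a).1.cls _ b ho
  · refine le_trans ?_ (R.dom F hF)
    refine (le_of_eq ((Fintype.sum_sigma _).trans (sum_congr rfl fun i _ => ?_))).trans
      (cmp fun i hc => (hn i hc).1.dom (fun A => F (m.x i ∪ A)) fun A => hF _)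
    simp only [fE_comp, mul_sum]
  · have d0 := Dir_nn hp.nn F
    have n0 := nsq_nn R.μ0 F
    have a1 : ∑ i, m.c i * Dir (G.fl m s i) (fun A => F (m.x i ∪ A)) ≤ Dir (G.gs W s) F :=
      (cmp fun i hc => Dir_fib hG (yw_nn (R.ok i hc).2.2.1) (R.ok i hc).1 subset_union_right F).trans
        (R.dom (fun w => ∑ g ∈ w, (F w - F (w.erase g)) ^ 2) fun w => sum_nonneg fun _ _ => sq_nonneg _)
    have a2 : nsq (m.push ν) F = ∑ i, m.c i * nsq (ν i) fun A => F (m.x i ∪ A) :=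
      Mix.ex_push ν fun w => F w ^ 2
    have a3 : G.res m s F ≤ C' * (∑ i, m.c i * Dir (G.fl m s i) (fun A => F (m.x i ∪ A)) +
        G.res (m.comp n) s F + nsq (m.push ν) F) := by
      refine (cmp fun i hc => (hn i hc).1.var _).trans (le_of_eq ?_)
      rw [a2, res_comp, ← sum_add_distrib, ← sum_add_distrib, mul_sum]
      exact sum_congr rfl fun i _ => by unfold fl; ring
    have a4 : 0 ≤ G.res (m.comp n) s F := by
      rw [res_comp]
      refine le_trans (by simp) (cmp (a := fun _ => 0) fun i hc => sum_nonneg fun j _ => ?_)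
      by_cases hj : (n i).c j = 0
      · simp [hj]
      · exact mul_nonneg ((hn i hc).1.c0 j)
          (var_nn (hG.pr (yw_nn ((hn i hc).1.ok j hj).2.2.1) _).nn _)
    have a5 : 0 ≤ nsq (m.push ν) F := by
      rw [a2]
      exact le_trans (by simp) (cmp (a := fun _ => 0) fun i hc => nsq_nn (hn i hc).1.μ0 _)
    have a6 : nsq (fun w => μ w + m.push ν w) F = nsq μ F + nsq (m.push ν) F := by
      simp only [nsq, add_mul, sum_add_distrib]
    rw [a6, mul_assoc]
    refine (R.var F).trans (mul_le_mul_of_nonneg_left ?_ hC)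
    nlinarith [mul_le_mul_of_nonneg_left a1 (by linarith : 0 ≤ C')]
  · refine add_nonneg (R.μ0 w) (le_trans (by simp) (cmp (a := fun _ => 0) fun i hc => ?_))
    exact sum_nonneg fun A _ => by split_ifs; exacts [(hn i hc).1.μ0 A, le_rfl]
  · rw [add_mul]
    refine add_le_add (R.μ1 w) ?_
    have a1 := R.dom (fun w' => if w' = w then 1 else 0) fun w' => by split_ifs <;> norm_num
    have a2 : Op.ex (G.gs W s) (fun w' => if w' = w then 1 else 0) = G.gs W s w := by simp [Op.ex]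
    rw [a2] at a1
    refine le_trans ?_ (mul_le_mul_of_nonneg_left a1 hK')
    rw [mul_sum]
    refine (cmp (b := fun i => K' * Op.ex (G.fl m s i) fun A => if m.x i ∪ A = w then 1 else 0)
      fun i hc => ?_).trans (le_of_eq (sum_congr rfl fun i _ => by unfold fE; ring))
    rw [Op.ex, mul_sum]
    refine sum_le_sum fun A _ => ?_
    split_ifs
    · rw [mul_one]; exact (hn i hc).1.μ1 A
    · simp
  · have a1 : Op.ex (fun w => μ w + m.push ν w) (G.ph s x0) =
        Op.ex μ (G.ph s x0) + Op.ex (m.push ν) (G.ph s x0) := by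
      simp only [Op.ex, add_mul, sum_add_distrib]
    rw [a1, Mix.ex_push, add_assoc, add_mul]
    refine add_le_add (R.rare x0 v hi) (split x0 K' _ v hi hK' fun i hc => ?_)
    have p0 := phn x0 i hc
    by_cases ho : m.op i
    · rcases phi x0 i hc with ⟨e, hv⟩ | e
      · rw [e] at p0 ⊢
        by_cases hM : Mid ((m.cf s i).add x0)
        · simpa [hM, fl] using (hn i hc).1.rare x0 hv hM
        · rw [if_pos ⟨ho, hM⟩, add_mul]
          refine le_add_of_nonneg_of_le (mul_nonneg hε' p0) ?_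
          rw [Op.ex, Op.ex, mul_sum]
          exact sum_le_sum fun A _ => by
            rw [← mul_assoc]
            exact mul_le_mul_of_nonneg_right ((hn i hc).1.μ1 A) (ph_nn hG _ _ _)
      · rw [e]; simp [Op.ex]
    · simp only [Op.ex, ((hn i hc).2 ho).2, zero_mul, sum_const_zero, ho, false_and, if_false,
        add_zero]
      exact mul_nonneg hε' p0
  · have e0 : 0 ≤ Op.ex (G.gs W s) (G.ph s x0) := ex_nn hp.nn (ph_nn hG s x0)
    refine le_trans ?_ (mul_le_mul_of_nonneg_right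
      (by nlinarith [mul_nonneg hK' hε] : ε' + 1 * ε ≤ ε + ε' + K' * ε) e0)
    refine (le_of_eq ((Fintype.sum_sigma _).trans (sum_congr rfl fun i _ => ?_))).trans
      (split x0 1 (fun i => ∑ j, if (n i).op j ∧ ¬ Out (((n i).cf (m.cf s i) j).add x0) then
        G.fE (n i) (m.cf s i) (fun A => G.ph s x0 (m.x i ∪ A)) j else 0) v hi zero_le_one
        fun i hc => ?_)
    · simp only [fE_comp, mul_sum, Mix.cf_comp, mul_ite, mul_zero]; rfl
    have p0 := phn x0 i hc
    by_cases ho : m.op i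
    · rcases phi x0 i hc with ⟨e, hv⟩ | e
      · rw [e] at p0 ⊢
        by_cases hM : Mid ((m.cf s i).add x0)
        · simpa [hM, fl] using (hn i hc).1.next x0 hv hM
        · rw [if_pos ⟨ho, hM⟩, add_mul, one_mul]
          refine le_add_of_nonneg_of_le (mul_nonneg hε' p0)
            (le_trans (sum_le_sum fun j _ => ?_) ((hn i hc).1.dom _ (ph_nn hG _ x0)))
          split_ifs
          · exact le_rfl
          · by_cases hj : (n i).c j = 0
            · simp [fE, hj]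
            · exact mul_nonneg ((hn i hc).1.c0 j) (ex_nn
                (hG.pr (yw_nn ((hn i hc).1.ok j hj).2.2.1) _).nn fun _ => ph_nn hG _ _ _)
      · rw [e]; simp [fE, Op.ex]
    · simp only [((hn i hc).2 ho).1, false_and, if_false, sum_const_zero, ho, add_zero]
      exact mul_nonneg hε' p0

end Crest.Agent.N337.M
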