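import Crest.Agent.N337.Gas.Bridge
import Crest.Agent.N337.Pc.Defs
import Crest.Agent.N337.A.Lat

/-!
# Row 337, the chain (helper56): configurations, stages, the local Poincaré inequality

A configuration `s = (e, Z, cv)` = pinned loops, killed points, frozen cover centres.
`G.gs W s` = gas of the down loops with weights `W` in the configuration `s`.
A stage `Stg W y' In Out ..` bounds the variance of a gas of class `In` by the birth-death form, the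
variances on OPEN fibres (level `y'`, class `Out`) and on CLOSED fibres (small blocks), and a
residual measure `μ`; everything is rare given any extra pins `x0` with `s + x0 ∈ In`.
-/

set_option autoImplicit false
set_option linter.unusedSectionVars false

namespace Crest.Agent.N337.M

open Finset Crest.Agent.N337.Op Crest.Agent.N337.Gas Crest.Agent.N337.A

/-- the word: ends of the steps, coin biases, metric on the slots. -/
structure Bs (T : ℕ) (Λ : Type) where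
  ex : Fin T → Λ
  ey : Fin T → Λ
  p : Fin T → ℝ
  d : Λ → Λ → ℕ

/-- configurations: pinned loops, killed points, frozen cover centres. -/
structure Cfg (T : ℕ) (Λ : Type) where
  e : Finset (Lp T Λ)
  Z : Finset (Fin T × Λ)
  cv : Finset Λ

/-- a family of fibres: mass, new pins, killed points, fugacity, open or closed. -/
structure Mix (T : ℕ) (Λ : Type) where
  I : Type
  [fI : Fintype I]
  c : I → ℝ
  x : I → Finset (Lp T Λ)
  Z : I → Finset (Fin T × Λ)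
  lv : I → ℝ
  op : I → Prop

attribute [instance] Mix.fI

variable {Λ : Type} [Fintype Λ] [DecidableEq Λ] {T : ℕ} [NeZero T]

namespace Cfg
/-- more pins. -/
def add (s : Cfg T Λ) (x : Finset (Lp T Λ)) : Cfg T Λ := ⟨s.e ∪ x, s.Z, s.cv⟩
/-- more pins, more killed points. -/
def rev (s : Cfg T Λ) (x : Finset (Lp T Λ)) (U : Finset (Fin T × Λ)) : Cfg T Λ :=
  ⟨s.e ∪ x, s.Z ∪ U, s.cv⟩
/-- new cover centres. -/
def cov (s : Cfg T Λ) (F : Finset Λ) : Cfg T Λ := ⟨s.e, s.Z, F⟩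
/-- points that no alive loop meets. -/
def K (s : Cfg T Λ) : Finset (Fin T × Λ) := s.Z ∪ pts s.e
/-- weights of the alive loops. -/
def u (s : Cfg T Λ) (W : Lp T Λ → ℝ) : Lp T Λ → ℝ := off (Hit s.K) W
/-- at most `N` slots are not completely killed. -/
def Sup (N : ℕ) (s : Cfg T Λ) : Prop := ∃ S : Finset Λ, S.card ≤ N ∧ ∀ v, v ∉ s.Z → v.2 ∈ S
/-- classes decrease in the pins. -/
def Anti (P : Cfg T Λ → Prop) : Prop := ∀ s x, P (s.add x) → P s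
end Cfg

/-- the weight `y ^ winding`. -/
def yw (y : ℝ) : Lp T Λ → ℝ := ub (Top.bt y)

/-- the configuration of a fibre. -/
def Mix.cf (m : Mix T Λ) (s : Cfg T Λ) (i : m.I) : Cfg T Λ := ⟨s.e ∪ m.x i, m.Z i, s.cv⟩

namespace Bs
variable (G : Bs T Λ)

structure Ok : Prop where
  p : ∀ r, 0 ≤ G.p r ∧ G.p r ≤ 1 / 2
  d : Met G.ex G.ey G.d

/-- the pins are possible. -/
def Val (s : Cfg T Λ) : Prop := qq G.ex G.ey G.p s.e ≠ 0
/-- pinned coin biases. -/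
def pn (s : Cfg T Λ) : Fin T → ℝ := pin G.ex G.ey G.p s.e
/-- compatibility weights. -/
noncomputable def q (s : Cfg T Λ) : Finset (Lp T Λ) → ℝ := qq G.ex G.ey (G.pn s)
/-- the gas of the down loops. -/
noncomputable def gs (W : Lp T Λ → ℝ) (s : Cfg T Λ) : Finset (Lp T Λ) → ℝ := nu (G.q s) (s.u W)
/-- the model of block (a). -/
def mdl (y : ℝ) (s : Cfg T Λ) : Mdl T Λ := ⟨G.pn s, kill (Top.bt y) s.K⟩
/-- probability that all loops of `x0` are up loops, given the down loops `w`. -/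
noncomputable def ph (s : Cfg T Λ) (x0 w : Finset (Lp T Λ)) : ℝ :=
  if Disjoint w x0 then sh (G.q s) w x0 else 0
/-- mean over the loops of the top colour (medium `y'`, total weight `W`). -/
noncomputable def hE (W : Lp T Λ → ℝ) (y' : ℝ) (s : Cfg T Λ) (f : Finset (Lp T Λ) → ℝ) : ℝ :=
  Op.ex (nu (qL (G.q s)) (Pc.two (s.u (yw y')) (s.u fun g => W g - yw y' g)))
    fun X => f (fg (Pc.hi X))

/-- the points off `Z` lie in non adjacent blocks of diameter `≤ σ`. -/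
def Bk (σ : ℕ) (Z : Finset (Fin T × Λ)) : Prop :=
  ∃ B : Λ → Finset Λ, Apart G.ex G.ey B ∧ (∀ i, ∀ x ∈ B i, ∀ z ∈ B i, G.d x z ≤ σ) ∧
    ∀ v, v ∉ Z → ∃ i, v.2 ∈ B i
/-- the pins are slow off `Z`. -/
def Sl (v : ℕ) (s : Cfg T Λ) : Prop :=
  Slow G.ex G.ey G.d (fun r => cn s.e r = true ∨ G.d (G.ex r) (G.ey r) = 0) (fun u => u ∉ s.Z) v

/-- the law of a fibre. -/
noncomputable def fl (m : Mix T Λ) (s : Cfg T Λ) (i : m.I) : Finset (Lp T Λ) → ℝ :=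
  G.gs (yw (m.lv i)) (m.cf s i)
/-- mean of `F` on a fibre. -/
noncomputable def fE (m : Mix T Λ) (s : Cfg T Λ) (F : Finset (Lp T Λ) → ℝ) (i : m.I) : ℝ :=
  m.c i * Op.ex (G.fl m s i) fun A => F (m.x i ∪ A)
/-- total variance of `F` on the fibres. -/
noncomputable def res (m : Mix T Λ) (s : Cfg T Λ) (F : Finset (Lp T Λ) → ℝ) : ℝ :=
  ∑ i, m.c i * var (G.fl m s i) fun A => F (m.x i ∪ A)

open Classical in
/-- one reduction step in the configuration `s`. -/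
structure Red (W : Lp T Λ → ℝ) (y' : ℝ) (In Out : Cfg T Λ → Prop) (σ : ℕ) (C K ε : ℝ)
    (s : Cfg T Λ) (m : Mix T Λ) (μ : Finset (Lp T Λ) → ℝ) : Prop where
  c0 : ∀ i, 0 ≤ m.c i
  ok : ∀ i, m.c i ≠ 0 → G.Val (m.cf s i) ∧ s.Z ⊆ m.Z i ∧ 0 ≤ m.lv i ∧ m.lv i ≤ 1
  opn : ∀ i, m.c i ≠ 0 → m.op i → m.lv i = y' ∧ Out (m.cf s i)
  cls : ∀ i, m.c i ≠ 0 → ¬ m.op i → G.Bk σ (m.Z i)
  dom : ∀ F : Finset (Lp T Λ) → ℝ, (∀ w, 0 ≤ F w) → ∑ i, G.fE m s F i ≤ Op.ex (G.gs W s) F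
  var : ∀ F : Finset (Lp T Λ) → ℝ,
    var (G.gs W s) F ≤ C * (Dir (G.gs W s) F + G.res m s F + nsq μ F)
  μ0 : ∀ w, 0 ≤ μ w
  μ1 : ∀ w, μ w ≤ K * G.gs W s w
  rare : ∀ x0, G.Val (s.add x0) → In (s.add x0) →
    Op.ex μ (G.ph s x0) ≤ ε * Op.ex (G.gs W s) (G.ph s x0)
  next : ∀ x0, G.Val (s.add x0) → In (s.add x0) →
    ∑ i, (if m.op i ∧ ¬ Out ((m.cf s i).add x0) then G.fE m s (G.ph s x0) i else 0) ≤
      ε * Op.ex (G.gs W s) (G.ph s x0)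

/-- **a stage** from the class `In` (weights `W`) to the class `Out` (fugacity `y'`). -/
def Stg (W : Lp T Λ → ℝ) (y' : ℝ) (In Out : Cfg T Λ → Prop) (σ : ℕ) (C K ε : ℝ) : Prop :=
  ∀ s, G.Val s → In s → ∃ m μ, G.Red W y' In Out σ C K ε s m μ

/-- **LP**: all fibres are closed. -/
def LP (W : Lp T Λ → ℝ) (In : Cfg T Λ → Prop) (σ : ℕ) (C K ε : ℝ) : Prop :=
  G.Stg W 0 In (fun _ => False) σ C K ε

open Classical in
/-- **junk step, geometric pins**: the loops that meet `U s` are revealed, `U s` is killed. -/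
def StepU (y : ℝ) (U : Cfg T Λ → Finset (Fin T × Λ)) (In Out : Cfg T Λ → Prop) (ε : ℝ) : Prop :=
  ∀ s, G.Val s → In s →
    Op.ex (G.gs (yw y) s) (Op.ind fun w => ¬ Out (s.rev (w.filter (Hit (U s))) (U s))) ≤ ε

open Classical in
/-- **junk step, top colour**. -/
def StepH (W : Lp T Λ → ℝ) (y' : ℝ) (In Out : Cfg T Λ → Prop) (ε : ℝ) : Prop :=
  ∀ s, G.Val s → In s → G.hE W y' s (Op.ind fun A => ¬ Out (s.add A)) ≤ ε

/-- **ladder**: the hypotheses of the peel in every configuration of the class `In`. -/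
def LadH (W : Lp T Λ → ℝ) (y' : ℝ) (In Out : Cfg T Λ → Prop) (κb : ℝ) : Prop :=
  ∀ s, G.Val s → In s → ∃ Gd : ℕ → Finset (Lp T Λ) → Prop,
    Pc.Lad (Rep.Pw (G.pn s)) (L G.ex G.ey) (s.u (yw y')) (s.u fun g => W g - yw y' g) Gd 26
      (1 / 10 ^ 9) (1 / 5) κb ∧ ∀ A, Out (s.add A) → Gd 0 A

/-- numerics of the box move (support `≤ N`, pins of speed `≤ v0`, error `ε`). -/
structure NumA (N : ℕ) (Tf ε : ℝ) (v0 D : ℕ) : Prop where
  ex : ∃ (δ K0 : ℝ) (K : ℕ → ℝ) (v g : ℕ → ℕ) (m f f0 : ℕ), 1 ≤ N ∧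
    Rate G.ex G.ey G.d ⟨G.p, fun _ => 0⟩ (v0 + 2) K0 ∧ v 0 = (f0 + 1) * (v0 + 1) ∧
    N * Real.exp (-1 / Tf) ^ m + N * Real.exp (40 * K0 - f0) ≤ ε ∧ δ + ε ≤ 1 / 1600 ∧
    (∀ i < 4, v (i + 1) = (g i + 1) * (v i + 1) ∧
      Rate G.ex G.ey G.d ⟨G.p, fun _ => 0⟩ (v i + 2) (K i) ∧ N * Real.exp (40 * K i - g i) ≤ δ) ∧
    Num N Tf (K 3) δ (v 3) m f D

end Bs

/-! ### the blocks -/

/-- **(Comp)** stages compose. -/
def CompStmt : Prop :=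
  ∀ (Λ : Type) [Fintype Λ] [DecidableEq Λ] (T : ℕ) [NeZero T] (G : Bs T Λ) (W : Lp T Λ → ℝ)
    (y' y'' : ℝ) (In Mid Out : Cfg T Λ → Prop) (σ : ℕ) (C K ε C' K' ε' : ℝ), G.Ok →
    (∀ g, 0 ≤ W g) → 0 ≤ C → 1 ≤ C' → 0 ≤ K' → 0 ≤ ε → 0 ≤ ε' →
    G.Stg W y' In Mid σ C K ε → G.Stg (yw y') y'' Mid Out σ C' K' ε' →
    G.Stg W y'' In Out σ (C * (1 + C')) (K + K') (ε + ε' + K' * ε)

/-- **(BoxO)** the box move with open children. -/
def BoxOStmt : Prop :=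
  ∀ (Λ : Type) [Fintype Λ] [DecidableEq Λ] (T : ℕ) [NeZero T] (G : Bs T Λ) (Tf ε : ℝ)
    (In Out : Cfg T Λ → Prop) (Cor : Fin 4 → Finset Λ) (N v0 D σ : ℕ), G.Ok →
    G.NumA N Tf ε v0 D → (∀ s, In s → s.Sup N ∧ G.Sl v0 s ∧
      ∀ v, v ∉ s.Z → ∃ l, v.2 ∉ nbd G.d (12 * D) (Cor l)) → Cfg.Anti Out →
    (∀ l, G.StepU (Real.exp (-1 / Tf)) (fun _ => cyl (Cor l)) In Out ε) →
    G.Stg (yw (Real.exp (-1 / Tf))) (Real.exp (-1 / Tf)) In Out σ 400 10 (10 * ε)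

/-- **(BoxC)** the box move with closed children. -/
def BoxCStmt : Prop :=
  ∀ (Λ : Type) [Fintype Λ] [DecidableEq Λ] (T : ℕ) [NeZero T] (G : Bs T Λ) (Tf ε : ℝ)
    (In : Cfg T Λ → Prop) (Cor : Fin 4 → Finset Λ) (N v0 D σ : ℕ), G.Ok →
    G.NumA N Tf ε v0 D → (∀ s, In s → s.Sup N ∧ G.Sl v0 s ∧
      (∀ v, v ∉ s.Z → ∃ l, v.2 ∉ nbd G.d (12 * D) (Cor l)) ∧ ∀ l, G.Bk σ (s.Z ∪ cyl (Cor l))) →
    G.LP (yw (Real.exp (-1 / Tf))) In σ 400 10 (10 * ε)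

/-- **(Zero)** nothing is alive at fugacity `0`. -/
def ZeroStmt : Prop :=
  ∀ (Λ : Type) [Fintype Λ] [DecidableEq Λ] (T : ℕ) [NeZero T] (G : Bs T Λ)
    (In : Cfg T Λ → Prop) (σ : ℕ) (C K ε : ℝ), G.Ok → 0 ≤ C → 0 ≤ K → 0 ≤ ε →
    G.LP (yw 0) In σ C K ε

/-- **(Peel)** the top colour is revealed. -/
def PeelStmt : Prop :=
  ∀ (Λ : Type) [Fintype Λ] [DecidableEq Λ] (T : ℕ) [NeZero T] (G : Bs T Λ) (W : Lp T Λ → ℝ)
    (y' ε κb : ℝ) (In Out : Cfg T Λ → Prop) (σ : ℕ), G.Ok → 0 ≤ y' → y' ≤ 1 →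
    0 ≤ κb → κb ≤ 2 → Cfg.Anti Out → G.LadH W y' In Out κb → G.StepH W y' In Out ε →
    G.Stg W y' In Out σ 400 10 (10 * ε)

/-- **(Mono)** a stage may be weakened. -/
def MonoStmt : Prop :=
  ∀ (Λ : Type) [Fintype Λ] [DecidableEq Λ] (T : ℕ) [NeZero T] (G : Bs T Λ) (W : Lp T Λ → ℝ)
    (y' : ℝ) (In In' Out Out' : Cfg T Λ → Prop) (σ σ' : ℕ) (C K ε C' K' ε' : ℝ), G.Ok →
    (∀ g, 0 ≤ W g) → (∀ s, In' s → In s) → (∀ s, Out s → Out' s) → σ ≤ σ' → C ≤ C' → K ≤ K' →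
    ε ≤ ε' → G.Stg W y' In Out σ C K ε → G.Stg W y' In' Out' σ' C' K' ε'

/-- **(Giv)** conditioning on extra up loops = pinning them. -/
def GivStmt : Prop :=
  ∀ (Λ : Type) [Fintype Λ] [DecidableEq Λ] (T : ℕ) [NeZero T] (G : Bs T Λ) (W : Lp T Λ → ℝ)
    (s : Cfg T Λ) (x0 : Finset (Lp T Λ)) (F : Finset (Lp T Λ) → ℝ), G.Ok → (∀ g, 0 ≤ W g) →
    G.Val (s.add x0) → Op.ex (G.gs W s) (fun w => G.ph s x0 w * F w) =
      Op.ex (G.gs W s) (G.ph s x0) * Op.ex (G.gs W (s.add x0)) F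

/-! ### the top -/

section top
open Filter Crest.Agent.N337.Top

/-- the tilted weight of the top cube. -/
noncomputable def tw (y t : ℝ) (K : ℕ) (g : Lp T Λ) : ℝ :=
  yw y g * Real.exp (t * if wd g ≤ K then wd g else 0)

/-- the word of the torus. -/
noncomputable def GT {L n : ℕ} [NeZero L] [NeZero n] (β : ℝ) (w : ℕ)
    (sy : List (Sl L n × Sl L n × ℝ)) : Bs (TT β w sy) (Sl L n) :=
  ⟨Top.ex β w sy, Top.ey β w sy, pp β w sy, dS⟩

open Classical in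
/-- the killed cube without pins. -/
noncomputable def s0 {L n T : ℕ} [NeZero L] (z : Tor 3 L) (l : ℕ) : Cfg T (Sl L n) :=
  ⟨∅, univ.filter fun v => v.2.1 ∉ cube z l, ∅⟩

/-- **(Chain)** the local Poincaré inequality of the tilted top cube. -/
def ChainStmt : Prop :=
  ∀ (n : ℕ) [NeZero n], ∃ β0 : ℝ, ∀ β : ℝ, β0 ≤ β → ∀ (K : ℕ) (ε : ℝ), 0 < ε →
    ∃ (x lam C K' η : ℝ) (l σ : ℕ), 0 < x ∧ x ≤ ε * lam ∧ lam ≤ ε ∧ β ≤ ε * x * l ∧ 0 ≤ C ∧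
      lam * C * (n * K + n ^ 2 * (2 * σ + 1) ^ 3 + η * n ^ 2 * l ^ 3) ≤ ε ∧
      ∀ᶠ L : ℕ in atTop, ∀ sy : List (Sl (L + 1) n × Sl (L + 1) n × ℝ), Sym sy →
        ∀ᶠ w : ℕ in atTop, ∀ (z : Tor 3 (L + 1)) (t : ℝ), 0 ≤ t → t ≤ lam →
          ∃ In, In (s0 z l) ∧ (GT β w sy).LP (tw (Real.exp (-x)) t K) In σ C K' η

/-- **(Top)** the variance bound from the chain. -/
def TopStmt : Prop := ChainStmt → VarStmt

end top

end Crest.Agent.N337.M
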