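import Crest.Agent.N337.M.CelJ
import Crest.Agent.N337.E.Inst
import Crest.Agent.N337.Par.Gw
import Crest.Agent.N337.Par.Ht
import Crest.Agent.N337.Par.LeafE

/-!
# Row 337, the chain (helper23): the engine on the concrete objects; `JA`, `JB`, `JC`
-/

set_option autoImplicit false
set_option linter.unusedSectionVars false

namespace Crest.Agent.N337.M.Ctx

open Crest.Agent.N337.Free Crest.Agent.N337.A Crest.Agent.N337.Top Crest.Agent.N337.Par

variable {L n : ℕ} [NeZero L] [NeZero n] {u ms w : ℕ} {β : ℝ} {sy : List (Sl L n × Sl L n × ℝ)}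
  (C : Ctx u ms β w sy) (z : Tor 3 L) {d : ℕ}
include C

lemma nmJ : En.Nm (I.sys n (TT β w sy) C.Q z) (eg u (Dw w sy) (ms + 3))
    (pzE n u (Dw w sy) (ms + 3) (Bw β) (u * D ^ (48 * (ms + 3) + 100))) L n (TT β w sy) ∧ ∀ m,
    En.eps (I.sys n (TT β w sy) C.Q z) (eg u (Dw w sy) (ms + 3))
      (pzE n u (Dw w sy) (ms + 3) (Bw β) (u * D ^ (48 * (ms + 3) + 100))) n m ≤ Par.eps u m :=
  nm_pzE C.bg le_rfl z (NeZero.pos n) (by omega) (C.le_L (by omega))
    ⟨card_grid C.hT, (Y_pos _ _).trans_le C.B1, C.B2⟩ le_rfl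

/-- **the word and the numbers of the engine.** -/
theorem pkJ (hd : d ≤ 176) :
    En.Pk (GT β w sy).ex (GT β w sy).ey C.Q z (eg u (Dw w sy) (ms + 3))
      (pzE n u (Dw w sy) (ms + 3) (Bw β) (u * D ^ (48 * (ms + 3) + 100))) C.W d (lt u ms) := by
  have h := C.bg
  have hu := h.hu
  have hn := h.hn
  have ht := h.tm
  have hO := tr_ok (T := TT β w sy) (Dw := Dw w sy) (mt := ms + 3) h z (C.le_L (by omega))
  have hd' : ck0 + 27 + d ≤ ctm := by unfold ctm; omega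
  have hk : 2 ^ (u * D ^ (48 * (ms + 3) + 11 + 6)) = x u (ms + 3) 6 := (Y_def _ _).symm
  refine ⟨hO, (C.nmJ z).1, ⟨gs u (ms + 3 + 1), kT u (ms + 3) (u * D ^ (48 * (ms + 3) + 11 + 6)),
    kT' u, fun _ => 0, _, _, _, s u (48 * (ms + 3) + 7),
    C.nuG (by omega) (by omega) le_rfl (by norm_num),
    nh h (S := I.sys n (TT β w sy) C.Q z) (G := eg u (Dw w sy) (ms + 3)) h.qf rfl hk.ge le_rfl (ll_le h) C.B1 rfl rfl le_rfl C.cg (zero_add _).le _,
    C.er (by omega), tb_gs h le_rfl z (fun _ _ => Nat.zero_le _)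
      (hk ▸ Y_mono (by omega)) ?_, ⟨fun _ _ => rfl, fun l => ?_, fun l => ?_, fun l => ?_⟩, ?_⟩,
    ⟨_, _, _, _, _, ⟨C.wd.word, C.wd.blk, rfl, ll_pos u, ?_⟩, le_rfl,
      Wk.nmE_par h C.B2 C.wd (C.le_L (by omega)) (by omega) hd' (Nat.le_succ _) ht
        (two_le_Y hu 0) hO⟩, hd', ?_, fun l => ?_, ?_, ⟨one_le_cE, one_le_Y u 1⟩, ?_, ?_⟩
  · rw [hk]
    exact le_trans (by tier! (48 * (ms + 3) + 11 + 6)) C.hL
  · show cN + cE ≤ cqf
    unfold cqf cN0; omega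
  · have h1 := h.Lam
    have h2 := h.S
    show (cLam + 1) * (cS * x u l 12) ≤ x u l 13
    generalize cS = a at h2
    generalize cLam = b at h1
    tier! (48 * l + 11 + 12)
  · show 4 * x u l 15 + (3 * ctm + 1) * x u l 20 ≤ x u (l + 1) 0
    tier! (48 * l + 11 + 20)
  · change _ ≤ (2 * (2 ^ kT u (ms + 3) _ (ms + 3) / 4) + 1) ^ 3
    rw [kT, if_neg (lt_irrefl _), hk]
    have a : 4 * (4 * (2 * lt u ms + 1)) ≤ x u (ms + 3) 6 := by
      tier! (48 * (ms + 1) + 11 + 27)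
    refine le_trans ?_ (Nat.pow_le_pow_left (show 2 * (2 * lt u ms + 1) ≤ _ by omega) 3)
    rw [mul_pow]; omega
  · have h1 := ll_le h
    exact lt_of_lt_of_le (Nat.lt_of_add_one_le (show ll u + 1 ≤ Y u 10 by tier! 5)) C.B1
  · show 343 * cN ≤ cN0
    unfold cN0; omega
  · show 2 * ((3 * ctm + 1) * x u l 20) ≤ x u (l + 1) 0
    tier! (48 * l + 11 + 20)
  · have h1 := r0_le h
    show r0 u + 1 ≤ x u 0 0
    tier! 5
  · have h1 := loc_le (T := TT β w sy) h (Dw w sy) 12 le_rfl z (ms + 2)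
    have h2 : 2 * (2 * x u (ms + 2) 0) + 2 * (lt u ms + 1) ≤ x u (ms + 2) 12 := by
      tier! (48 * (ms + 2) + 11)
    exact le_trans (Nat.add_le_add_right (Nat.mul_le_mul_left _ h1) _) h2
  · show _ < 2 ^ (u * D ^ (48 * (ms + 3) + 100))
    rw [← Y_def]
    exact Nat.lt_of_add_one_le (by tier! (48 * (ms + 1) + 11 + 27))

omit C in
lemma domJ (Z : Finset (I.V L n (TT β w sy))) (h : (PP n u ms β z).Sd Z) :
    ∃ c, ∀ v ∉ Z, tdist c v.2.1 ≤ lt u ms := ⟨z, fun _ hv => cube_near (A.mem_cubeS.1 (h _ hv))⟩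

/-- **joint (B).** -/
theorem jB : C.JB z := fun m hm _ d R h0 h1 hd hR =>
  En.f2a (C.pkJ z (by omega)) (C.wr h0 h1) (domJ z) (show m < ms + 3 by omega)
    (show _ ≤ cN by unfold cN; omega) (fun _ => ⟨hR.trans (Rr_le C.bg (by norm_num)),
      Nat.mul_le_mul_right _ (Nat.le_succ _)⟩) (s_pos _ _).le ((C.nmJ z).2 m)

theorem jN : C.JN z := fun m hm _ h0 h1 =>
  (En.n2 (C.pkJ (d := 1) z (by omega)) (C.wr h0 h1) (domJ z) (show m + 1 < ms + 3 by omega)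
    (s_pos _ _).le ((C.nmJ z).2 m)).mono (fun _ h => h)
    ((le_add_of_nonneg_left (s_pos _ _).le).trans (vol_eps C.hu m))

/-- **joint (A).** -/
theorem jA : C.JA z := ja (C.jB z)

theorem jC : C.JC z := jc (C.jN z)

end Crest.Agent.N337.M.Ctx
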