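import Crest.Agent.N337.M.Bas
import Crest.Agent.N337.B.Main
import Crest.Agent.N337.Pc.Peel

/-!
# Row 337, the chain: the excision as a stage
-/

set_option autoImplicit false
set_option linter.unusedSectionVars false

namespace Crest.Agent.N337.M

open Finset Crest.Agent.N337.Op Crest.Agent.N337.Gas Crest.Agent.N337.A Crest.Agent.N337.Ex

variable {Λ : Type} [Fintype Λ] [DecidableEq Λ] {T : ℕ} [NeZero T]

namespace Bs
variable (G : Bs T Λ)

open Classical in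
/-- **junk side of the excision** of `cyl (Zs s.cv)`; `gx s x`: the revealed family is good,
`gd s A`: the state is good. -/
structure ExcJ (y y' : ℝ) (In Pre : Cfg T Λ → Prop) (Zs : Finset Λ → Finset Λ) (R : ℕ)
    (gx gd : Cfg T Λ → Finset (Lp T Λ) → Prop) (ε π : ℝ) : Prop where
  pre : ∀ s x, In s → gx s x → Pre (s.rev x (cyl (Zs s.cv)))
  anti : ∀ s x0 x, gx (s.add x0) x → gx s x
  kil : ∀ s U, Pre s → Pre (s.rev ∅ U)
  down : ∀ s A B, B ⊆ A → gd s A → gd s B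
  rare : ∀ s, G.Val s → In s →
    Op.ex (G.gs (yw y) s) (Op.ind fun w => ¬gx s (w.filter (Hit (cyl (Zs s.cv))))) ≤ ε
  bad : ∀ s x, In s → gx s x → G.Val (s.add x) → (∀ g ∈ x, Hit (cyl (Zs s.cv)) g) →
    Op.ex (G.gs (yw y) (s.rev x (cyl (Zs s.cv)))) (Op.ind fun w => ¬gd s (x ∪ w)) ≤ 1 / 10000
  one : ∀ s A, In s → G.Val (s.add A) → gd s A →
    ∑ g ∈ univ.filter (fun g => Hit (cyl (Zs s.cv)) g ∧ gd s (insert g A)),
      (s.u (fun g => yw y g - yw y' g) g +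
        if Hit (cyl (nbd G.d R (Zs s.cv))ᶜ) g then s.u (yw y') g else 0) * Pc.up (G.q s) A g ≤
      1 / 10000
  tch : ∀ s, G.Val s → Pre s → ∀ v,
    G.hE (yw y) y' s (Op.ind fun A => ¬A.filter (Hit {v}) = ∅) ≤ π

/-- **geometry and numbers of the excision**; `(C s.cv)ᶜ` is the block that is heat bathed. -/
structure ExcG (In Pre : Cfg T Λ → Prop) (Zs C : Finset Λ → Finset Λ) (Tf δ σ : ℝ) (K : ℕ → ℝ)
    (v g : ℕ → ℕ) (R N m f D n σb : ℕ) : Prop where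
  tow : Tow G.ex G.ey G.d ⟨G.p, fun _ => 0⟩ ∅ Tf δ K v g N m f D
  sup : ∀ s, In s → s.Sup N
  far : ∀ s, In s → ∀ z ∈ Zs s.cv, ∀ c ∈ C s.cv, R + v 1 + 3 * D + 3 ≤ G.d c z
  blk : ∀ s, In s → G.Bk σb (s.Z ∪ cyl (C s.cv))
  card : ∀ s, In s → (nbd G.d (R + 1 + v 1) (Zs s.cv)).card ≤ n
  slow : ∀ s, Pre s → G.Sl (v 0) s
  σ0 : 0 ≤ σ
  small : n * (2 * (σ + 6 * Real.sqrt δ)) + 2 * Real.sqrt δ ≤ 1 / 2

end Bs

/-- **(Exc)** the excision as a stage. -/
def ExcStmt : Prop :=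
  ∀ (Λ : Type) [Fintype Λ] [DecidableEq Λ] (T : ℕ) [NeZero T] (G : Bs T Λ) (y Tf : ℝ)
    (In Pre Out : Cfg T Λ → Prop) (Zs C : Finset Λ → Finset Λ)
    (gx gd : Cfg T Λ → Finset (Lp T Λ) → Prop) (δ σ ε ε' π κb : ℝ) (K : ℕ → ℝ) (v g : ℕ → ℕ)
    (R N m f D n σb : ℕ), G.Ok → Real.exp (-1 / Tf) ≤ y → y ≤ 1 → ε ≤ 1 / 10000 → 0 ≤ κb →
    G.ExcJ y (Real.exp (-1 / Tf)) In Pre Zs R gx gd ε π →
    G.ExcG In Pre Zs C Tf δ σ K v g R N m f D n σb →
    G.LadH (yw y) (Real.exp (-1 / Tf)) Pre Out κb → G.StepH (yw y) (Real.exp (-1 / Tf)) Pre Out ε' →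
    22 * π + 22 * κb + 400 * ε' ≤ σ ^ 2 → G.Stg (yw y) y In Pre σb 1600 2 (2 * ε)

/-! ### configurations and models -/

/-- the ratio of two fugacities. -/
noncomputable def rr (y y' : ℝ) (v : Fin T × Λ) : ℝ := if v.1 = 0 then y' / y else 1

variable {G : Bs T Λ} {y y' : ℝ} {s : Cfg T Λ} {x : Finset (Lp T Λ)} {U : Finset (Fin T × Λ)}

lemma rr_mem (h0 : 0 < y') (h : y' ≤ y) (v : Fin T × Λ) : 0 ≤ rr y y' v ∧ rr y y' v ≤ 1 := by
  unfold rr; split_ifs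
  exacts [⟨div_nonneg h0.le (h0.le.trans h), (div_le_one (h0.trans_le h)).2 h⟩, ⟨zero_le_one, le_rfl⟩]

lemma low_mdl (h : y ≠ 0) (s : Cfg T Λ) : low (rr y y') (G.mdl y s) = G.mdl y' s := by
  simp only [low, Bs.mdl, Mdl.mk.injEq, true_and]
  funext v
  simp only [rr, kill, Top.bt]
  split_ifs <;> simp [h]

lemma ub_mdl (y : ℝ) (s : Cfg T Λ) : ub (G.mdl y s).b = s.u (yw y) := ub_kill _ _

lemma law_mdl (y : ℝ) (s : Cfg T Λ) : law G.ex G.ey (G.mdl y s) = G.gs (yw y) s := by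
  rw [law, ub_mdl]; rfl

lemma w2_mdl (h : y ≠ 0) (s : Cfg T Λ) : w2 (rr y y') (G.mdl y s) =
    Pc.two (s.u (yw y')) (s.u fun g => yw y g - yw y' g) := by
  rw [w2, low_mdl h, ub_mdl]
  congr 1; funext g
  simp only [DD, low_mdl h, ub_mdl, Cfg.u, off]
  split_ifs <;> simp

lemma ok_mdl (hG : G.Ok) (h0 : 0 ≤ y) (h1 : y ≤ 1) (s : Cfg T Λ) : (G.mdl y s).Ok y :=
  ok_chd (M := ⟨G.p, Top.bt y⟩) ⟨fun r => ⟨(hG.p r).1, (hG.p r).2.trans (by norm_num)⟩,
    fun v => by simp only [Top.bt]; split_ifs; exacts [⟨h0, h1⟩, ⟨zero_le_one, le_rfl⟩],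
    fun _ => by simp [Top.bt]⟩ s.Z s.e

lemma val_add (h : G.Val s) : G.Val (s.add x) ↔ G.q s x ≠ 0 := by
  rw [Bs.q, Bs.pn, ← sh_qq h, sh, div_ne_zero_iff]
  exact (and_iff_left h).symm

lemma chd_mdl (h : G.Val (s.add x)) (y : ℝ) (U : Finset (Fin T × Λ)) :
    chd G.ex G.ey (G.mdl y s) U x = G.mdl y (s.rev x U) :=
  chd_chd (M := ⟨G.p, Top.bt y⟩) (U := s.Z) h

lemma slow_mdl (hG : G.Ok) {v : ℕ} (h : G.Sl v s) (y : ℝ) :
    Slow G.ex G.ey G.d (Cheap G.ex G.ey G.d (G.mdl y s)) (fun u => (G.mdl y s).b u ≠ 0) v := by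
  refine Slow.mono' h le_rfl (fun u a b => (kill_ne a).1 (mem_union_left _ b)) fun r _ _ _ hc => ?_
  refine hc.imp_left fun hc => ?_
  simp only [Bs.mdl, Bs.pn, pin] at hc
  split_ifs at hc with h1 h2
  exacts [h2, absurd hc zero_ne_one, absurd (hc ▸ (hG.p r).2) (by norm_num)]

lemma tow_mdl (hG : G.Ok) {Tf δ : ℝ} {K : ℕ → ℝ} {v g : ℕ → ℕ} {N m f D : ℕ}
    (h : Tow G.ex G.ey G.d ⟨G.p, fun _ => 0⟩ ∅ Tf δ K v g N m f D) (hs : s.Sup N) (y : ℝ) :
    ∃ S, Tow G.ex G.ey G.d (G.mdl y s) S Tf δ K v g N m f D := by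
  obtain ⟨S, h1, h2⟩ := hs
  exact ⟨S, h.met, fun u a => h2 u fun b => (kill_ne a).1 (mem_union_left _ b), h1, h.one,
    fun i hi => ⟨(h.tow i hi).1, (h.tow i hi).2.1.of_le le_rfl (fun r => (hG.p r).1)
      (sub_chd (ex := G.ex) (ey := G.ey) ⟨G.p, Top.bt y⟩ s.Z s.e).1, (h.tow i hi).2.2⟩, h.num⟩

lemma rev_rev (s : Cfg T Λ) (x : Finset (Lp T Λ)) (U U' : Finset (Fin T × Λ)) :
    (s.rev x U).rev ∅ U' = s.rev x (U ∪ U') := by simp [Cfg.rev]

lemma rev_add (s : Cfg T Λ) (x x0 : Finset (Lp T Λ)) (U : Finset (Fin T × Λ)) :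
    (s.rev x U).add x0 = (s.add x0).rev x U := by simp [Cfg.rev, Cfg.add, union_comm x]

lemma ph_nn (hG : G.Ok) (s : Cfg T Λ) (x0 w : Finset (Lp T Λ)) : 0 ≤ G.ph s x0 w := by
  have h := (cpt_M (ex := G.ex) (ey := G.ey) (ok_mdl hG zero_le_one le_rfl s)).nn
  unfold Bs.ph; split_ifs
  exacts [div_nonneg (h _) (h _), le_rfl]

/-- the top part of the form of a one-point observable. -/
lemma Dhi_pt {μ : Finset (Lp T Λ × Bool) → ℝ} (hμ : ∀ B, 0 ≤ μ B) (U : Finset (Fin T × Λ)) :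
    Pc.Dhi μ (Op.ind fun B => B.filter (HitL U) = ∅) ≤
      Op.ex μ fun B => Op.ind (fun A => ¬A.filter (Hit U) = ∅) (fg (Pc.hi B)) := by
  refine ex_mono hμ fun B => ?_
  have k : ∀ z ∈ Pc.hi B, (Op.ind (fun B => B.filter (HitL U) = ∅) B -
      Op.ind (fun B => B.filter (HitL U) = ∅) (B.erase z)) ^ 2 ≠ 0 → B.filter (HitL U) = {z} := by
    intro z _ h
    simp only [Op.ind, filter_erase] at h
    split_ifs at h with a b b
    · simp at h
    · exact absurd (by rw [a, erase_empty]) b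
    · exact ((erase_eq_empty_iff _ _).1 b).resolve_left a
    · simp at h
  by_cases h : ∃ z ∈ Pc.hi B, B.filter (HitL U) = {z}
  · obtain ⟨z, h1, h2⟩ := h
    have h3 := mem_filter.1 (h2 ▸ mem_singleton_self z)
    rw [sum_eq_single_of_mem z h1 fun z' a b => by_contra fun c =>
      b (singleton_injective ((k z' a c).symm.trans h2)), Op.ind, Op.ind, Op.ind,
      if_pos (ne_empty_of_mem (mem_filter.2 ⟨mem_fg_of h1, h3.2⟩))]
    split_ifs <;> norm_num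
  · rw [sum_eq_zero fun z a => by_contra fun c => h ⟨z, a, k z a c⟩]
    exact ind_nn _ _

section main
variable {Tf : ℝ} {In Pre Out : Cfg T Λ → Prop} {Zs C : Finset Λ → Finset Λ}
  {gx gd : Cfg T Λ → Finset (Lp T Λ) → Prop} {δ σ ε ε' π κb : ℝ} {K : ℕ → ℝ} {v g : ℕ → ℕ}
  {R N m f D n σb : ℕ}

open Classical in
/-- the export of the peel. -/
lemma peel_pt (hG : G.Ok) (h0 : 0 < y') (hy : y' ≤ y) (hy1 : y ≤ 1) (hb : 0 ≤ κb)
    (J : G.ExcJ y y' In Pre Zs R gx gd ε π) (hL : G.LadH (yw y) y' Pre Out κb)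
    (hS : G.StepH (yw y) y' Pre Out ε') (hv : G.Val s) (hs : Pre s) (u : Fin T × Λ) :
    var (law2 G.ex G.ey (rr y y') (G.mdl y s)) (ap (ce (law2 G.ex G.ey (rr y y') (G.mdl y s)) Pc.hi)
      (Op.ind fun B => B.filter (HitL {u}) = ∅)) ≤ 22 * π + 22 * κb + 400 * ε' := by
  obtain ⟨Gd, h1, h2⟩ := hL s hv hs
  have hμ := pr_law2 (ex := G.ex) (ey := G.ey) (ok_mdl hG (h0.le.trans hy) hy1 s) (rr_mem h0 hy)
  have h3 := Pc.peel_core h1 le_rfl hb (Op.ind fun B => B.filter (HitL {u}) = ∅) 0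
  have h4 := J.tch s hv hs u
  have h5 := hS s hv hs
  have e : Pc.mu (Rep.Pw (G.pn s)) (L G.ex G.ey) (s.u (yw y')) (s.u fun g => yw y g - yw y' g) =
      law2 G.ex G.ey (rr y y') (G.mdl y s) := by rw [law2, w2_mdl (h0.trans_le hy).ne']; rfl
  unfold Bs.hE at h4 h5
  change Op.ex (Pc.mu (Rep.Pw (G.pn s)) (L G.ex G.ey) _ _) _ ≤ _ at h4 h5
  rw [e] at h3 h4 h5
  set μ := law2 G.ex G.ey (rr y y') (G.mdl y s)
  have h6 := (Dhi_pt hμ.nn {u}).trans h4
  have h7 := ((proj_ce hμ.nn Pc.hi).res_le_var hμ _).trans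
    (var_le_one hμ (abs_ind_le fun B => B.filter (HitL {u}) = ∅))
  have h8 : Op.ex μ (Pc.bS Gd) ≤ ε' := le_trans (ex_mono hμ.nn fun B => by
    simp only [Pc.bS, Op.ind]
    split_ifs with a b b
    exacts [le_rfl, zero_le_one, absurd (h2 _ b) a, le_rfl]) h5
  have h9 : Op.ex μ (fun B => (Op.ex μ (Pc.bS Gd) + Pc.bS Gd B) *
      (Op.ind (fun B => B.filter (HitL {u}) = ∅) B - 0) ^ 2) ≤
      Op.ex μ fun B => Op.ex μ (Pc.bS Gd) + Pc.bS Gd B := ex_mono hμ.nn fun B =>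
    mul_le_of_le_one_right (add_nonneg (ex_nn hμ.nn fun _ => ind_nn _ _) (ind_nn _ _))
      (by rw [sub_zero, sq, ind_sq]; exact ind_le_one _ _)
  rw [ex_add, hμ.ex_const] at h9
  nlinarith

open Classical in
lemma exc_of (hG : G.Ok) (hy : Real.exp (-1 / Tf) ≤ y) (hy1 : y ≤ 1) (hε : ε ≤ 1 / 10000)
    (hb : 0 ≤ κb) (J : G.ExcJ y (Real.exp (-1 / Tf)) In Pre Zs R gx gd ε π)
    (E : G.ExcG In Pre Zs C Tf δ σ K v g R N m f D n σb)
    (hL : G.LadH (yw y) (Real.exp (-1 / Tf)) Pre Out κb)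
    (hS : G.StepH (yw y) (Real.exp (-1 / Tf)) Pre Out ε') (hσ : 22 * π + 22 * κb + 400 * ε' ≤ σ ^ 2)
    (hv : G.Val s) (hs : In s) :
    Exc G.ex G.ey G.d (rr y (Real.exp (-1 / Tf))) (G.mdl y s) (Zs s.cv) (C s.cv)
      (fun x => gx s (fg x)) (fun A => gd s (fg A)) R (v 0) (v 1) D δ σ (1 / 10000) := by
  have h0 := Real.exp_pos (-1 / Tf)
  have hM := ok_mdl hG (h0.le.trans hy) hy1 s
  have hr := rr_mem (T := T) (Λ := Λ) h0 hy
  refine ⟨E.far s hs, le_rfl, E.σ0, le_trans (add_le_add (mul_le_mul_of_nonneg_right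
    (Nat.cast_le.2 (E.card s hs)) (by have := E.σ0; positivity)) le_rfl) E.small,
    fun A z a => J.down _ _ _ (fg_mono (erase_subset _ _)) a, ?_, fun x a b c => ?_,
    fun A a b => ?_, fun x a b _ => ?_, fun x a b _ U _ u _ => ?_⟩
  · refine le_trans (le_of_eq ?_) ((J.rare s hv hs).trans hε)
    rw [← law_mdl, ← ex_law2 (rr y (Real.exp (-1 / Tf)))]
    congr 1; funext A; simp only [Op.ind, ← fg_filter]; rfl
  · have := (val_add hv).2 b
    refine le_trans (le_of_eq ?_) (J.bad s _ hs a this fun l hl => (mem_fg.1 hl).elim fun _ => c _)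
    rw [chd_mdl this, ← law_mdl, ← ex_law2 (rr y (Real.exp (-1 / Tf)))]
    congr 1; funext A; simp only [Op.ind, fg_union]
  · refine le_trans (le_of_eq ?_) (J.one s _ hs ((val_add hv).2 (law2_supp b).2.1) a)
    rw [sum_filter, sum_filter, Fintype.sum_prod_type, w2_mdl (h0.trans_le hy).ne']
    refine sum_congr rfl fun l _ => ?_
    have e : ∀ c, fg (insert (l, c) A) = insert l (fg A) := fun c => image_insert _ _ _
    simp only [Fintype.sum_bool, Lng, e, Pc.two, true_or, and_true, if_true, Bool.false_eq_true,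
      false_or, if_false, Bs.q, Bs.mdl]
    by_cases c1 : Hit (cyl (Zs s.cv)) l <;> by_cases c2 : gd s (insert l (fg A)) <;>
      by_cases c3 : Hit (cyl (nbd G.d R (Zs s.cv))ᶜ) l <;> simp [c1, c2, c3, add_mul]
  · have := (val_add hv).2 b
    rw [chd_mdl this]
    exact slow_mdl hG (E.slow _ (J.pre s _ hs a)) y
  · have := (val_add hv).2 b
    rw [chd_mdl this, ← rev_rev]
    exact (peel_pt hG h0 hy hy1 hb J hL hS (by simpa [Bs.Val, Cfg.rev, Cfg.add] using this)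
      (J.kil _ _ (J.pre s _ hs a)) _).trans hσ

open Classical in
/-- the fibres of the excision. -/
noncomputable def excMix (G : Bs T Λ) (y y' : ℝ) (s : Cfg T Λ) (U U' : Finset (Fin T × Λ))
    (P : Finset (Lp T Λ) → Prop) : Mix T Λ where
  I := Finset (Lp T Λ) ⊕ Finset (Lp T Λ × Bool)
  c := Sum.elim (fun w => if P (w.filter (Hit U)) then G.gs (yw y) s w / 2 else 0)
    fun B => law2 G.ex G.ey (rr y y') (G.mdl y s) B / 2
  x := Sum.elim (fun w => w.filter (Hit U)) fun B => fg (B.filter (HiOr U'))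
  Z := Sum.elim (fun _ => s.Z ∪ U) fun _ => s.Z ∪ U'
  lv := Sum.elim (fun _ => y) fun _ => y'
  op := Sum.elim (fun _ => True) fun _ => False

open Classical in
lemma excMix_sum (U U' : Finset (Fin T × Λ)) (P : Finset (Lp T Λ) → Prop)
    (Ψ : Cfg T Λ → ℝ → Finset (Lp T Λ) → Prop → ℝ) :
    ∑ i, (excMix G y y' s U U' P).c i * Ψ ((excMix G y y' s U U' P).cf s i)
      ((excMix G y y' s U U' P).lv i) ((excMix G y y' s U U' P).x i) ((excMix G y y' s U U' P).op i) =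
    (Op.ex (G.gs (yw y) s) (fun w => if P (w.filter (Hit U)) then
        Ψ (s.rev (w.filter (Hit U)) U) y (w.filter (Hit U)) True else 0) +
      Op.ex (law2 G.ex G.ey (rr y y') (G.mdl y s)) fun B =>
        Ψ (s.rev (fg (B.filter (HiOr U'))) U') y' (fg (B.filter (HiOr U'))) False) / 2 := by
  refine (Fintype.sum_sum_type _).trans ?_
  rw [add_div, Op.ex, Op.ex, sum_div, sum_div]
  congr 1 <;> refine sum_congr rfl fun w _ => ?_ <;>
    simp only [excMix, Mix.cf, Cfg.rev, Sum.elim_inl, Sum.elim_inr]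
  · split_ifs <;> ring
  · ring

section
variable (hG : G.Ok) (h0 : 0 < y') (hy : y' ≤ y) (hy1 : y ≤ 1)
include hG h0 hy hy1

lemma pr_gs (s : Cfg T Λ) : Pr (G.gs (yw y) s) :=
  law_mdl y s ▸ pr_law (ok_mdl hG (h0.le.trans hy) hy1 s)

lemma pr_l2 (s : Cfg T Λ) : Pr (law2 G.ex G.ey (rr y y') (G.mdl y s)) :=
  pr_law2 (ok_mdl hG (h0.le.trans hy) hy1 s) (rr_mem h0 hy)

variable (hv : G.Val s)
include hv

lemma val1 {w : Finset (Lp T Λ)} (a : G.gs (yw y) s w ≠ 0) (Q : Lp T Λ → Prop) [DecidablePred Q] :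
    G.Val (s.add (w.filter Q)) :=
  (val_add hv).2 ((cpt_M (ok_mdl hG (h0.le.trans hy) hy1 s)).ne_of_sub (filter_subset _ _)
    (nu_supp a).1)

lemma val2 {B : Finset (Lp T Λ × Bool)} (a : law2 G.ex G.ey (rr y y') (G.mdl y s) B ≠ 0)
    (Q : Lp T Λ × Bool → Prop) [DecidablePred Q] : G.Val (s.add (fg (B.filter Q))) :=
  (val_add hv).2 ((cpt_M (ok_mdl hG (h0.le.trans hy) hy1 s)).ne_of_sub
    (fg_mono (filter_subset _ _)) (law2_supp a).2.1)

lemma ce1 {w : Finset (Lp T Λ)} (a : G.gs (yw y) s w ≠ 0) (F : Finset (Lp T Λ) → ℝ) :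
    Op.ex (G.gs (yw y) (s.rev (w.filter (Hit U)) U)) (fun A => F (w.filter (Hit U) ∪ A)) =
      ap (ce (G.gs (yw y) s) (filter (Hit U))) F w := by
  have hν := pr_gs hG h0 hy hy1 s
  have hm := mass_ne (π := filter (Hit U)) hν.nn a
  rw [ap_ce_ae hν.nn _ a, ← law_mdl, ← chd_mdl (val1 hG h0 hy hy1 hv a _)]
  rw [← law_mdl] at hm ⊢
  rw [ex_cond_law (ok_mdl hG (h0.le.trans hy) hy1 s) hm]

lemma ce2 {B : Finset (Lp T Λ × Bool)} (a : law2 G.ex G.ey (rr y y') (G.mdl y s) B ≠ 0)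
    (F : Finset (Lp T Λ) → ℝ) :
    Op.ex (Op.cond (law2 G.ex G.ey (rr y y') (G.mdl y s)) (filter (HiOr U)) (B.filter (HiOr U)))
      (fun B => F (fg B)) = Op.ex (G.gs (yw y') (s.rev (fg (B.filter (HiOr U))) U))
        fun A => F (fg (B.filter (HiOr U)) ∪ A) := by
  rw [ex_condH (ok_mdl hG (h0.le.trans hy) hy1 s) (rr_mem h0 hy)
    (mass_ne (pr_l2 hG h0 hy hy1 s).nn a), low_mdl (h0.trans_le hy).ne',
    chd_mdl (val2 hG h0 hy hy1 hv a _), law_mdl]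
  simp only [fg_union, fg_lb]

lemma exc_dom (U' : Finset (Fin T × Λ)) (P : Finset (Lp T Λ) → Prop) (F : Finset (Lp T Λ) → ℝ)
    (hF : ∀ w, 0 ≤ F w) :
    ∑ i, G.fE (excMix G y y' s U U' P) s F i ≤ Op.ex (G.gs (yw y) s) F := by
  classical
  have hν := pr_gs hG h0 hy hy1 s
  have hμ := pr_l2 hG h0 hy hy1 s
  refine (excMix_sum U U' P fun c l x _ => Op.ex (G.gs (yw l) c) fun A => F (x ∪ A)).trans_le ?_
  rw [div_le_iff₀ two_pos, mul_two]
  refine add_le_add ?_ (le_of_eq ?_)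
  · rw [← (proj_ce hν.nn (filter (Hit U))).ker.ex_ap F]
    refine ex_mono_ae hν.nn fun w a => ?_
    rw [ce1 hG h0 hy hy1 hv a]
    split_ifs
    exacts [le_rfl, ex_nn (ce_nn hν.nn w) hF]
  · rw [← law_mdl y s, ← ex_law2 (rr y y') _ F, ← (proj_ce hμ.nn (filter (HiOr U'))).ker.ex_ap
      fun B => F (fg B)]
    exact ex_congr fun B a => by rw [ap_ce_ae hμ.nn _ a, ce2 hG h0 hy hy1 hv a]

open Classical in
lemma exc_res (U' : Finset (Fin T × Λ)) (P : Finset (Lp T Λ) → Prop) (F : Finset (Lp T Λ) → ℝ) :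
    2 * G.res (excMix G y y' s U U' P) s F =
    nsq (law2 G.ex G.ey (rr y y') (G.mdl y s)) (fun B => F (fg B) -
      ap (ce (law2 G.ex G.ey (rr y y') (G.mdl y s)) (filter (HiOr U'))) (fun B => F (fg B)) B) +
    Op.ex (law2 G.ex G.ey (rr y y') (G.mdl y s)) fun B => if P (fg (B.filter (HitL U))) then
      var (law2 G.ex G.ey (rr y y') (chd G.ex G.ey (G.mdl y s) U (fg (B.filter (HitL U)))))
        (fun B' => F (fg (B.filter (HitL U) ∪ B'))) else 0 := by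
  have hμ := pr_l2 hG h0 hy hy1 s
  have h1 : G.res (excMix G y y' s U U' P) s F = _ :=
    excMix_sum U U' P fun c l x _ => var (G.gs (yw l) c) fun A => F (x ∪ A)
  rw [h1, mul_div_cancel₀ _ two_ne_zero, add_comm, res_ce hμ.nn]
  congr 1
  · refine ex_congr fun B a => ?_
    simp only [var, nsq_eq_ex, ce2 hG h0 hy hy1 hv a]
    exact (ce2 hG h0 hy hy1 hv a fun A => (F A - _) ^ 2).symm
  · rw [← law_mdl y s, ← ex_law2 (rr y y')]
    refine ex_congr fun B a => ?_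
    have fX : fg (B.filter (HitL U)) = (fg B).filter (Hit U) := fg_filter _ _
    rw [← fX, ← law_mdl, ← chd_mdl (val2 hG h0 hy hy1 hv a _), ← var_law2 (rr y y')]
    simp only [fg_union]

open Classical in
lemma exc_next (U' : Finset (Fin T × Λ)) (P : Finset (Lp T Λ) → Prop) (x0 : Finset (Lp T Λ)) :
    ∑ i, (if (excMix G y y' s U U' P).op i ∧ ¬Pre (((excMix G y y' s U U' P).cf s i).add x0) then
      G.fE (excMix G y y' s U U' P) s (G.ph s x0) i else 0) ≤ Op.ex (G.gs (yw y) s) fun w =>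
        G.ph s x0 w * Op.ind (fun w => ¬Pre ((s.rev (w.filter (Hit U)) U).add x0)) w := by
  have hν := pr_gs hG h0 hy hy1 s
  have a1 := excMix_sum (G := G) (y := y) (y' := y') (s := s) U U' P fun c l x o =>
    if o ∧ ¬Pre (c.add x0) then Op.ex (G.gs (yw l) c) fun A => G.ph s x0 (x ∪ A) else 0
  simp only [mul_ite, mul_zero, false_and, if_false, true_and, (pr_l2 hG h0 hy hy1 s).ex_const,
    add_zero] at a1
  refine a1.trans_le ?_
  have a2 := ex_mul_ce (π := filter (Hit U)) hν.nn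
    (g := Op.ind fun w => ¬Pre ((s.rev (w.filter (Hit U)) U).add x0))
    (fun w w' e => by simp only [Op.ind, e]) (G.ph s x0)
  simp only [mul_comm (G.ph s x0 _)]
  rw [← a2]
  have a4 : ∀ w, 0 ≤ ap (ce (G.gs (yw y) s) (filter (Hit U))) (G.ph s x0) w := fun w =>
    ex_nn (ce_nn hν.nn w) (ph_nn hG s x0)
  have a3 := ex_nn hν.nn fun w => mul_nonneg (ind_nn (fun w => ¬Pre ((s.rev (w.filter (Hit U))
    U).add x0)) w) (a4 w)
  refine (div_le_iff₀ two_pos).2 ((ex_mono_ae hν.nn fun w c => ?_).trans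
    (le_mul_of_one_le_right a3 one_le_two))
  rw [ce1 hG h0 hy hy1 hv c, Op.ind]
  split_ifs <;> simp [a4 w]

end

lemma res_ind {ν : Finset (Lp T Λ) → ℝ} (hν : Pr ν) (S : Finset (Lp T Λ) → Prop) [DecidablePred S]
    (F : Finset (Lp T Λ) → ℝ) : (Op.ex ν fun w => Op.ind S w * (F w - Op.ex ν F) ^ 2) ≤
      2 * nsq (fun w => (Op.ind S w + Op.ex ν (Op.ind S)) * ν w) F := by
  have b1 : nsq (fun w => (Op.ind S w + Op.ex ν (Op.ind S)) * ν w) F =
      Op.ex ν fun w => Op.ind S w * F w ^ 2 + Op.ex ν (Op.ind S) * F w ^ 2 :=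
    sum_congr rfl fun w _ => by ring
  have b3 := mul_le_mul_of_nonneg_left (hν.sq_ex_le F) (ex_nn hν.nn (ind_nn S))
  have b2 : (Op.ex ν fun w => Op.ind S w * (F w - Op.ex ν F) ^ 2) ≤
      Op.ex ν fun w => 2 * (Op.ind S w * F w ^ 2) + 2 * Op.ex ν F ^ 2 * Op.ind S w :=
    ex_mono hν.nn fun w => by
      nlinarith [mul_nonneg (ind_nn S w) (sq_nonneg (F w + Op.ex ν F))]
  rw [ex_add, ex_mul, ex_mul] at b2
  rw [b1, ex_add, ex_mul, ← nsq_eq_ex]
  linarith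

open Classical in
/-- **the excision as a stage.** -/
theorem exc_of_giv (hGiv : GivStmt) : ExcStmt := by
  intro Λ _ _ T _ G y Tf In Pre Out Zs C gx gd δ σ ε ε' π κb K v g R N m f D n σb hG hy hy1 hε hb
    J E hL hS hσ s hv hs
  have X := exc_of hG hy hy1 hε hb J E hL hS hσ hv hs
  have h0 := Real.exp_pos (-1 / Tf)
  have y0 : 0 < y := h0.trans_le hy
  have hν := pr_gs hG h0 hy hy1 s
  have hμ := pr_l2 hG h0 hy hy1 s
  have S0 := ex_nn hν.nn (ind_nn fun w => ¬gx s (w.filter (Hit (cyl (Zs s.cv)))))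
  have S1 := J.rare s hv hs
  have p0 := ph_nn hG s
  have rr0 : ∀ x0, G.Val (s.add x0) → In (s.add x0) → ∀ Q : Finset (Lp T Λ) → Prop,
      (∀ x, gx (s.add x0) x → Q x) → Op.ex (G.gs (yw y) s) (fun w => G.ph s x0 w *
        Op.ind (fun w => ¬Q (w.filter (Hit (cyl (Zs s.cv))))) w) ≤
        ε * Op.ex (G.gs (yw y) s) (G.ph s x0) := by
    intro x0 a b Q hQ
    rw [hGiv Λ T G (yw y) s x0 _ hG (ub_nn fun u => by
      unfold Top.bt; split_ifs; exacts [y0.le, zero_le_one]) a, mul_comm]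
    refine mul_le_mul_of_nonneg_right (le_trans (ex_mono (pr_gs hG h0 hy hy1 _).nn fun w => ?_)
      (J.rare _ a b)) (ex_nn hν.nn (p0 x0))
    simp only [Op.ind]
    split_ifs with c e e
    exacts [le_rfl, zero_le_one, absurd (hQ _ e) c, le_rfl]
  refine ⟨excMix G y (Real.exp (-1 / Tf)) s (cyl (Zs s.cv)) (cyl (C s.cv)) (gx s), fun w =>
    (Op.ind (fun w => ¬gx s (w.filter (Hit (cyl (Zs s.cv))))) w + Op.ex (G.gs (yw y) s)
      (Op.ind fun w => ¬gx s (w.filter (Hit (cyl (Zs s.cv)))))) * G.gs (yw y) s w,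
    ?_, ?_, ?_, ?_, exc_dom hG h0 hy hy1 hv _ _, fun F => ?_, fun w => ?_, fun w => ?_,
    fun x0 a b => ?_, fun x0 a b => (exc_next hG h0 hy hy1 hv _ _ x0).trans ?_⟩
  · rintro (w | B)
    · simp only [excMix, Sum.elim_inl]; split_ifs
      exacts [by linarith [hν.nn w], le_rfl]
    · exact div_nonneg (hμ.nn B) two_pos.le
  · rintro (w | B) a
    · exact ⟨val1 hG h0 hy hy1 hv (w := w) (fun e => a (by simp [excMix, e])) _, subset_union_left,
        y0.le, hy1⟩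
    · exact ⟨val2 hG h0 hy hy1 hv (B := B) (fun e => a (by simp [excMix, e])) _, subset_union_left,
        h0.le, hy.trans hy1⟩
  · rintro (w | B) a b
    · exact ⟨rfl, J.pre s _ hs (by_contra fun e => a (if_neg e))⟩
    · exact b.elim
  · rintro (w | B) _ b
    exacts [absurd trivial b, E.blk s hs]
  · obtain ⟨S', hT⟩ := tow_mdl hG E.tow (E.sup s hs) y
    have hl : (low (rr y (Real.exp (-1 / Tf))) (G.mdl y s)).Ok (Real.exp (-1 / Tf)) := by
      rw [low_mdl y0.ne']; exact ok_mdl hG h0.le (hy.trans hy1) s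
    have h1 := excise Λ T G.ex G.ey G.d _ _ _ _ S' _ _ Tf δ σ _ K v g R N m f D
      ((ok_mdl hG y0.le hy1 s).mono hy1) (rr_mem h0 hy) hl hT X fun B => F (fg B)
    have t1 := exc_res hG h0 hy hy1 hv (U := cyl (Zs s.cv)) (cyl (C s.cv)) (gx s) F
    have t2 := res_ind hν (fun w => ¬gx s (w.filter (Hit (cyl (Zs s.cv))))) F
    have t3 := ex_law2 (ex := G.ex) (ey := G.ey) (rr y (Real.exp (-1 / Tf))) (G.mdl y s) fun w =>
      Op.ind (fun w => ¬gx s (w.filter (Hit (cyl (Zs s.cv))))) w * (F w - Op.ex (G.gs (yw y) s) F) ^ 2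
    have t4 : 0 ≤ 2 * G.res (excMix G y (Real.exp (-1 / Tf)) s (cyl (Zs s.cv)) (cyl (C s.cv))
        (gx s)) s F := by
      rw [t1]
      refine add_nonneg (nsq_nn hμ.nn _) (ex_nn hμ.nn fun B => ?_)
      split_ifs
      exacts [var_nn (pr_law2 (ok_chd (ok_mdl hG y0.le hy1 s) _ _) (rr_mem h0 hy)).nn _, le_rfl]
    simp only [var_law2, Dir_law2, ex_law2, law_mdl] at h1
    simp only [Op.ind, ← fg_filter, law_mdl] at h1 t2 t3 ⊢
    have t5 : ∀ B : Finset (Lp T Λ × Bool), B.filter (HitL (cyl (Zs s.cv))) =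
      B.filter fun z => Hit (cyl (Zs s.cv)) z.1 := fun _ => rfl
    simp only [t5] at h1 t1
    linarith
  · exact mul_nonneg (add_nonneg (ind_nn _ _) S0) (hν.nn w)
  · exact mul_le_mul_of_nonneg_right (by
      linarith [ind_le_one (fun w => ¬gx s (w.filter (Hit (cyl (Zs s.cv))))) w]) (hν.nn w)
  · have e : ∀ (S : Finset (Lp T Λ) → ℝ) (c : ℝ), Op.ex (fun w => (S w + c) * G.gs (yw y) s w)
        (G.ph s x0) = Op.ex (G.gs (yw y) s) fun w => G.ph s x0 w * S w + c * G.ph s x0 w :=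
      fun S c => sum_congr rfl fun w _ => by ring
    rw [e, ex_add, ex_mul]
    have := rr0 x0 a b (gx s) (J.anti s x0)
    nlinarith [ex_nn hν.nn (p0 x0)]
  · have := rr0 x0 a b (fun x => Pre ((s.rev x (cyl (Zs s.cv))).add x0)) fun x c => by
      rw [rev_add]; exact J.pre _ _ b c
    nlinarith [ex_nn hν.nn (p0 x0)]

end main

/-- **(Exc)** -/
theorem exc : ExcStmt := exc_of_giv giv

end Crest.Agent.N337.M
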