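import Crest.Agent.N337.M.ExcP
import Crest.Agent.N337.M.Chain
import Crest.Agent.N337.I.Alv

/-!
# Row 337, the chain: geometry of the excision on the torus
-/

set_option autoImplicit false
set_option linter.unusedSectionVars false

namespace Crest.Agent.N337.M

open Finset Crest.Agent.N337.Gas Crest.Agent.N337.A Crest.Agent.N337.Ld Crest.Agent.N337.Ex
  Crest.Agent.N337.Free Crest.Agent.N337.Top Crest.Agent.N337.I

variable {L n T : ℕ} [NeZero L] [NeZero n] [NeZero T]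

/-- the excised set: the grid cubes of side `sc` that come within `rz` of `F`. -/
def Zc (z0 : Tor 3 L) (sc rz : ℕ) (F : Finset (Sl L n)) : Finset (Sl L n) :=
  univ.filter fun x => ∃ c ∈ F, ∃ u, tdist c.1 u ≤ rz ∧ idx z0 sc u = idx z0 sc x.1

/-- range of the rung, as a number. -/
def lc (Q : I.Num) : ℕ → ℕ
  | 0 => Q.ρ 0
  | m + 1 => Q.ρ (m + 1) + lc Q m

variable {z0 u u' : Tor 3 L} {sc rz : ℕ} {F : Finset (Sl L n)} {x : Sl L n} {Q : I.Num}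
  {Z : Finset (V L n T)}

lemma lc_sys (Q : I.Num) (z0 : Tor 3 L) (m : ℕ) : (sys n T Q z0).loc m = lc Q m := by
  induction m with
  | zero => rfl
  | succ m ih => simp only [Rg.Sys.loc, lc, ih]; rfl

lemma mem_Zc : x ∈ Zc z0 sc rz F ↔
    ∃ c ∈ F, ∃ u, tdist c.1 u ≤ rz ∧ idx z0 sc u = idx z0 sc x.1 := by simp [Zc]

lemma idx_near (h0 : 0 < sc) (h : idx z0 sc u = idx z0 sc u') : tdist u u' ≤ sc := by
  refine tdist_le_iff.2 fun a => ?_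
  have h1 : (u a - z0 a).val / sc = (u' a - z0 a).val / sc := congrFun h a
  have h2 := Nat.div_add_mod (u a - z0 a).val sc
  have h3 := Nat.div_add_mod (u' a - z0 a).val sc
  have h4 := Nat.mod_lt (u a - z0 a).val h0
  have h5 := Nat.mod_lt (u' a - z0 a).val h0
  rw [h1] at h2
  have e : u' a - u a = ((((u' a - z0 a).val : ℤ) - (u a - z0 a).val : ℤ) : ZMod L) := by
    push_cast; rw [ZMod.natCast_zmod_val, ZMod.natCast_zmod_val]; ring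
  rw [e]
  exact (ZMod.natAbs_min_of_le_div_two L _ _ (ZMod.coe_valMinAbs _)
    (ZMod.natAbs_valMinAbs_le _)).trans (by omega)

lemma Zc_near (h0 : 0 < sc) (h : x ∈ Zc z0 sc rz F) : ∃ c ∈ F, tdist c.1 x.1 ≤ rz + sc := by
  obtain ⟨c, h1, u, h2, h3⟩ := mem_Zc.1 h
  exact ⟨c, h1, (tdist_triangle _ u _).trans (add_le_add h2 (idx_near h0 h3))⟩

/-- a new killed point near `y` kills an octant (input of `F3`). -/
theorem Zc_far {σ : ℕ} (hσ : σ ∣ sc) {y : Tor 3 L} {v : V L n T}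
    (h : oct z0 σ (kil (Z ∪ cyl (Zc z0 sc rz F))) y ≤ oct z0 σ (kil Z) y)
    (hv : v ∈ cyl (Zc z0 sc rz F)) (hZ : v ∉ Z) : σ < 2 * tdist y v.2.1 := by
  by_contra k
  refine absurd h (not_le.2 (oct_lt (kil_mono subset_union_left) (not_lt.1 k)
    (fun a => hZ (mem_of_kil a)) fun u' e => mem_kil.2 fun s c => mem_union_right _ ?_))
  obtain ⟨b, b1, u, b2, b3⟩ := mem_Zc.1 (mem_cyl.1 hv)
  exact mem_cyl.2 (mem_Zc.2 ⟨b, b1, u, b2, b3.trans (idx_dvd hσ e).symm⟩)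

lemma Zc_oct {σ r R : ℕ} (h0 : 0 < σ) (hσ : σ ≤ sc) (hR : rz + 3 * sc + r ≤ R) {y z : Tor 3 L}
    (hy : ∀ c ∈ F, R < tdist c.1 y) (hz : tdist y z ≤ r) :
    oct z0 σ (kil (Z ∪ cyl (Zc z0 sc rz F))) z ≤ oct z0 σ (kil Z) z := by
  classical
  refine card_le_card (image_subset_image (monotone_filter_right _ fun u _ hu =>
    ⟨hu.1, fun u' e => mem_kil.2 fun s c =>
      (mem_union.1 (mem_kil.1 (hu.2 u' e) s c)).resolve_right fun k => ?_⟩))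
  obtain ⟨b, b1, b2⟩ := Zc_near (h0.trans_le hσ) (mem_cyl.1 k)
  have a1 := hy b b1
  have a2 := idx_near h0 e
  have a3 := tdist_triangle b.1 u' y
  have a4 := tdist_triangle u' u y
  have a5 := tdist_triangle u z y
  have a6 := hu.1
  rw [tdist_comm u z, tdist_comm z y] at a5
  simp only at b2
  omega

lemma vol_dS : C9.Vol (dS (L := L) (n := n)) fun r => n * (2 * r + 1) ^ 3 := fun r x =>
  (card_le_card (t := (univ.filter fun y => tdist x.1 y ≤ r) ×ˢ univ) fun y hy => by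
    simpa [dS] using C9.mem_bal.1 hy).trans (by
      rw [card_product, card_univ, Fintype.card_fin, mul_comm]
      exact Nat.mul_le_mul_left _ (card_ball_le _ _))

/-- **numbers of the geometry** (`B` = windows per period). -/
structure ExI (Q : I.Num) (E : ExP) (n : ℕ) (β Tf : ℝ) (N m tP B sc rz τ Tn lg : ℕ) : Prop where
  sc0 : 0 < sc
  dvd : ∀ l < m, Q.σ l ∣ sc
  r3 : E.R3 + lc Q m + 1 ≤ rz
  rZ : rz + sc ≤ E.rZ
  r4 : rz + 3 * sc + lc Q m ≤ E.R4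
  nD : N * (2 * (lc Q m + 1) + 1) ^ 3 ≤ E.nD
  l : 1 ≤ Q.l
  τ0 : Q.k0 + 27 + 1 ≤ τ
  τ1 : tP + 1 ≤ τ
  ρ : ∀ m, (τ + 1) * Q.a * (2 * Q.rad m τ + 1) + 3 * τ * Q.H m ≤ Q.ρ (m + 1)
  J : 2 * τ * Q.j1 ≤ Q.r0
  v0 : B * (2 * τ * Q.j1 + Q.lw τ m) ≤ E.v0
  v1 : E.v1 = vt (Kw n β) lg E.v0 1
  D : E.D = Dn (Kw n β (vt (Kw n β) lg E.v0 3 + 2)) Tn lg (vt (Kw n β) lg E.v0 3)
  N1 : 1 ≤ N
  T1 : 1 ≤ Tf
  T2 : Tf ≤ Tn
  δ0 : 0 < E.δ
  δ1 : E.δ ≤ 1 / 8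
  hl : 6400 * N ^ 2 * Tf ≤ E.δ * Real.exp lg

variable {β : ℝ} {w : ℕ} {sy : List (Sl L n × Sl L n × ℝ)} {P : Par (Sl L n)} {E : ExP}
  {j B τ Tn lg : ℕ}

/-- **the geometry of the excision on the word.** -/
theorem exG_word (hβ : 0 ≤ β) (hs : Sym sy) (hT : TT β w sy = B * Q.D)
    (h : ExI Q E n β (P.Tf j) (P.N (j + 1)) ((j + 1) / 3) (P.tP (j + 1)) B sc rz τ Tn lg)
    (hw : 60 * n ^ 2 * (2 * (vt (Kw n β) lg E.v0 3 + 2) + 1) ^ 3 ≤ w + 1) :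
    P.ExG (insT Q z0 β w sy) (GT β w sy) E (fun r => n * (2 * r + 1) ^ 3) j (Zc z0 sc rz) := by
  have hm : Met (Top.ex β w sy) (Top.ey β w sy) dS := met_word hs
  have e := lc_sys (n := n) (T := TT β w sy) Q z0 ((j + 1) / 3)
  refine ⟨vol_dS, fun s hs => ?_, fun F => ⟨fun c hc => mem_Zc.2 ⟨c, hc, c.1, ?_, rfl⟩,
    fun x hx => ?_⟩, fun Z F c hc z hz z' hz' => mem_kil.2 fun s a => mem_union_right _
      (mem_cyl.2 (mem_Zc.2 ⟨c, hc, z', ?_, rfl⟩)), fun Z F x z l hl hx hz =>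
    Zc_oct (Q.σ_pos l) (Nat.le_of_dvd h.sc0 (h.dvd l hl)) h.r4
      (fun c hc => hx _ (mem_image_of_mem _ hc)) (e ▸ hz), fun s hc a b γ h1 h2 h3 => ?_,
    fun i => Kw n β (vt (Kw n β) lg E.v0 i + 2), vt (Kw n β) lg E.v0,
    fun i => 40 * Kw n β (vt (Kw n β) lg E.v0 i + 2) + lg, mw Tn lg, _, rfl, h.v1.symm, hm,
    fun _ a => absurd rfl a, Nat.zero_le _, h.N1, fun i hi => ⟨vt_succ _ _ _ _,
      rate_word hβ hs _ (le_trans ?_ hw), fast_ok h.N1 h.T1 h.δ0 h.δ1 h.hl _⟩,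
    h.D ▸ num_ok h.N1 h.T1 h.T2 h.δ0 h.δ1 h.hl _ _⟩
  · obtain ⟨Dm, h1, h2⟩ := alvH (Top.ex β w sy) (Top.ey β w sy) Q z0 _ ((j + 1) / 3) s hs
    exact ⟨Dm, h1.trans (e ▸ h.nD), h2⟩
  · rw [tdist_self]; omega
  · obtain ⟨c, h1, h2⟩ := Zc_near h.sc0 hx
    exact mem_nbd.2 ⟨c, h1, (tdist_comm _ _).trans_le (h2.trans h.rZ)⟩
  · have a1 : tdist c.1 z ≤ E.R3 + lc Q ((j + 1) / 3) := e ▸ hz
    have a2 := tdist_triangle c.1 z z'
    have := h.r3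
    omega
  · refine (slow_all hm hT (slow_win' (E := I.ev _ _ s.e) (Z := kil s.Z) (z0 := z0) (d := 1)
      (Al := fun r => cn s.e r = true ∨ dS (Top.ex β w sy r) (Top.ey β w sy r) = 0)
      (W := fun u => u ∉ s.Z ∪ cyl (nbd dS E.R5 s.cv)) hm.2.2.2 h.l h.τ0 h.ρ h.J
      (fun r y h1 h2 h3 _ => mem_act.2 ⟨by simpa [cn] using h1.resolve_right h2,
        fun e => h2 (by rw [e, tdist_self]), h3⟩) fun u hu => ⟨not_dead fun k =>
          hu (mem_union_left _ k), (hc _ fun f hf => ?_).up h.τ1⟩) a b γ h1 h2 ?_).trans h.v0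
    · obtain ⟨c, c1, rfl⟩ := mem_image.1 hf
      exact lt_of_not_ge fun k => hu (mem_union_right _ (mem_cyl.2
        (mem_nbd.2 ⟨c, c1, (tdist_comm _ _).trans_le k⟩)))
    · simp only [Cfg.rev, union_empty] at h3
      exact h3
  · have := vt_mono (Kw n β) lg E.v0 (show i ≤ 3 by omega)
    gcongr

/-- **`Dlv.exc` on the word.** -/
theorem exc_word (hβ : 0 ≤ β) (hs : Sym sy) (hT : TT β w sy = B * Q.D) (h0 : P.Tf 0 = 0)
    (h1 : ∀ j, 0 ≤ P.Tf j) {Y : ℝ}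
    (hy : (P.lev (insT Q z0 β w sy) (GT β w sy)).y j ≤ (P.lev (insT Q z0 β w sy) (GT β w sy)).y (j + 1))
    (h3 : (j + 1) % 3 = 2) (a : ExN P E (fun r => n * (2 * r + 1) ^ 3) j (Q.k0 + 27) Q.tm)
    (h : ExI Q E n β (P.Tf j) (P.N (j + 1)) ((j + 1) / 3) (P.tP (j + 1)) B sc rz τ Tn lg)
    (hw : 60 * n ^ 2 * (2 * (vt (Kw n β) lg E.v0 3 + 2) + 1) ^ 3 ≤ w + 1)
    (c : P.ExC (insT Q z0 β w sy) (GT β w sy) E j (Zc z0 sc rz) Y) :
    let V := P.lev (insT Q z0 β w sy) (GT β w sy)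
    (GT β w sy).LadH (yw (V.y (j + 1))) (V.y j) (V.Pre (j + 1)) (V.Post (j + 1)) E.κb →
    (GT β w sy).StepH (yw (V.y (j + 1))) (V.y j) (V.Pre (j + 1))
      ((insT Q z0 β w sy).Cl ((j + 1) / 3) (P.tQ (j + 1)) ∅ 0) (P.e (j + 1) / 10) →
    (GT β w sy).Stg (yw (V.y (j + 1))) (V.y (j + 1)) (V.In (j + 1)) (V.Pre (j + 1)) (P.σ (j + 1))
      c1 10 (P.e (j + 1)) :=
  Par.exc_dlv (ok_GT hβ w hs) h0 h1 hy h3 a (exG_word hβ hs hT h hw) c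

end Crest.Agent.N337.M
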