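import Crest.Agent.N337.M.Ret

/-!
# Row 337, the chain: the junk side of the excision from junk steps and closure bounds
-/

set_option autoImplicit false
set_option linter.unusedSectionVars false

namespace Crest.Agent.N337.M

open Finset Crest.Agent.N337.Op Crest.Agent.N337.Gas Crest.Agent.N337.A Crest.Agent.N337.Rep

variable {Λ : Type} [Fintype Λ] [DecidableEq Λ] {T : ℕ} [NeZero T]

/-- **inputs of the junk side**: `Cx`, `Cd` = classes with the cover alive (after the loops that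
meet `Zs`, after all loops), `Cb` = class after the excision and all loops. -/
structure Bs.ExcK (G : Bs T Λ) (y y' : ℝ) (In Pre Cx Cd Cb : Cfg T Λ → Prop)
    (Zs Z2 : Finset Λ → Finset Λ) (Pd Pb : Cfg T Λ → Λ → Λ → Prop) (R v R1 nR nA K0 : ℕ)
    (ε1 ε2 ε3 γd γb δ : ℝ) : Prop where
  aP : Cfg.Anti Pre
  aX : Cfg.Anti Cx
  aD : Cfg.Anti Cd
  kil : ∀ s U, Pre s → Pre (s.rev ∅ U)
  stepU : G.StepU y (fun s => cyl (Zs s.cv)) In Pre ε1
  stepX : G.StepX y (fun s => cyl (Zs s.cv)) In Cx ε2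
  stepV : G.StepV y (fun s => cyl (Zs s.cv)) Cx Cd (1 / 10000)
  stepW : G.StepW y Pre Cb ε3
  retD : G.RetC y Cd Pd γd
  retB : G.RetC y Cb Pb γb
  slow : ∀ s, Cd s → G.Sl v (s.rev ∅ (cyl (Z2 s.cv)))
  anc : ∀ s, Cd s → Zs s.cv ⊆ Z2 s.cv ∧ ∀ x ∈ nbd G.d (v + 1) (Z2 s.cv),
    x ∈ nbd G.d R (Zs s.cv) ∧ ∀ f, f ∉ nbd G.d R (Zs s.cv) → Pd s x f
  card : ∀ s, In s → (nbd G.d R (Zs s.cv)).card ≤ nR ∧ (nbd G.d (v + 1) (Z2 s.cv)).card ≤ nA
  ball : ∀ x, (nbd G.d R1 {x}).card ≤ K0 ∧ ∀ s f, f ∉ nbd G.d R1 {x} → Pb s x f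
  δ0 : 0 ≤ δ
  γ0 : 0 ≤ γd ∧ 0 ≤ γb
  small : ∀ g : Lp T Λ, yw y g - yw y' g ≤ δ * wd g
  num : δ * nR + nA * γd ≤ 1 / 10000

variable {G : Bs T Λ} {y y' : ℝ} {In Pre Cx Cd Cb : Cfg T Λ → Prop} {Zs Z2 : Finset Λ → Finset Λ}
  {Pd Pb : Cfg T Λ → Λ → Λ → Prop} {R v R1 nR nA K0 : ℕ} {ε1 ε2 ε3 γd γb δ : ℝ} {s : Cfg T Λ}

/-- an alive up loop that is slow off `Z` and meets `Z` has an anchor. -/
lemma anchor_cfg (hG : G.Ok) (hv : G.Val s) {g : Lp T Λ} (hq : G.q s {g} ≠ 0) (hK : ¬ Hit s.K g)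
    {Z : Finset Λ} (hS : G.Sl v ((s.add {g}).rev ∅ (cyl Z))) (h : Hit (cyl Z) g) :
    ∃ x ∈ nbd G.d (v + 1) Z, (0, x) ∈ g.2 := by
  obtain ⟨ξ, -, hξ⟩ := qq_supp (hv.add hq)
  obtain ⟨u, u1, u2⟩ := h
  have hg : g ∈ (s.add {g}).e := mem_union_right _ (mem_singleton_self g)
  have e : g.2 = obv G.ex G.ey ξ u := by rw [eq_lp (hξ hg) u1]; rfl
  rw [e]
  refine anchor hG.d hS (mem_cyl.1 u2) (fun w a b c => .inl ?_) fun w a b c => ?_
  · have e2 : ((s.add {g}).rev ∅ (cyl Z)).e = (s.add {g}).e := union_empty _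
    rw [e2, cn_eq hξ, if_pos, b]
    rw [← e] at a
    exact tch_pts.2 ⟨g, hg, c.imp (fun k => by rwa [← k]) fun k => by rwa [← k]⟩
  · exact (mem_union.1 c).elim (fun k => hK ⟨w, e ▸ a, mem_union_left _ k⟩) fun k => b (mem_cyl.1 k)

open Classical in
lemma Bs.ExcK.one (E : G.ExcK y y' In Pre Cx Cd Cb Zs Z2 Pd Pb R v R1 nR nA K0 ε1 ε2 ε3 γd γb δ)
    (hG : G.Ok) (h0 : 0 ≤ y') (hy : y' ≤ y) {A : Finset (Lp T Λ)} (hs : In s)
    (hv : G.Val (s.add A)) (hA : Cd (s.add A)) :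
    ∑ g ∈ univ.filter (fun g => Hit (cyl (Zs s.cv)) g ∧ Cd (s.add (insert g A))),
      (s.u (fun g => yw y g - yw y' g) g +
        if Hit (cyl (nbd G.d R (Zs s.cv))ᶜ) g then s.u (yw y') g else 0) * Pc.up (G.q s) A g ≤
      1 / 10000 := by
  set s' := s.add A with hs'
  set N := nbd G.d R (Zs s.cv)
  set An := nbd G.d (v + 1) (Z2 s.cv)
  have q0 : ∀ g, 0 ≤ G.q s' {g} := fun g => (hG.cpt s').nn _
  have D0 : ∀ g : Lp T Λ, 0 ≤ yw y g - yw y' g := fun g => sub_nonneg.2 (yw_mono h0 hy g)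
  have u0 := fun g => mul_nonneg (Cfg.u_nn (yw_nn (h0.trans hy)) s' g) (q0 g)
  have a1 : ∀ g : Lp T Λ, 0 ≤ ∑ x ∈ N, if (0, x) ∈ g.2 then δ * G.q s' {g} else 0 := fun g =>
    sum_nonneg fun x _ => by split_ifs; exacts [mul_nonneg E.δ0 (q0 g), le_rfl]
  have a2 : ∀ (g : Lp T Λ) x, 0 ≤ if (0, x) ∈ g.2 ∧ Hit (cyl Nᶜ) g then
      s'.u (yw y) g * G.q s' {g} else 0 := fun g x => by split_ifs; exacts [u0 g, le_rfl]
  refine le_trans (sum_le_sum (g := fun g => (∑ x ∈ N, if (0, x) ∈ g.2 then δ * G.q s' {g} else 0) +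
    ∑ x ∈ An, if (0, x) ∈ g.2 ∧ Hit (cyl Nᶜ) g then s'.u (yw y) g * G.q s' {g} else 0)
    fun g hg => ?_) ((sum_le_univ_sum_of_nonneg fun g =>
      add_nonneg (a1 g) (sum_nonneg fun x _ => a2 g x)).trans ?_)
  · obtain ⟨h1, h2⟩ := (mem_filter.1 hg).2
    split_ifs with c
    · rw [congrFun (Pl.tot_u (yw y) y' s) g |> (add_comm _ _).trans, up_add (hv.of_add hG) hv]
      by_cases k : s'.u (yw y) g * G.q s' {g} = 0
      · exact k.trans_le (add_nonneg (a1 g) (sum_nonneg fun x _ => a2 g x))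
      have k1 : ¬ Hit s'.K g := fun k1 => k (by rw [Cfg.u, off, if_pos k1, zero_mul])
      have k2 : Cd (s'.add {g}) := by rwa [hs', Cfg.add_add, union_comm, ← insert_eq]
      obtain ⟨u, u1, u2⟩ := h1
      obtain ⟨x, x1, x2⟩ := anchor_cfg hG hv (right_ne_zero_of_mul k) k1 (E.slow _ k2)
        ⟨u, u1, mem_cyl.2 ((E.anc _ hA).1 (mem_cyl.1 u2))⟩
      have := single_le_sum (fun x _ => a2 g x) (show x ∈ An from x1)
      rw [if_pos ⟨x2, c⟩] at this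
      exact le_add_of_nonneg_of_le (a1 g) this
    · rw [add_zero, up_add (hv.of_add hG) hv]
      refine le_add_of_le_of_nonneg ((mul_le_mul_of_nonneg_right ((u_le D0 _ g).trans (E.small g))
        (q0 g)).trans (le_of_eq ?_)) (sum_nonneg fun x _ => a2 g x)
      rw [wd_le c, mul_sum, sum_mul]
      exact sum_congr rfl fun x _ => by split_ifs <;> simp
  · rw [sum_add_distrib, sum_comm, sum_comm (t := An)]
    refine le_trans (add_le_add (le_of_eq (sum_congr rfl fun x _ =>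
      sum_pt_one (G.pn s') (0, x) δ)) (sum_le_card_nsmul _ _ γd fun x hx => E.retD s' hv hA (0, x) _
        (fun a => mem_compl.1 a ((E.anc _ hA).2 x hx).1) fun f a =>
          ((E.anc _ hA).2 x hx).2 f (mem_compl.1 a))) (le_trans ?_ E.num)
    rw [sum_const, nsmul_eq_mul, nsmul_eq_mul, mul_comm]
    exact add_le_add (mul_le_mul_of_nonneg_left (Nat.cast_le.2 (E.card s hs).1) E.δ0)
      (mul_le_mul_of_nonneg_right (Nat.cast_le.2 (E.card s hs).2) E.γ0.1)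

/-- **the junk side of the excision.** -/
theorem Bs.ExcK.excJ
    (E : G.ExcK y y' In Pre Cx Cd Cb Zs Z2 Pd Pb R v R1 nR nA K0 ε1 ε2 ε3 γd γb δ)
    (hG : G.Ok) (h0 : 0 ≤ y') (hy : y' ≤ y) (h1 : y ≤ 1) :
    G.ExcJ y y' In Pre Zs R (fun s x => Pre (s.rev x (cyl (Zs s.cv))) ∧ Cx (s.add x))
      (fun s A => Cd (s.add A)) (ε1 + ε2) (δ * K0 + γb + ε3) := by
  classical
  have y0 := h0.trans hy
  refine ⟨fun _ _ _ h => h.1, fun s x0 x h => ⟨E.aP _ x0 ?_, E.aX _ x0 ?_⟩, E.kil,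
    fun s A B hB h => E.aD _ A ?_, fun s hv hs => ?_, fun s x _ h hv _ => ?_,
    fun s A hs hv hA => by convert E.one hG h0 hy hs hv hA, fun s hv hs z => ?_⟩
  · rw [rev_add]; exact h.1
  · rw [Pl.add_comm']; exact h.2
  · rwa [Cfg.add_add, union_eq_right.2 hB]
  · refine le_trans ?_ (add_le_add (E.stepU s hv hs) (E.stepX s hv hs))
    rw [← ex_add]
    refine ex_mono (hG.pr (yw_nn y0) s).nn fun w => ?_
    simp only [Op.ind, not_and_or]
    split_ifs <;> first | tauto | norm_num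
  · have := E.stepV _ hv h.2
    have e : (s.add x).rev ∅ (cyl (Zs s.cv)) = s.rev x (cyl (Zs s.cv)) := by simp [Cfg.rev, Cfg.add]
    rw [← e]
    refine le_trans (le_of_eq ?_) this
    congr 1; funext w; simp only [Op.ind, Cfg.add_add]
  · refine (Bs.touch (N := nbd G.d R1 {z.2}) E.retB hG hv h0 E.δ0 E.γ0.2 (fun g =>
      ⟨sub_nonneg.2 (yw_mono h0 hy g), E.small g, sub_le_self _ (yw_nn h0 g)⟩) (fun g => ?_)
      (E.stepW s hv hs) (mem_nbd.2 ⟨_, mem_singleton_self _, by rw [hG.d.1]; omega⟩)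
      fun w => (E.ball z.2).2 _).trans ?_
    · rw [yw_eq]; exact pow_le_one₀ y0 h1
    · have := mul_le_mul_of_nonneg_left (Nat.cast_le (α := ℝ).2 (E.ball z.2).1) E.δ0
      linarith

end Crest.Agent.N337.M
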