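import Crest.Agent.N337.M.Fin1
import Crest.Agent.N337.M.EngJ
import Crest.Agent.N337.Par.Tk
import Crest.Agent.N337.Top.BMain

/-!
# Row 337, the chain (helper56): the polar bound
-/

set_option autoImplicit false

namespace Crest.Agent.N337.M

theorem dlvAll : Crest.Agent.N337.Par.DlvAll :=
  dlvAll_of fun _ _ => Filter.Eventually.of_forall fun _ _ _ _ _ _ _ C z =>
    C.all_of z (C.jB z) (C.jN z) (C.jt' z (C.jA z) (C.jB z))

/-- **the polar bound.** -/
theorem polarAll : C.PolarStmt := polar2 (Crest.Agent.N337.Par.fin2_of dlvAll) ZM.long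

end Crest.Agent.N337.M
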