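import Crest.Agent.N337.M.TkD
import Crest.Agent.N337.M.Ind
import Crest.Agent.N337.M.Peel
import Crest.Agent.N337.Pc.Small
import Crest.Agent.N337.Pc.Loop

/-!
# Row 337, the chain (helper78): the key estimate in a configuration
-/

set_option autoImplicit false
set_option linter.unusedSectionVars false

namespace Crest.Agent.N337.M

open Finset Crest.Agent.N337.Op Crest.Agent.N337.Gas Crest.Agent.N337.A

/-- `TKa` with a support set. -/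
def TkaS : Prop :=
  ∀ (Λ : Type) [Fintype Λ] [DecidableEq Λ] (T : ℕ) [NeZero T] (ex ey : Fin T → Λ)
    (p : Fin T → ℝ) (u D : Lp T Λ → ℝ) (Sa : Lp T Λ → Prop)
    (Gw : Finset (Lp T Λ) → Lp T Λ → Prop) (κ ε t : ℝ) (S : Finset Λ) (n : ℕ),
    TK.HA ex ey p u D Sa Gw κ ε → 0 < t →
    (∀ g, u g ≠ 0 ∨ D g ≠ 0 → ∀ x, (0, x) ∈ g.2 → x ∈ S) → S.card ≤ n →
    TK.TKa ex ey p u D Sa (TK.κa n κ ε t)

/-- `TKb` with a support set. -/
def TkbS : Prop :=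
  ∀ (Λ : Type) [Fintype Λ] [DecidableEq Λ] (T : ℕ) [NeZero T] (ex ey : Fin T → Λ)
    (p : Fin T → ℝ) (u D : Lp T Λ → ℝ) (Sa : Lp T Λ → Prop)
    (Gw : Finset (Lp T Λ) → Lp T Λ → Prop) (Bad : Finset (Lp T Λ) → Prop)
    (ws : Fin T → Fin T) (near : Λ → Λ → Prop) (Z : Λ → Finset Λ) (κ ε q δ C0 nk Nr : ℝ)
    (Bn N n1 n2 k0 Km : ℕ) (S : Finset Λ) (n : ℕ), TK.HA ex ey p u D Sa Gw κ ε →
    TK.HB ex ey p u D Sa Gw Bad ws near Z ε q δ C0 nk Nr Bn N n1 n2 k0 Km →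
    (∀ g, u g ≠ 0 ∨ D g ≠ 0 → ∀ x, (0, x) ∈ g.2 → x ∈ S) → S.card ≤ n →
    TK.TKb ex ey p u D Sa (TK.κb n κ ε q δ C0 nk Nr Bn N n1 n2 k0 Km)

variable {Λ : Type} [Fintype Λ] [DecidableEq Λ] {T : ℕ} [NeZero T] {G : Bs T Λ} {s : Cfg T Λ}
  {W D : Lp T Λ → ℝ} {g : Lp T Λ} {w x : Finset (Lp T Λ)} {y η ε δ κ : ℝ} {n Km k0 : ℕ}

namespace Tc

lemma pin_pn (h : G.Val (s.add w)) : pin G.ex G.ey (G.pn s) w = G.pn (s.add w) := by
  obtain ⟨ξ, -, hξ⟩ := qq_supp (A := s.e ∪ w) h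
  funext r
  simp only [Bs.pn, Cfg.add, pin, cn_eq hξ, cn_eq (subset_union_left.trans hξ),
    cn_eq (subset_union_right.trans hξ), pts_union, tch, mem_union]
  by_cases a : (r, G.ex r) ∈ pts s.e <;> by_cases b : (r, G.ey r) ∈ pts s.e <;>
    by_cases c : (r, G.ex r) ∈ pts w <;> by_cases e : (r, G.ey r) ∈ pts w <;> simp [a, b, c, e]

lemma u_ne (h : s.u W g ≠ 0) : ¬ Hit s.K g ∧ W g ≠ 0 := by
  unfold Cfg.u off at h
  split_ifs at h with h1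
  exacts [(h rfl).elim, ⟨h1, h⟩]

lemma u_le {c : ℝ} (hc : 0 ≤ c) (h : W g ≤ c) : s.u W g ≤ c := by
  unfold Cfg.u off
  split_ifs
  exacts [hc, h]

lemma yw_le_one (h0 : 0 ≤ y) (h1 : y ≤ 1) (g : Lp T Λ) : yw y g ≤ 1 := by
  rw [yw_eq]; exact pow_le_one₀ h0 h1

lemma yw_long (h0 : 0 ≤ y) (h1 : y ≤ 1) (h : y ^ Km ≤ η) (hg : Km < wd g) : yw y g ≤ η := by
  rw [yw_eq]; exact (pow_le_pow_of_le_one h0 h1 hg.le).trans h

open Classical in
/-- the alive polymers. -/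
noncomputable def alv (s : Cfg T Λ) : Finset (Lp T Λ) := univ.filter fun g => ¬ Hit s.K g

lemma mem_alv (h : s.u W g ≠ 0) : g ∈ alv s := by
  classical exact mem_filter.2 ⟨mem_univ _, (u_ne h).1⟩

lemma root {S : Finset Λ} (hS : ∀ v, v ∉ s.Z → v.2 ∈ S) (h : ¬ Hit s.K g) (a : Λ)
    (ha : (0, a) ∈ g.2) : a ∈ S :=
  hS (0, a) fun hz => h ⟨_, ha, mem_union_left _ hz⟩

lemma rep_q (hG : G.Ok) (h : s.Sup n) : Pc.Rep (G.q s) (alv s) n := by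
  classical
  obtain ⟨S, h1, h2⟩ := h
  exact (Pc.rep_qq (hG.pn s) fun g hg => root h2 (mem_filter.1 hg).2).mono h1

lemma i1_eq {α : Type} (E : α → Prop) [DecidablePred E] (a : α) : TK.i1 (E a) = Op.ind E a := by
  unfold TK.i1 Op.ind; congr

/-- rarity given an up loop is rarity in the configuration with this loop pinned. -/
lemma rare_cfg (hG : G.Ok) (hW : ∀ g, 0 ≤ W g) (hs : G.Val s) (hg : G.Val (s.add {g}))
    {E : Finset (Lp T Λ) → Prop} (h : Op.ex (G.gs W (s.add {g})) (fun w => TK.i1 (E w)) ≤ ε) :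
    TK.Rare G.ex G.ey (G.pn s) (s.u W) g E ε :=
  Pc.rare_of (hG.pn s) (s.u_nn hW) fun _ => by
    have := Pl.med_eq hG hs hg W
    rw [Bs.q] at this
    rwa [this]

lemma rate_long (hG : G.Ok) (h0 : 0 ≤ y) (h1 : y ≤ 1) (hη : 0 ≤ η) (h : y ^ Km ≤ η)
    (hn : s.Sup n) (hw : G.q s w ≠ 0) :
    ∑ g, (if Km < wd g then s.u (yw y) g * Pc.up (G.q s) w g else 0) ≤ n * η := by
  convert (rep_q hG hn).rate_le (P := fun g => Km < wd g) (fun g => mem_alv) hη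
    (fun g hg => u_le hη (yw_long h0 h1 h hg)) hw

lemma ex_long (hG : G.Ok) (h0 : 0 ≤ y) (h1 : y ≤ 1) (hη : 0 ≤ η) (h : y ^ Km ≤ η)
    (hn : s.Sup n) : Op.ex (G.gs (yw y) s) (fun w => TK.i1 (∃ g ∈ w, Km < wd g)) ≤ n * η := by
  refine le_of_eq_of_le ?_ (Pc.ex_has_le (hG.cpt s) (s.u_nn (yw_nn h0)) (fun g => Km < wd g)
    fun w hw => by convert rate_long hG h0 h1 hη h hn hw)
  congr 1
  funext w
  exact @i1_eq _ (fun w => ∃ g ∈ w, Km < wd g) (_) w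

lemma i1_le {P Q R : Prop} (h : P → Q ∨ R) : TK.i1 P ≤ TK.i1 Q + TK.i1 R := by
  unfold TK.i1
  by_cases a : P <;> by_cases b : Q <;> by_cases c : R <;> simp_all

lemma i1_mono {P Q : Prop} (h : P → Q) : TK.i1 P ≤ TK.i1 Q := by
  unfold TK.i1
  by_cases a : P <;> by_cases b : Q <;> simp_all

lemma crs_mono {p : Fin T → ℝ} {S S' : Lp T Λ → Prop} (h : TK.Crs G.ex G.ey p S D κ)
    (hS : ∀ g, S' g → S g) : TK.Crs G.ex G.ey p S' D κ :=
  fun a b ha hb => h a b (fun g hg => hS g (ha g hg)) fun g hg => hS g (hb g hg)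

lemma hit_add : Hit (s.add w).K g ↔ Hit s.K g ∨ Hit (pts w) g := by
  simp only [Cfg.K_add, Hit, mem_union, and_or_left, exists_or]

lemma tka_mono {p : Fin T → ℝ} {u : Lp T Λ → ℝ} {S : Lp T Λ → Prop} {κ' : ℝ}
    (hp : ∀ r, 0 ≤ p r ∧ p r ≤ 1) (hu : ∀ g, 0 ≤ u g) (hD : ∀ g, 0 ≤ D g)
    (h : TK.TKa G.ex G.ey p u D S κ) (hκ : κ ≤ κ') : TK.TKa G.ex G.ey p u D S κ' := fun a ha =>
  (h a ha).trans (add_le_add le_rfl (mul_le_mul_of_nonneg_right hκ (by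
    rw [Pc.ex_U]; exact Pc.Nm_nn (cpt_qq hp) hu fun g => mul_nonneg (sq_nonneg _) (hD g))))

lemma tkb_mono {p : Fin T → ℝ} {u : Lp T Λ → ℝ} {S : Lp T Λ → Prop} {κ' : ℝ}
    (hp : ∀ r, 0 ≤ p r ∧ p r ≤ 1) (hu : ∀ g, 0 ≤ u g) (hD : ∀ g, 0 ≤ D g)
    (h : TK.TKb G.ex G.ey p u D S κ) (hκ : κ ≤ κ') : TK.TKb G.ex G.ey p u D S κ' := fun a ha =>
  (h a ha).trans (mul_le_mul_of_nonneg_right hκ (by
    rw [Pc.ex_U]; exact Pc.Nm_nn (cpt_qq hp) hu fun g => mul_nonneg (sq_nonneg _) (hD g)))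

/-- from the short, alive, possible tests to all tests. -/
lemma finish (hG : G.Ok) (h0 : 0 ≤ y) (hs : G.Val s) (hn : s.Sup n) (hn1 : 1 ≤ n) (hη : 0 < η)
    (hη1 : η ≤ 1) (hD : AdmD D δ η k0 Km) (hκ : 0 ≤ κ) {P : Cfg T Λ → Prop}
    (h : Pc.TK (G.q s) (s.u (yw y)) (s.u D)
      (fun g => P (s.add {g}) ∧ G.Val (s.add {g}) ∧ wd g ≤ Km ∧ ¬ Hit s.K g) κ) :
    G.TT y D s (fun g => P (s.add {g})) (2 * κ + 10 * n * Real.sqrt η) ∧
      G.TB y D s (fun g => P (s.add {g})) (2 * κ + 2 * n * η) := by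
  have hc := hG.cpt s
  have hu := s.u_nn (yw_nn (T := T) (Λ := Λ) h0)
  have hd := s.u_nn hD.D0
  have hL : ∀ g, Km < wd g → s.u D g ≤ η := fun g hg => u_le hη.le (hD.long g hg)
  have hS : ∀ g, (((P (s.add {g}) ∧ ¬ Km < wd g) ∧ s.u D g ≠ 0) ∧ G.q s {g} ≠ 0) →
      P (s.add {g}) ∧ G.Val (s.add {g}) ∧ wd g ≤ Km ∧ ¬ Hit s.K g := fun g hg =>
    ⟨hg.1.1.1, hs.add hg.2, not_lt.1 hg.1.1.2, (u_ne hg.1.2).1⟩
  exact ⟨Pc.TKt.small (rep_q hG hn) hu (fun g => ⟨hd g, u_le zero_le_one (hD.D1 g)⟩)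
      (fun g => mem_alv) hη hη1 hn1 hL (by linarith) (Pc.TKt.of_ne (Pc.TKt.congr hc
        (fun _ _ => rfl) (fun _ _ => rfl) ((h.tkt hc hu).mono hc hu hd hS le_rfl))),
    Pc.TKb.small (rep_q hG hn) hu hd (fun g => mem_alv) hη.le hL hκ (Pc.TKb.of_ne (Pc.TKb.congr hc
      (fun _ _ => rfl) (fun _ _ => rfl) (h.tkb.mono hc hu hd hS le_rfl)))⟩

end Tc

open Tc in
theorem tkCfg (ha : TkaS) (hb : TkbS) : TkCfgStmt := by
  intro Λ _ _ T _ G y D In Cb Cw ws near Z κ ε q δ η εL C K n σ Bn n1 n2 k0 Km hG hC hK hεL hn1 hLP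
    I hD s hs hin
  have hW := yw_nn (T := T) (Λ := Λ) I.y0
  have hn := I.sup s hin
  obtain ⟨Bad0, -, r0, lp0⟩ := toTK hG hW hLP hC (Real.sqrt_pos.2 hεL)
    (Real.sq_sqrt hεL.le).ge (Nr := C * (K + 1)) (by nlinarith) (by nlinarith) I.geo.cnt hs hin hn
  have n1' : (1 : ℝ) ≤ n := by exact_mod_cast hn1
  have e1 := Real.sqrt_nonneg εL
  have e2 : 0 < n * η := mul_pos (by linarith) I.η0
  have e3 := I.ε0
  have eT0 : 0 < eT n ε η εL := by unfold eT; nlinarith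
  have hp := hG.pn s
  have hu := s.u_nn hW
  have hd := s.u_nn hD.D0
  have hd1 : ∀ g, 0 ≤ s.u D g ∧ s.u D g ≤ 1 := fun g => ⟨hd g, u_le zero_le_one (hD.D1 g)⟩
  have sm : ∀ g, s.u D g ≤ δ * wd g := fun g =>
    u_le (mul_nonneg I.δ0 (Nat.cast_nonneg _)) (hD.small I.k1 g)
  have val : ∀ w, nu (qq G.ex G.ey (G.pn s)) (s.u (yw y)) w ≠ 0 → G.Val (s.add w) := fun w hw =>
    hs.add (nu_supp hw).1
  set Sa : Lp T Λ → Prop := fun g =>
    In (s.add {g}) ∧ G.Val (s.add {g}) ∧ wd g ≤ Km ∧ ¬ Hit s.K g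
  have sw : ∀ g, Sa g → Op.ex (G.gs (yw y) (s.add {g}))
      (fun w => TK.i1 (¬ Cb ((s.add {g}).add w))) ≤ ε := fun g hg => by
    classical simpa only [i1_eq (fun w => ¬ Cb ((s.add {g}).add w))] using I.stepW _ hg.2.1 hg.1
  have A : TK.HA G.ex G.ey (G.pn s) (s.u (yw y)) (s.u D) Sa (fun w g => (s.add w).Cg Cw Km g) κ
      (eT n ε η εL) := by
    refine ⟨hp, fun g => ⟨hu g, u_le zero_le_one (yw_le_one I.y0 I.y1 g)⟩, hd1, I.κ0, eT0.le,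
      fun w hw => ?_, fun g hg => rare_cfg hG hW hs hg.2.1 ?_⟩
    · rw [pin_pn (val w hw)]
      exact crs_mono (I.gram _ (val w hw) _ hd1 fun _ => sm) fun g h => h.2
    · refine le_trans (Op.ex_mono_ae (hG.pr hW _).nn fun w hw => i1_mono fun h1 h2 => h1
        ⟨Pl.add_comm' s {g} w ▸ I.sub' _ h2, hg.2.2.1, fun h3 => ?_⟩)
        ((sw g hg).trans (by unfold eT; linarith))
      rcases hit_add.1 h3 with h3 | ⟨v, h3, h4⟩
      · exact hg.2.2.2 h3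
      · obtain ⟨g', h5, h6⟩ := mem_pts.1 h4
        exact ((Bs.gs_supp hw).2 g' h5).1
          (hit_add.2 (.inr ⟨v, h6, mem_pts.2 ⟨g, mem_singleton_self g, h3⟩⟩))
  have B : TK.HB G.ex G.ey (G.pn s) (s.u (yw y)) (s.u D) Sa (fun w g => (s.add w).Cg Cw Km g)
      (fun w => Bad0 w ∨ (¬ Cb (s.add w) ∨ ∃ g ∈ w, Km < wd g)) ws near Z (eT n ε η εL) q δ C 1
      (C * (K + 1)) Bn n n1 n2 k0 Km := by
    refine ⟨I.geo.hws, I.geo.hB, I.q0, I.δ0, hC, by positivity, fun g hg =>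
      ⟨I.slow s g hg.2.1 (I.sub _ hg.1) hg.2.2.2, hg.2.2.1⟩, sm, fun w hw => ?_, fun g hg => ?_,
      fun w hw hB g hg => ?_, fun w hw hB => ?_,
      lp0 _ _ (fun _ => .inl) (by unfold eT; linarith)⟩
    · rw [pin_pn (val w hw)]
      intro r ξ m h1 h2 h3 h4
      refine le_of_eq_of_le ?_ (I.hit _ (val w hw) r ξ m h1 h2.2 h3 h4)
      congr 1
      funext ζ
      exact congrArg TK.i1 (propext ⟨fun h5 => h5.2, fun h5 => ⟨fun h6 => h5.1.2.2 (hit_add.2 (.inr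
        ⟨_, self_mem_obv ζ (0, r), mem_pts.2 ⟨_, h6, self_mem_obv ζ (0, r)⟩⟩)), h5⟩⟩)
    · refine Tk.rare_mono hp hu (Tk.rare_or hp hu (r0 g fun _ => hg.1)
        (rare_cfg (ε := ε + n * η) hG hW hs hg.2.1 ?_)) (fun _ h => h) (by unfold eT; linarith)
      refine le_trans (Op.ex_mono (hG.pr hW _).nn fun w => i1_le (Q := ¬ Cb ((s.add {g}).add w))
        (R := ∃ g ∈ w, Km < wd g) fun h => h.imp_left fun h1 h2 =>
          h1 (I.anti _ {g} (Pl.add_comm' s {g} w ▸ h2))) ?_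
      rw [Op.ex_add]
      exact add_le_add (sw g hg) (ex_long hG I.y0 I.y1 I.η0.le I.long hn)
    · simp only [not_or, not_not, not_exists, not_and, not_lt] at hB
      refine ⟨?_, hB.2.2 g hg, fun h3 => ?_⟩
      · rw [Cfg.add_add, union_comm, ← insert_eq, insert_erase hg]; exact I.sub' _ hB.2.1
      rcases hit_add.1 h3 with h3 | ⟨v, h3, h4⟩
      · exact ((Bs.gs_supp (W := yw y) hw).2 g hg).1 h3
      · obtain ⟨g', h5, h6⟩ := mem_pts.1 h4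
        obtain ⟨ξ, -, hξ⟩ := qq_supp (nu_supp hw).1
        exact (mem_erase.1 h5).1 (L_eq (hξ (mem_of_mem_erase h5)) (hξ hg) h6 h3)
    · simp only [not_or, not_not] at hB
      have hv := val w hw
      have b1 := I.stepB _ hv hB.2.1
      have b2 := rate_long (s := s.add w) (w := ∅) hG I.y0 I.y1 I.η0.le I.long hn
        (by rw [(hG.cpt _).empty]; exact one_ne_zero)
      refine le_trans (sum_le_sum fun g _ => ?_) (((sum_add_distrib ..).trans_le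
        (add_le_add b1 b2)).trans (by unfold eT; linarith))
      have c0 := mul_nonneg ((s.add w).u_nn hW g) ((hG.cpt (s.add w)).nn {g})
      have c1 : s.u (yw y) g * TK.Up G.ex G.ey (G.pn s) w g =
          (s.add w).u (yw y) g * G.q (s.add w) {g} := by
        by_cases h0 : G.q (s.add w) {g} = 0
        · rw [TK.Up, pin_pn hv, h0, mul_zero]; rw [Bs.q] at h0; rw [h0]; simp
        rw [← Pl.off_u hs hv _ h0, TK.Up, pin_pn hv, off]
        split_ifs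
        exacts [by simp, rfl]
      rw [c1, Pc.up, if_neg (notMem_empty g), sh_empty (hG.cpt _)]
      by_cases h0 : (s.add w).u (yw y) g = 0
      · simp [h0]
      have c2 := i1_le (P := ¬ (s.add w).Cg Cw Km g) (Q := ¬ Cw ((s.add w).add {g}))
        (R := Km < wd g) fun h => by
          by_contra h'
          simp only [not_or, not_not, not_lt] at h'
          exact h ⟨h'.1, h'.2, (u_ne h0).1⟩
      refine (mul_le_mul_of_nonneg_left c2 c0).trans (le_of_eq ?_)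
      rw [mul_add, TK.i1.eq_1 (Km < wd g)]
      split_ifs <;> simp
  obtain ⟨S, hS1, hS2⟩ := hn
  have rt : ∀ g, s.u (yw y) g ≠ 0 ∨ s.u D g ≠ 0 → ∀ x, (0, x) ∈ g.2 → x ∈ S := fun g h =>
    root hS2 (h.elim (fun h => (u_ne h).1) fun h => (u_ne h).1)
  have t0 : 0 < Real.sqrt (n * eT n ε η εL) := Real.sqrt_pos.2 (by positivity)
  have a0 : 0 ≤ TK.κa n κ (eT n ε η εL) (Real.sqrt (n * eT n ε η εL)) := by
    have := I.κ0; unfold TK.κa; positivity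
  have b0 : 0 ≤ TK.κb n κ (eT n ε η εL) q δ C 1 (C * (K + 1)) Bn n n1 n2 k0 Km := by
    have := I.q0; have := I.δ0; unfold TK.κb TK.κB TK.cB; positivity
  exact finish hG I.y0 hs ⟨S, hS1, hS2⟩ hn1 I.η0 I.η1 hD (add_nonneg a0 b0) (Pc.tk_of hp
    (tka_mono hp hu hd (ha _ _ _ _ _ _ _ _ _ _ _ _ S n A t0 rt hS1) (le_add_of_nonneg_right b0))
    (tkb_mono hp hu hd (hb _ _ _ _ _ _ _ _ _ _ _ _ _ _ _ _ _ _ _ _ _ _ _ _ _ _ S n A B rt hS1)
      (le_add_of_nonneg_left a0)))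

end Crest.Agent.N337.M
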