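import Crest.Agent.N337.M.LadP
import Crest.Agent.N337.TK.Sup
import Crest.Agent.N337.I.Geom

/-!
# Row 337, the chain (helper78): the ladder of level one runs on space-time units
-/

set_option autoImplicit false
set_option linter.unusedSectionVars false

namespace Crest.Agent.N337.M

open Finset Crest.Agent.N337.Op Crest.Agent.N337.Gas Crest.Agent.N337.A Crest.Agent.N337.Ld

/-- units of the base cells. -/
structure Unt {X α κ : Type} [SemilatticeSup α] [Preorder κ] (S : Rg.Sys X α κ) (B : ℕ) where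
  Gu : ℕ → α → κ → X × Fin B → Prop
  Tc : α → X × Fin B → Prop
  iff : ∀ {t E Z x}, S.G0 t E Z x ↔ ∀ i, Gu t E Z (x, i)
  mono : ∀ {t t' E E' Z u}, t ≤ t' → E' ≤ E → Gu t E Z u → Gu t' E' Z u
  step2 : ∀ {t w C E Z u}, ¬ S.W0 w E Z u.1 → ¬ S.W0 C (E ⊔ w) Z u.1 → Gu t E Z u →
    Gu (t + 1) (E ⊔ w ⊔ C) Z u
  loc : ∀ {t E C Z u}, ¬ Tc C u → Gu t E Z u → Gu t (E ⊔ C) Z u

section abs
variable {X α κ Ω : Type} [Fintype X] [DecidableEq X] [SemilatticeSup α] [Preorder κ] {S : Rg.Sys X α κ} {B : ℕ}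
  (U : Unt S B) {μ : (Ω → Prop) → ℝ} {w C D : Ω → α} {d t : ℕ} {E : α} {Z : κ} {ε : ℝ}
  {Dm : Finset X}

lemma Unt.dead (hA : Alv S Z 0 Dm) {u : X × Fin B} (h : u.1 ∉ Dm) (t : ℕ) (E : α) : U.Gu t E Z u :=
  U.mono (Nat.zero_le _) le_rfl (U.iff.1 (S.G0_dead (hA _ h)) u.2)

/-- every unit goes up by at most one rung. -/
theorem Unt.step (h : Tri S μ w C D d E Z Z 0 ∅ 0 0 0 ε) (n : Rom S d t 0 0 0 0)
    (hA : Alv S Z 0 Dm) (hc : Cls S d E Z 0 t ∅ 0) :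
    μ (fun ω => ¬ ∀ s u, U.Gu s E Z u → U.Gu (s + 1) (E ⊔ D ω) Z u) ≤ 3 * Dm.card * ε := by
  have ht := n.t
  have a1 := Sub.cells (Dm := Dm) h.sub h.e0 _ (fun _ h => h) h.f1
  have a2 := Sub.cells (Dm := Dm) h.sub h.e0 _ (fun _ h => h) h.f2
  have a3 := h.den1 n hA hc
  have a4 := h.sub.or _ _ |>.trans (add_le_add h.le a1)
  have a5 := h.sub.or _ _ |>.trans (add_le_add a2 a3)
  refine (Sub.or' h.sub fun ω hω => ?_).trans ((add_le_add a4 a5).trans_eq (by ring))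
  by_contra hn
  simp only [not_or, not_not] at hn
  obtain ⟨⟨hB, n1⟩, n2, c1⟩ := hn
  refine hω fun s u hu => ?_
  by_cases k : u.1 ∈ Dm
  · refine U.mono le_rfl ?_ (U.step2 (fun f => n1 ⟨_, k, off_empty _ _ _, f⟩) (fun f => n2 ⟨_, k,
      off_empty _ _ _, c1.mono le_rfl le_rfl le_rfl (by omega) Subset.rfl le_rfl, f⟩) hu)
    rw [sup_assoc]
    exact sup_le_sup_left hB _
  · exact U.dead hA k _ _

end abs

section gen
variable {Λ : Type} [Fintype Λ] [DecidableEq Λ] {T : ℕ} [NeZero T] {X α κ : Type} [Fintype X]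
  [DecidableEq X] [SemilatticeSup α] [Preorder κ] {I : Ins T Λ X α κ} {G : Bs T Λ} {B : ℕ}

/-- good pins that touch a unit pass one of `nA` anchors. -/
def Unt.Anc (U : Unt I.S B) (G : Bs T Λ) (Sd : Finset (Fin T × Λ) → Prop) (d nA : ℕ) : Prop :=
  ∀ u, ∃ An : Finset (Fin T × Λ), An.card ≤ nA ∧ ∀ s A, Ad I G Sd d 0 0 0 s ∅ → A ⊆ s.e →
    (∀ g ∈ A, ¬ Hit s.Z g) → U.Tc (I.pa A) u → ∃ g ∈ A, ∃ v ∈ An, v ∈ g.2

section lad
variable {Sd : Finset (Fin T × Λ) → Prop} {y Y ε π π0 δ : ℝ} {μ D : Lp T Λ → ℝ}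
  {d m t t0 st k N nD nA : ℕ} {s : Cfg T Λ} {Nn : ℕ → ℝ} {Out Big : Cfg T Λ → Prop}

/-- touch probability, any event with anchors. -/
theorem prob_anc (h : Ld.Tch I G Sd y Y μ d m t N nD ε π) (hs : G.Val s)
    (k : Kl I Sd N 0 d m t (fun _ => ∅) 0 s) {Q : α → Prop} {An : Finset (Fin T × Λ)}
    (a : ∀ s A, Ad I G Sd (d + 1 + 1) m 0 0 s ∅ → A ⊆ s.e → (∀ g ∈ A, ¬ Hit s.Z g) → Q (I.pa A) →
      ∃ g ∈ A, ∃ v ∈ An, v ∈ g.2) :
    pb (EK G y Y μ s) (fun ω => Q (I.pa ω.2.2)) ≤ 3 * nD * ε + An.card * π := by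
  classical
  obtain ⟨Dm, h1, h2⟩ := h.alv s k.sup
  have hP := pl_EK h.std s
  have ht := h.rom.t
  have b0 := (hP.sub.or _ _).trans (add_le_add ((h.tri hs k).den1 h.rom h2 k.cl)
    ((h.tri hs k).den2 h.rom h2 k.cl))
  have b2 := EK_pts h.std h.π0 h.f4 hs k.sd An (t := t + 1) (by omega)
  have b4 : (Dm.card : ℝ) * ε ≤ nD * ε := mul_le_mul_of_nonneg_right (by exact_mod_cast h1) h.f.e0
  refine le_trans ?_ (add_le_add (b0.trans (by linarith)) b2)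
  rw [pb_eq, pb_eq, ← hP.add]
  refine hP.mono _ _ fun ω hω => ?_
  have n1 : 0 ≤ ∑ v ∈ An, ct (fun g => v ∈ g.2) ω.2.2 := sum_nonneg fun _ _ => ct_nn _ _
  refine ind_le (add_nonneg (ind_nn _ _) (by split_ifs; exacts [n1, le_rfl])) fun k1 => ?_
  unfold Op.ind
  split_ifs with c1 c2 c2
  · linarith
  · linarith
  · obtain ⟨e1, e2, e3⟩ := fin_ad h.std.ok hs k.sd hω ((not_not.1 (not_or.1 c1).2).mono le_rfl
      le_rfl le_rfl (by omega) Subset.rfl le_rfl)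
    obtain ⟨g, hg, v, hv, e4⟩ := a _ _ e1 e2 e3 k1
    rw [zero_add]
    exact (one_le_ct hg e4).trans
      (single_le_sum (f := fun v => ct (fun g => v ∈ g.2) ω.2.2) (fun _ _ => ct_nn _ _) hv)
  · exact absurd (not_not.1 (not_or.1 c1).1) c2

/-- **LdIn** on the units. -/
theorem ldIn_unit (U : Unt I.S B) (hD : ∀ g, 0 ≤ D g ∧ D g ≤ yw Y g)
    (h : Ld.Tch I G Sd y Y (Ld.mk D Y) 0 0 (t0 + (k + 1) * st + 26) N nD ε π0)
    (a : U.Anc G Sd 2 nA) (hπ : 3 * nD * ε + nA * π0 ≤ π)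
    (n : LdN st k (nD * B) Nn (3 * nD * ε) π δ) (hs : G.Val s) (hN : s.Sup N) (hS : Sd s.Z)
    (hc : I.Cl 0 t0 ∅ 0 s) (hO : ∀ A, Out (s.add A) → I.Cl 0 (t0 + st) ∅ 0 (s.add A))
    (hB : ∀ A, I.Cl 0 (t0 + (k + 1) * st + 27) ∅ 0 (s.add A) → Big (s.add A)) :
    ∃ Gd, G.LdIn y D Out Big s Gd := by
  obtain ⟨Dm, h1, h2⟩ := h.alv s hN
  have e0 := h.f.e0
  have kl : ∀ A, (∀ u, U.Gu (t0 + (k + 1) * st + 26) (I.pa (s.e ∪ A)) (I.kz s.Z) u) →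
      Kl I Sd N 0 0 0 (t0 + (k + 1) * st + 26) (fun _ => ∅) 0 (s.add A) :=
    fun A hg => ⟨hN, hS, le_rfl, fun x _ => U.iff.2 fun i => hg (x, i)⟩
  refine ⟨_, ldIn_of (Gd := fun t A u => U.Gu t (I.pa (s.e ∪ A)) (I.kz s.Z) u) (t0 := t0) h.std hD hs
    (fun _ _ _ _ _ ht hA => U.mono ht (Ins.pa_mono (union_subset_union_right hA))) n
    (Dm := Dm ×ˢ univ) (by simpa using Nat.mul_le_mul_right B h1)
    (fun A u hu => U.dead h2 (by simpa using hu) _ _) (fun A hA hg => ?_) (fun A u hA hg => ?_)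
    (fun A hA u => U.iff.1 (Cls.all (hO A hA) u.1) u.2)
    fun A hA => hB A fun x _ => U.iff.2 fun i => hA (x, i)⟩
  · have c := kl A hg
    refine ((h.tri hA c).sub.mono _ _ fun ω hω k1 => hω fun t u hu => ?_).trans
      ((U.step (h.tri hA c) h.rom h2 c.cl).trans (by gcongr))
    have := k1 t u hu
    rwa [← I.pa_union, show (s.add A).e ∪ ω.2.2 = s.e ∪ (A ∪ ω.2.2) from union_assoc _ _ _] at this
  · obtain ⟨An, a1, a2⟩ := a u
    refine ((pl_EK h.std _).pb_imp fun ω _ hω => ?_).trans ((prob_anc (Q := (U.Tc · u)) h hA (kl A hg)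
      a2).trans (le_trans ?_ hπ))
    · by_contra k1
      rw [I.pa_union] at hω
      exact hω (U.mono (Nat.le_add_right _ _) le_rfl (U.loc k1 (U.iff.1 (Cls.all hc u.1) u.2)))
    · have := h.π0
      gcongr

end lad

namespace Par
variable (P : Par Λ) (I) (G)

/-- **all inputs of the ladder of level one.** -/
structure LadO (U : Unt I.S B) (st k nD nA Km : ℕ) (Nn : ℕ → ℝ) (ε π0 π δ κ' δ' η : ℝ) : Prop where
  stp : P.LdT I G 0 (P.tB 1 st k) nD ε π0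
  anc : U.Anc G P.Sd 2 nA
  rst : 3 * nD * ε + nA * π0 ≤ π
  num : LdN st k (nD * B) Nn (3 * nD * ε) π δ
  tQ : P.tQ 1 ≤ P.tP 1 + st
  gram : G.Gram (P.Kt I 1 (P.tB 1 st k)) Km 0 κ' δ'
  κ0 : 0 ≤ κ'
  η0 : 0 < η
  η1 : η ≤ 1
  N1 : 1 ≤ P.N 1
  long : (P.lev I G).y 1 ^ Km ≤ η
  gain : 2 * κ' + 10 * P.N 1 * Real.sqrt η ≤ 1 / 5

variable {P I G}

theorem LadO.ladIn {U : Unt I.S B} {st k nD nA Km : ℕ} {Nn : ℕ → ℝ} {ε π0 π δ κ' δ' η : ℝ}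
    (hG : G.Ok) (hT : ∀ j, 0 ≤ P.Tf j) (h : P.LadO I G U st k nD nA Km Nn ε π0 π δ κ' δ' η) (x : ℝ) :
    (P.lev I G).LadIn G 0 (P.Pre I G 1) (P.Post I 1) x := by
  rw [Lev.LadIn, if_pos rfl]
  refine ⟨P.Kt I 1 (P.tB 1 st k), fun W hW s hs hP => ?_, κ', δ', η, P.N 1, Km, h.κ0, h.η0, h.η1,
    h.N1, fun s a => a.sup, h.gram, h.long, h.gain⟩
  exact ldIn_unit U (fun g => ⟨(hW g).1, (hW g).2.1⟩)
    (h.stp.tch hG hT hW (t' := P.tP 1 + (k + 1) * st + 26) (Nat.le_succ _))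
    (fun u => (h.anc u).imp fun _ a => ⟨a.1, fun s A b => a.2 s A (b.mono sn le_rfl)⟩) h.rst h.num hs
    hP.1.1.1 ⟨hP.1.1.2, hP.1.1.1⟩ hP.2 (fun A a => a.2.mono Subset.rfl Subset.rfl h.tQ)
    fun A a => ⟨hP.1.1.1, hP.1.1.2, le_rfl, a⟩

/-- **`Dlv.lad`** at the levels `j + 1 ≥ 2`. -/
theorem LadD.lad {j : ℕ} {x : ℝ} (hG : G.Ok) (hT : ∀ j, 0 ≤ P.Tf j) (hj : j ≠ 0)
    (hy : (P.lev I G).y j ≤ (P.lev I G).y (j + 1)) (h : P.LadD I G j x) :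
    (P.lev I G).LP G j → ∀ W, (P.lev I G).AdmW j W →
      G.LadH W ((P.lev I G).y j) (P.Pre I G (j + 1)) (P.Post I (j + 1)) 2 :=
  (h.ladIn hG hT hj hy).lad tkaS tkbS hG hT

/-- the small response constant (for the excision). -/
theorem LadD.lad_small {j : ℕ} {x : ℝ} (hG : G.Ok) (hT : ∀ j, 0 ≤ P.Tf j) (h2 : (j + 1) % 3 = 2)
    (hy : (P.lev I G).y j ≤ (P.lev I G).y (j + 1)) (h : P.LadD I G j x) :
    (P.lev I G).LP G j → ∀ W, (P.lev I G).AdmW j W →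
      G.LadH W ((P.lev I G).y j) (P.Pre I G (j + 1)) (P.Post I (j + 1)) ((20 + 8 * c3) * x) :=
  (h.ladIn hG hT (by omega) hy).lad_small tkaS tkbS hG hT h2

/-- **`Dlv.lad`** at level one. -/
theorem LadO.lad {U : Unt I.S B} {st k nD nA Km : ℕ} {Nn : ℕ → ℝ} {ε π0 π δ κ' δ' η : ℝ}
    (hG : G.Ok) (hT : ∀ j, 0 ≤ P.Tf j) (h : P.LadO I G U st k nD nA Km Nn ε π0 π δ κ' δ' η) :
    (P.lev I G).LP G 0 → ∀ W, (P.lev I G).AdmW 0 W →
      G.LadH W ((P.lev I G).y 0) (P.Pre I G (0 + 1)) (P.Post I (0 + 1)) 2 :=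
  (h.ladIn hG hT 0).lad tkaS tkbS hG hT

end Par

end gen

/-! ### the units of the torus -/

section torus
open Crest.Agent.N337.Free Crest.Agent.N337.KV
variable {L n T B : ℕ} [NeZero L] [NeZero T]

/-- the units `(site, first window)`. -/
noncomputable def untI (n : ℕ) (Q : I.Num) (z0 : Tor 3 L) (hT : T = B * Q.D) :
    Unt (I.sys n T Q z0) B where
  Gu t E Z u := I.Gu Q.toLf t E Z u.1 u.2
  Tc C u := I.Tch Q.toLf C u.1 u.2
  iff := I.G0_iff hT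
  mono ht hE h := h.mono ht hE Subset.rfl
  step2 h1 h2 h := h.step2 h1 h2
  loc h1 h := h.loc h1

/-- **anchors of the units**: the window-start slices. -/
theorem anc_untI (G : Bs T (Tor 3 L × Fin n)) (hnn : ∀ s, tdist (G.ex s).1 (G.ey s).1 ≤ 1)
    (Q : I.Num) (z0 : Tor 3 L) (hT : T = B * Q.D) (hl : 1 ≤ Q.l) (hJ : 2 * Q.tm * Q.j1 ≤ Q.r0)
    (Sd : Finset (Fin T × (Tor 3 L × Fin n)) → Prop) (d : ℕ) :
    Unt.Anc (I := I.ins G.ex G.ey Q z0) (untI n Q z0 hT) G Sd d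
      (Q.l * (n * (2 * (2 * Q.r0 + 1) + 1) ^ 3)) := by
  classical
  intro u
  refine ⟨(Ico (u.2 : ℕ) (u.2 + Q.l)).biUnion fun i => (((univ.filter fun z => tdist u.1 z ≤
    2 * Q.r0 + 1) ×ˢ (univ : Finset (Fin n))).image fun y => (tm T (i * Q.D), y)),
    (card_biUnion_le_card_mul _ _ (n * (2 * (2 * Q.r0 + 1) + 1) ^ 3) fun i _ =>
      card_image_le.trans ?_).trans_eq (by simp),
    fun s A a h1 h2 ⟨k, hk, y, h3, h4⟩ => ?_⟩
  · rw [card_product, card_univ, Fintype.card_fin, mul_comm]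
    exact Nat.mul_le_mul_left _ (card_ball_le _ _)
  obtain ⟨ξ, -, hξ⟩ := qq_supp a.val
  have hA := h1.trans hξ
  have hD := I.D_pos hT
  obtain ⟨y', b1, b2⟩ : ∃ y', (tm T k, y') ∈ pts A ∧ tdist u.1 y'.1 ≤ Q.r0 + 1 := by
    change _ ∈ (I.ev G.ex G.ey A).1 ∨ _ ∈ (I.ev G.ex G.ey A).2 at h3
    rw [I.ev_eq hA] at h3
    rcases h3 with h3 | h3
    · exact ⟨y, h3, by omega⟩
    · obtain ⟨-, -, c1, c2⟩ := I.mem_acp.1 h3
      have c3 := hnn (tm T k)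
      have c4 := tdist_triangle u.1 y.1
      rcases c1 with c1 | c1 <;> rcases c2 with rfl | rfl
      · exact ⟨_, c1, by omega⟩
      · exact ⟨_, c1, (c4 _).trans (by rw [tdist_comm] at c3; omega)⟩
      · exact ⟨_, c1, (c4 _).trans (by omega)⟩
      · exact ⟨_, c1, by omega⟩
  have g0 : I.G0 Q.toLf Q.tm (I.ev G.ex G.ey s.e) (I.kil s.Z) y'.1 := Cls.all a.cl y'.1
  obtain ⟨y2, c1, c2⟩ := I.back (ξ := ξ) (X := I.vis (I.kil s.Z) (I.ev G.ex G.ey s.e).2) (k := k)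
    (r' := 0) hnn (fun v => (I.pts_inv hA v).1) (fun r z e1 e2 => I.mem_vis.2 ⟨by
      rw [I.ev_eq hξ]; exact (I.evp_mono (pts_mono h1)).2 e1, by
      obtain ⟨g, e3, e4⟩ := mem_pts.1 e2
      exact I.not_dead (v := (r + 1, z)) fun e5 => h2 g e3 ⟨_, e4, e5⟩⟩) (g0.chg_le hl (k / Q.D))
    (by omega) (Nat.div_mul_le_self _ _) (by rw [add_mul, one_mul]; exact (Nat.lt_div_mul_add hD).le)
    b1 (by rw [tdist_self])
  obtain ⟨g, e1, e2⟩ := mem_pts.1 c1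
  refine ⟨g, e1, _, mem_biUnion.2 ⟨k / Q.D, mem_Ico.2 ⟨?_, ?_⟩, mem_image_of_mem _
    (mem_product.2 ⟨mem_filter.2 ⟨mem_univ _, ?_⟩, mem_univ _⟩)⟩, e2⟩
  · exact (Nat.le_div_iff_mul_le hD).2 (mem_Ico.1 hk).1
  · exact (Nat.div_lt_iff_lt_mul hD).2 (mem_Ico.1 hk).2
  · have := tdist_triangle u.1 y'.1 y2.1
    omega

end torus

end Crest.Agent.N337.M
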