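import Crest.Agent.N337.M.TiltB
import Crest.Agent.N337.M.Top
import Crest.Agent.N337.M.Chain
import Crest.Agent.N337.M.Box
import Crest.Agent.N337.M.Zero
import Crest.Agent.N337.Ld.Child
import Crest.Agent.N337.I.Env

/-!
# Row 337, the top (helper49): the extra colour of the tilt is sparse; the chain without the tilt
-/

set_option autoImplicit false
set_option linter.unusedSectionVars false

namespace Crest.Agent.N337.M

open Finset Filter Crest.Agent.N337.Rep Crest.Agent.N337.Op Crest.Agent.N337.Gas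
  Crest.Agent.N337.A

namespace Tl

variable {Λ : Type} [Fintype Λ] [DecidableEq Λ] {T : ℕ} [NeZero T]

/-- small loops, no cluster of more than `a` loops. -/
def Sp (d : Λ → Λ → ℕ) (σ R a : ℕ) (A : Finset (Lp T Λ)) : Prop :=
  (∀ g ∈ A, ∀ v ∈ g.2, ∀ v' ∈ g.2, d v.2 v'.2 ≤ σ) ∧
    ∀ Y ⊆ A, (∀ g ∈ Y, ∀ g' ∈ Y, ∀ v ∈ g.2, ∀ v' ∈ g'.2, d v.2 v'.2 ≤ R) → Y.card ≤ a

/-- the loops rooted at `X` are `k` different members of `A`. -/
def Rt (ex ey : Fin T → Λ) (ξ : Fin T → Bool) (k : ℕ) (X : Finset Λ) (A : Finset (Lp T Λ)) : Prop :=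
  (X.image fun z => Gas.lp ex ey ξ (0, z)).card = k ∧ X.image (fun z => Gas.lp ex ey ξ (0, z)) ⊆ A

open Classical in
lemma av_rt {ex ey : Fin T → Λ} {D : Lp T Λ → ℝ} {δ : ℝ} (hD : ∀ g, 0 ≤ D g) (hδ : ∀ g, D g ≤ δ)
    (ξ : Fin T → Bool) (k : ℕ) (X : Finset Λ) :
    Pe.av D (L ex ey ξ) (Op.ind (Rt ex ey ξ k X)) ≤ δ ^ k := by
  by_cases hY : (X.image fun z => Gas.lp ex ey ξ (0, z)).card = k
  · have := Pe.av_sup D (A := X.image fun z => Gas.lp ex ey ξ (0, z)) (S := L ex ey ξ)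
      (fun g hg => by obtain ⟨z, -, rfl⟩ := mem_image.1 hg; exact lp_mem_L _ _) fun _ => 1
    rw [Pe.av_const, mul_one] at this
    refine (Pe.av_congr fun A _ => by simp only [Op.ind, Rt, hY, true_and]).trans_le
      (this.trans_le ?_)
    rw [← hY, ← prod_const]
    exact prod_le_prod (fun g _ => hD g) fun g _ => hδ g
  · rw [Pe.av_congr (ψ' := fun _ => 0) fun A _ => by simp only [Op.ind, Rt, hY, false_and, if_false],
      Pe.av_const]
    exact pow_nonneg ((hD default).trans (hδ _)) _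

open Classical in
lemma av_sp {ex ey : Fin T → Λ} {d : Λ → Λ → ℕ} {D : Lp T Λ → ℝ} {S : Finset Λ} {K f R a V : ℕ}
    {δ : ℝ} {ξ : Fin T → Bool} (hd : Met ex ey d) (hD : ∀ g, 0 ≤ D g ∧ D g ≤ 1) (hδ : ∀ g, D g ≤ δ)
    (hS : ∀ g, D g ≠ 0 → wd g ≤ K ∧ ∀ v ∈ g.2, v.2 ∈ S)
    (hV : ∀ x, (univ.filter fun z => d x z ≤ R).card ≤ V)
    (hs : Slow ex ey d (Act ex ey d ξ) (fun u => u.2 ∈ S) f) :
    Pe.av D (L ex ey ξ) (Op.ind fun A => ¬ Sp d ((K + 1) * f) R a A) ≤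
      S.card * (V * δ) ^ (a + 1) := by
  refine ((Ld.pl_av (X := L ex ey ξ) fun g _ => hD g).union_le
    (S.sigma fun x => powersetCard (a + 1) (univ.filter fun z => d x z ≤ R))
    (S' := fun i => Rt ex ey ξ (a + 1) i.2) (fun A hA h => ?_)
    fun i _ => av_rt (fun g => (hD g).1) hδ ξ _ _).trans ?_
  · rw [Sp, not_and_or] at h
    rcases h with h | h
    · refine absurd (fun g hg v hv v' hv' => ?_) h
      have e := eq_lp (hA.1 hg) hv
      obtain ⟨h1, h2⟩ := hS g (hA.2 g hg)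
      rw [e] at h1 h2 hv'
      exact loop_near hd hs ξ v (by simpa only [wd, wind, lp_snd, mem_obv] using h1)
        (fun _ _ h _ => .inl h) (fun w hw _ => h2 w (mem_obv.2 hw)) v' (mem_obv.1 hv')
    push Not at h
    obtain ⟨Y0, h1, h2, h3⟩ := h
    obtain ⟨Y, h4, h5⟩ := exists_subset_card_eq h3
    have : ∀ g : Lp T Λ, ∃ z : Λ, g ∈ L ex ey ξ → (0, z) ∈ g.2 := fun g => by
      by_cases hg : g ∈ L ex ey ξ
      · obtain ⟨v, rfl⟩ := mem_L.1 hg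
        obtain ⟨z, hz⟩ := exists_time ex ey ξ (o (Sg ex ey ξ) v) 0
        exact ⟨z, fun _ => mem_obv.2 hz⟩
      · exact ⟨ex 0, fun h => absurd h hg⟩
    choose rt hrt using this
    have hL : ∀ g ∈ Y, g ∈ L ex ey ξ := fun g hg => hA.1 (h1 (h4 hg))
    obtain ⟨g0, hg0⟩ := card_pos.1 (h5 ▸ Nat.succ_pos a)
    have e : (Y.image rt).image (fun z => Gas.lp ex ey ξ (0, z)) = Y := by
      rw [image_image]
      exact (image_congr fun g hg => (eq_lp (hL g hg) (hrt g (hL g hg))).symm).trans image_id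
    refine ⟨⟨rt g0, Y.image rt⟩, mem_sigma.2 ⟨(hS g0 (hA.2 _ (h1 (h4 hg0)))).2 _ (hrt _ (hL _ hg0)),
      mem_powersetCard.2 ⟨fun z hz => ?_, le_antisymm (card_image_le.trans h5.le)
        (h5.ge.trans ((congrArg card e).ge.trans card_image_le))⟩⟩,
      (congrArg card e).trans h5, e.le.trans (h4.trans h1)⟩
    obtain ⟨g, hg, rfl⟩ := mem_image.1 hz
    exact mem_filter.2 ⟨mem_univ _, h2 _ (h4 hg0) _ (h4 hg) _ (hrt _ (hL _ hg0)) _ (hrt _ (hL _ hg))⟩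
  · rw [mul_pow, ← mul_assoc, card_sigma]
    refine mul_le_mul_of_nonneg_right ?_ (pow_nonneg ((hD default).1.trans (hδ _)) _)
    exact_mod_cast sum_le_card_nsmul _ _ _ fun x _ => (card_powersetCard _ _).trans_le
      ((Nat.choose_le_pow _ _).trans (Nat.pow_le_pow_left (hV x) _))

variable {G : Bs T Λ} {s : Cfg T Λ}

open Classical in
/-- **the extra colour of the tilt is sparse.** -/
theorem hE_sp {y t K0 : ℝ} {K N f R a V : ℕ} (hG : G.Ok) (he : s.e = ∅) (hN : s.Sup N)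
    (y0 : 0 ≤ y) (y1 : y ≤ 1) (t0 : 0 ≤ t) (t1 : t * K ≤ 1 / 4)
    (hR : Rate G.ex G.ey G.d ⟨G.p, fun _ => 0⟩ 2 K0)
    (hV : ∀ x, (univ.filter fun z => G.d x z ≤ R).card ≤ V) :
    G.hE (tw y t K) y s (Op.ind fun A => ¬ Sp G.d ((K + 1) * f) R a A) ≤
      N * Real.exp (40 * K0 - f) + N * (V * (2 * t * K)) ^ (a + 1) := by
  obtain ⟨S, hN, hS⟩ := hN
  have hN : (S.card : ℝ) ≤ N := Nat.cast_le.2 hN
  have key : ∀ g : Lp T Λ, 0 ≤ tw y t K g - yw y g ∧ tw y t K g - yw y g ≤ 2 * t * K ∧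
      tw y t K g ≤ 7 / 5 := fun g => by
    have a0 := M.yw_nn y0 g
    have a1 : yw y g ≤ 1 := yw_eq y g ▸ pow_le_one₀ y0 y1
    have b0 := mul_nonneg t0 (kw_nn K g)
    have b1 := mul_le_mul_of_nonneg_left (kw_le K g) t0
    have b2 := Real.exp_bound_div_one_sub_of_interval b0 (by linarith)
    rw [le_div_iff₀ (by linarith)] at b2
    have b3 := Real.one_le_exp b0
    have b4 : Real.exp (t * kw K g) ≤ 1 + 4 / 3 * (t * kw K g) := by nlinarith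
    rw [Tp.tw_eq]
    exact ⟨by nlinarith, by nlinarith, by nlinarith⟩
  have u0 := Cfg.u_nn (M.yw_nn y0) s
  have D0 := Cfg.u_nn (fun g => (key g).1) s
  have hw : ∀ g, 0 ≤ s.u (tw y t K) g ∧ s.u (tw y t K) g ≤ 7 / 5 := fun g => by
    unfold Cfg.u off; split_ifs
    exacts [by norm_num, ⟨by linarith [(key g).1, M.yw_nn y0 g], (key g).2.2⟩]
  have hp := pr_cl (ex := G.ex) (ey := G.ey) hG.p1 fun g => (hw g).1
  have hD : ∀ g, s.u (fun g => tw y t K g - yw y g) g /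
      (1 + (s.u (yw y) g + s.u (fun g => tw y t K g - yw y g) g)) ≤ 2 * t * K := fun g => by
    refine (div_le_self (D0 g) (by linarith [u0 g, D0 g])).trans ?_
    unfold Cfg.u off; split_ifs
    exacts [by positivity, (key g).2.1]
  have hD1 := fun g => And.intro (div_nonneg (D0 g) (add_nonneg zero_le_one (add_nonneg (u0 g) (D0 g))))
    ((hD g).trans (by linarith : 2 * t * K ≤ 1))
  rw [hE_eq, Bs.q, Bs.pn, he, pin_empty, hx_coin u0 D0, Pl.tot_u]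
  refine (ex_mono hp.nn (g := fun ξ => Op.ind (fun ξ => ¬ Slow G.ex G.ey G.d (Act G.ex G.ey G.d ξ)
    (fun u => u.2 ∈ S) f) ξ + S.card * (V * (2 * t * K)) ^ (a + 1)) fun ξ => ?_).trans ?_
  · by_cases hs : Slow G.ex G.ey G.d (Act G.ex G.ey G.d ξ) (fun u => u.2 ∈ S) f
    · refine (av_sp hG.d hD1 hD (fun g hg => ?_) hV hs).trans (le_add_of_nonneg_left (ind_nn _ _))
      have h1 := (div_ne_zero_iff.1 hg).1
      refine ⟨by_contra fun h => h1 ?_, fun v hv => hS v (Tp.u_supp h1 hv).1⟩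
      simp [Cfg.u, off, tw, h]
    · rw [Op.ind, if_pos hs]
      exact ((Pe.av_mono (fun g _ => hD1 g) fun _ _ => ind_le_one _ _).trans_eq
        (Pe.av_const _ _ 1)).trans (le_add_of_nonneg_right (by positivity))
  · rw [ex_add, hp.ex_const]
    refine add_le_add (le_trans (le_of_eq ?_) ((cl_slow (S := S) f hG.d hG.p hw hR).trans ?_)) ?_
    · exact ex_congr fun ξ _ => by unfold Op.ind; congr
    all_goals exact mul_le_mul_of_nonneg_right hN (by positivity)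

variable {X α κ : Type} [Fintype X] [DecidableEq X] [SemilatticeSup α] [Preorder κ]

/-- a party that is covered by few small balls does not raise the rung. -/
lemma good_sp {S : Rg.Sys X α κ} {E B : α} {Z : κ} {d m t r : ℕ} {x : X} {F : Finset X}
    (h : ∀ y, S.G0 0 E Z y) (hF : F.card ≤ (t + 1) * S.a) (hr : r + S.loc m ≤ S.rad m t)
    (hB : ∀ z, S.hit B z → S.d x z ≤ S.loc (m + 1) → ∃ f ∈ F, S.d f z ≤ r) :
    S.Good d (E ⊔ B) Z (m + 1) t x := by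
  classical
  have key : ∀ y l, S.In m t x y → S.Off F (S.rad m t) y → S.Good d (E ⊔ B) Z m l y :=
    fun y l h1 h2 => (good_bot S h d m l y).loc fun z hz => by
      by_contra h3
      have a1 := S.d_tri x y z
      have a2 := h1.d_le
      obtain ⟨f, hf, a3⟩ := hB z hz (by simp only [Rg.Sys.loc]; omega)
      have a4 := h2 f hf
      have a5 := S.d_tri f z y
      have a6 := S.d_comm z y
      omega
  refine ⟨F, hF, fun y h1 h2 => key y _ h1 h2, fun l _ c => ?_⟩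
  rw [filter_eq_empty_iff.2 fun y _ hy => hy.2.2.2 (key y _ hy.1 hy.2.1)]
  simp

lemma cl_sp {I : Ins T Λ X α κ} {σ R a m t : ℕ} {A : Finset (Lp T Λ)}
    (hd : ∀ x z, G.d x z = I.S.d (I.π x) (I.π z)) (h0 : ∀ y, I.S.G0 0 (I.pa s.e) (I.kz s.Z) y)
    (hh : ∀ z, I.S.hit (I.pa A) z → ∃ g ∈ A, ∃ v ∈ g.2, I.S.d (I.π v.2) z ≤ 1)
    (ha : a ≤ (t + 1) * I.S.a) (hr : σ + 1 + I.S.loc m ≤ I.S.rad m t)
    (hR : 2 * (I.S.loc (m + 1) + 1 + σ) ≤ R) (h : Sp G.d σ R a A) :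
    I.Cl (m + 1) t ∅ 0 (s.add A) := fun x _ => by
  classical
  set Y := A.filter fun g => ∃ v ∈ g.2, I.S.d x (I.π v.2) ≤ I.S.loc (m + 1) + 1
  have : ∀ g : Lp T Λ, ∃ z : Λ, g ∈ Y → ∀ v ∈ g.2, G.d z v.2 ≤ σ ∧
      I.S.d x (I.π z) ≤ I.S.loc (m + 1) + 1 := fun g => by
    by_cases hg : g ∈ Y
    · obtain ⟨h1, v, h2, h3⟩ := mem_filter.1 hg
      exact ⟨v.2, fun _ v' h4 => ⟨h.1 g h1 v h2 v' h4, h3⟩⟩
    · exact ⟨G.ex 0, fun h => absurd h hg⟩
  choose c hc using this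
  show I.S.Good 0 (I.pa (s.e ∪ A)) _ _ _ _
  rw [I.pa_union]
  refine good_sp (F := Y.image fun g => I.π (c g)) h0 (card_image_le.trans ((h.2 Y
    (filter_subset _ _) fun g hg g' hg' v hv v' hv' => ?_).trans ha)) hr fun z hz h1 => ?_
  · have a1 := hc g hg v hv
    have a2 := hc g' hg' v' hv'
    have a3 := I.S.d_tri (I.π v.2) x (I.π v'.2)
    have a4 := I.S.d_tri x (I.π (c g)) (I.π v.2)
    have a5 := I.S.d_tri x (I.π (c g')) (I.π v'.2)
    have a6 := I.S.d_comm x (I.π v.2)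
    simp only [hd] at a1 a2 ⊢
    omega
  · obtain ⟨g, h2, v, h3, h4⟩ := hh z hz
    have a1 := I.S.d_tri x z (I.π v.2)
    have a2 := I.S.d_comm z (I.π v.2)
    have hg : g ∈ Y := mem_filter.2 ⟨h2, v, h3, by omega⟩
    have a3 := (hc g hg v h3).1
    have a4 := I.S.d_tri (I.π (c g)) (I.π v.2) z
    rw [hd] at a3
    exact ⟨_, mem_image_of_mem _ hg, by omega⟩

/-- **the junk step of the tilted top colour** from the untilted one. -/
theorem stepH_tw {I : Ins T Λ X α κ} {P : Par Λ} {J K f R a V m : ℕ} {t K0 : ℝ} (hG : G.Ok)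
    (T0 : ∀ j, 0 ≤ P.Tf j) (hy : (P.lev I G).y J ≤ (P.lev I G).y (J + 1)) (D : P.Dlv I G J)
    (hJ : J + 1 = 3 * (m + 1) + 1) (he : s.e = ∅) (hB : P.Base (J + 1) s) (t0 : 0 ≤ t)
    (t1 : t * K ≤ 1 / 4) (hR : Rate G.ex G.ey G.d ⟨G.p, fun _ => 0⟩ 2 K0)
    (hV : ∀ x, (univ.filter fun z => G.d x z ≤ R).card ≤ V)
    (hd : ∀ x z, G.d x z = I.S.d (I.π x) (I.π z)) (h0 : ∀ y, I.S.G0 0 (I.pa s.e) (I.kz s.Z) y)
    (hh : ∀ A, G.q s A ≠ 0 → ∀ z, I.S.hit (I.pa A) z → ∃ g ∈ A, ∃ v ∈ g.2, I.S.d (I.π v.2) z ≤ 1)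
    (ha : a ≤ (P.tP (J + 1) + 1) * I.S.a)
    (hr : (K + 1) * f + 1 + I.S.loc m ≤ I.S.rad m (P.tP (J + 1)))
    (hR' : 2 * (I.S.loc (m + 1) + 1 + (K + 1) * f) ≤ R) :
    G.StepH (tw ((P.lev I G).y (J + 1)) t K) ((P.lev I G).y J) (fun s' => s' = s) (P.Post I (J + 1))
      (P.N (J + 1) * Real.exp (40 * K0 - f) + P.N (J + 1) * (V * (2 * t * K)) ^ (a + 1) +
        P.e (J + 1) / 10) := by
  classical
  have y0 := (P.lev I G).y_nn (J + 1)
  have hW : ∀ g : Lp T Λ, yw ((P.lev I G).y (J + 1)) g ≤ tw ((P.lev I G).y (J + 1)) t K g :=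
    fun g => le_mul_of_one_le_right (M.yw_nn y0 g) (Real.one_le_exp (by positivity))
  refine stepH_comp (Mid := P.Pre I G (J + 1)) hG (Lev.y_nn J) hy hW (by linarith [D.e0]) ?_
    (D.stepH.and fun s x h => h.1.1)
  rintro s hs rfl
  refine le_trans (ex_mono_ae (pr_nu (hG.cpt s).qL (Pc.two_nn (Cfg.u_nn (M.yw_nn y0) s)
    (Cfg.u_nn (fun g => sub_nonneg.2 (hW g)) s))).nn fun X hX => ?_)
    (hE_sp hG he hB.1 y0 (Lev.y_le_one T0 _) t0 t1 hR hV)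
  refine Ld.ind_le (ind_nn _ _) fun h => (Ld.ind_pos fun h' => h ⟨⟨hB, by omega⟩, ?_⟩).ge
  rw [show (J + 1) / 3 = m + 1 by omega]
  exact cl_sp hd h0 (hh _ ((hG.cpt s).ne_of_sub (fg_mono (filter_subset _ X))
    (qL_supp (nu_supp hX).1).2)) ha hr hR' h'

lemma card_dS {L n : ℕ} [NeZero L] (x : Top.Sl L n) (R : ℕ) :
    (univ.filter fun z => dS x z ≤ R).card ≤ n * (2 * R + 1) ^ 3 := by
  have := card_le_card (s := univ.filter fun z => dS x z ≤ R)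
    (t := (univ.filter fun z => tdist x.1 z ≤ R) ×ˢ univ)
    fun z hz => mem_product.2 ⟨mem_filter.2 ⟨mem_univ _, (mem_filter.1 hz).2⟩, mem_univ _⟩
  rw [card_product, card_univ, Fintype.card_fin, mul_comm] at this
  exact this.trans (Nat.mul_le_mul_left _ (Free.card_ball_le _ _))

end Tl

open Crest.Agent.N337.Top

/-- **everything that remains**, without the tilt: `m + 1` = scale of the top level `J + 1`. -/
def FinStmt2 : Prop :=
  ∀ (n : ℕ) [NeZero n], ∃ β0 : ℝ, ∀ β : ℝ, β0 ≤ β → ∀ (K : ℕ) (ε : ℝ), 0 < ε →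
    ∃ (J m l σ : ℕ) (Tf : ℕ → ℝ) (lam η : ℝ), Tf 0 = 0 ∧
      (∀ j, 0 < Tf (j + 1) ∧ Tf (j + 1) ≤ Tf (j + 2)) ∧ 1 / Tf (J + 1) ≤ ε * lam ∧ lam ≤ ε ∧
      β ≤ ε * (1 / Tf (J + 1)) * l ∧ J + 1 = 3 * (m + 1) + 1 ∧
      lam * K ≤ 1 / 4 ∧ lam * Tf J ≤ 1 ∧ 2 * K ≤ Tf J ∧
      lam * (c1 * (1 + c1)) * (n * K + n ^ 2 * (2 * σ + 1) ^ 3 + η * n ^ 2 * l ^ 3) ≤ ε ∧
      ∀ᶠ L : ℕ in atTop, ∀ sy : List (Sl (L + 1) n × Sl (L + 1) n × ℝ), Sym sy →
        ∀ᶠ w : ℕ in atTop, ∀ z : Tor 3 (L + 1), ∃ (Q : I.Num) (P : Par (Sl (L + 1) n)) (f a : ℕ),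
          P.Tf = Tf ∧ P.σ (J + 1) = σ ∧ 0 ≤ P.e 0 ∧ P.Dm = cubeS n z l ∧ n * l ^ 3 ≤ P.N (J + 1) ∧
          (∀ j ≤ J, P.Dlv (insT Q z β w sy) (GT β w sy) j) ∧
          a ≤ (P.tP (J + 1) + 1) * Q.a ∧
          (K + 1) * f + 1 + (insT Q z β w sy).S.loc m ≤ Q.rad m (P.tP (J + 1)) ∧
          12 * P.e (J + 1) + 110 * (P.N (J + 1) * Real.exp (40 * Kw n β 2 - f) + P.N (J + 1) *
            (n * (4 * ((insT Q z β w sy).S.loc (m + 1) + 1 + (K + 1) * f) + 1) ^ 3 *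
              (2 * lam * K)) ^ (a + 1)) ≤ η

theorem chain_of2 (hF : FinStmt2) : ChainStmt := by
  intro n _
  obtain ⟨β0, hF⟩ := hF n
  refine ⟨max β0 0, fun β hβ K ε hε => ?_⟩
  obtain ⟨J, m, l, σ, Tf, lam, η, t0, t1, a1, a2, a3, a5, a6, a7, a8, a4, hF⟩ :=
    hF β ((le_max_left _ _).trans hβ) K ε hε
  refine ⟨1 / Tf (J + 1), lam, c1 * (1 + c1), 20, η, l, σ, one_div_pos.2 (t1 J).1, a1, a2, a3,
    by norm_num [c1], a4, hF.mono fun L hL sy hs => ((hL sy hs).and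
      (eventually_ge_atTop (60 * n ^ 2 * (2 * 2 + 1) ^ 3))).mono fun w ⟨hw, hw'⟩ z t h1 h2 => ?_⟩
  obtain ⟨Q, P, f, a, rfl, rfl, e0, b1, b2, hD, b3, b4, b5⟩ := hw z
  have hβ0 : 0 ≤ β := (le_max_right _ _).trans hβ
  have hG := ok_GT hβ0 w hs
  have T0 : ∀ j, 0 ≤ P.Tf j := fun j => by
    cases j with
    | zero => exact t0.ge
    | succ j => exact (t1 j).1.le
  refine ⟨fun s => s = s0 z l, rfl, ?_⟩
  have ey : (P.lev (insT Q z β w sy) (GT β w sy)).y (J + 1) = Real.exp (-(1 / P.Tf (J + 1))) := by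
    rw [Lev.y, if_neg (by omega), neg_div]; rfl
  have hy : ∀ j, (P.lev (insT Q z β w sy) (GT β w sy)).y j ≤
      (P.lev (insT Q z β w sy) (GT β w sy)).y (j + 1) := fun j => by
    cases j with
    | zero => rw [Lev.y, if_pos rfl]; exact Lev.y_nn _
    | succ j =>
      rw [Lev.y, Lev.y, if_neg (by omega), if_neg (by omega), neg_div, neg_div]
      exact Real.exp_le_exp.2 (neg_le_neg (one_div_le_one_div_of_le (t1 j).1 (t1 j).2))
  have hB : P.Base (J + 1) (s0 (T := TT β w sy) z l) :=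
    ⟨⟨cubeS n z l, (card_cubeS z l).trans b2, fun v hv => mem_cubeS.2 (by simpa [s0] using hv)⟩,
      fun v hv => b1 ▸ mem_cubeS.2 (by simpa [s0] using hv)⟩
  have k0 : (0 : ℝ) ≤ K := Nat.cast_nonneg _
  have k1 : t * K ≤ 1 / 4 := (mul_le_mul_of_nonneg_right h2 k0).trans a6
  have hH := Tl.stepH_tw (R := 2 * ((insT Q z β w sy).S.loc (m + 1) + 1 + (K + 1) * f))
    (V := n * (2 * (2 * ((insT Q z β w sy).S.loc (m + 1) + 1 + (K + 1) * f)) + 1) ^ 3)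
    hG T0 (hy J) (hD J le_rfl) a5 rfl hB h1 k1 (rate_word hβ0 hs _ (hw'.trans (Nat.le_succ _)))
    (fun x => Tl.card_dS x _) (fun _ _ => rfl) (fun y => cl_s0 Q z z β w sy l 0 0 0 ∅ y (by simp [Rg.Sys.Off]))
    (fun A hA y hy => ?_) b3 b4 le_rfl
  · have e1 := (hD J le_rfl).e0
    have := Tl.top' peel monoStmt zeroStmt hG t0 T0 hy e0
      (fun j hj => (hD j hj).step (boxO giv) (boxC giv) monoStmt zeroStmt hG)
      (Tl.admW_tw T0 (by omega) (hy J) h1 (k1.trans (by norm_num))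
        ((mul_le_mul_of_nonneg_right h2 (T0 J)).trans a7) a8)
      ⟨⟨hB, by omega⟩, cl_s0 _ _ _ _ _ _ _ _ _ _ _⟩ (by positivity) hH
    rw [ey] at this
    refine monoStmt _ _ _ _ _ _ _ _ _ _ _ _ _ _ _ _ _ hG (fun g => mul_nonneg
      (M.yw_nn (Real.exp_pos _).le g) (Real.exp_pos _).le) (fun _ h => h) (fun _ h => h) le_rfl
      (by norm_num [c1]) le_rfl (le_trans ?_ b5) this
    have : (P.N (J + 1) : ℝ) * (((n * (2 * (2 * ((insT Q z β w sy).S.loc (m + 1) + 1 + (K + 1) * f))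
        + 1) ^ 3 : ℕ) : ℝ) * (2 * t * K)) ^ (a + 1) ≤ P.N (J + 1) *
        (n * (4 * ((insT Q z β w sy).S.loc (m + 1) + 1 + (K + 1) * f) + 1) ^ 3 *
          (2 * lam * K)) ^ (a + 1) := by
      push_cast
      rw [← mul_assoc (2 : ℝ) 2, show (2 : ℝ) * 2 = 4 by norm_num]
      gcongr
    show 110 * _ + P.e (J + 1) ≤ _
    linarith
  · obtain ⟨ξ, -, hξ⟩ := qq_supp hA
    replace hy : I.hit (I.ev (GT β w sy).ex (GT β w sy).ey A) y := hy
    rw [I.ev_eq hξ] at hy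
    obtain ⟨v, h3, h4⟩ := I.hit_evp hG.d.2.2.2 hy
    obtain ⟨g, h5, h6⟩ := mem_pts.1 h3
    exact ⟨g, h5, v, h6, h4.elim (by rintro rfl; exact (hG.d.1 v.2).trans_le zero_le_one) id⟩

/-- **the polar bound** from the parameters, the deliverables and the long loop bound. -/
theorem polar2 (hF : FinStmt2) (hL : LongStmt) : C.PolarStmt :=
  polar_of sym bridge (short kill (top (chain_of2 hF))) hL

end Crest.Agent.N337.M
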