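import Crest.Agent.N337.M.Ctx
import Crest.Agent.N337.M.LadU
import Crest.Agent.N337.Par.Top

/-!
# Row 337, the chain (helper56): `DlvAll` from the joints on the concrete objects
-/

set_option autoImplicit false
set_option linter.unusedSectionVars false

namespace Crest.Agent.N337.M

open Finset Crest.Agent.N337.Free Crest.Agent.N337.Gas Crest.Agent.N337.A Crest.Agent.N337.Top
  Crest.Agent.N337.Par

variable {L n : ℕ} [NeZero L] [NeZero n]

lemma Tf_mono (u : ℕ) {j k : ℕ} (h : j ≤ k) : Tf u j ≤ Tf u k := by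
  by_cases hj : j = 0
  · rw [hj, Tf_zero]; exact Tf_nn k
  · rw [Tf_ne hj, Tf_ne (by omega)]
    exact Nat.cast_le.2 (Y_mono (by have := tb_mono h; omega))

lemma Tf_pos (u : ℕ) {j : ℕ} (h : j ≠ 0) : 0 < Tf u j := by rw [Tf_ne h]; exact Yr_pos _ _

namespace Ctx
variable {u ms w : ℕ} {β : ℝ} {sy : List (Sl L n × Sl L n × ℝ)} (C : Ctx u ms β w sy)
  (z : Tor 3 L)

/-- the levels as a `Lev`. -/
noncomputable abbrev V := (PP n u ms β z).lev (C.I z) (GT β w sy)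

/-- joint (A): the cell claims of all scales. -/
def JA : Prop := ∀ m ≤ ms + 1, ∀ Yp, yl u (3 * m) ≤ Yp → Yp ≤ Yt u ms → C.Cel z m Yp

/-- joint (D): the ladder of level one. -/
def JD : Prop := (C.V z).LP (GT β w sy) 0 → ∀ W, (C.V z).AdmW 0 W →
  (GT β w sy).LadH W ((C.V z).y 0) ((C.V z).Pre (0 + 1)) ((C.V z).Post (0 + 1)) 2

/-- joint (E): the ladders of the higher levels. -/
def JE : Prop := ∀ j, 1 ≤ j → j ≤ 3 * ms + 3 →
  (PP n u ms β z).LadD (C.I z) (GT β w sy) j (s u (tb j + 2))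

/-- joint (F): the excisions. -/
def JF : Prop := ∀ j ≤ 3 * ms + 3, (j + 1) % 3 = 2 →
  (PP n u ms β z).LadD (C.I z) (GT β w sy) j (s u (tb j + 2)) →
  (GT β w sy).StepH (yw ((C.V z).y (j + 1))) ((C.V z).y j) ((C.V z).Pre (j + 1))
    ((C.I z).Cl ((j + 1) / 3) ((PP n u ms β z).tQ (j + 1)) ∅ 0) ((PP n u ms β z).e (j + 1) / 10) →
  (C.V z).LP (GT β w sy) j → (GT β w sy).Stg (yw ((C.V z).y (j + 1))) ((C.V z).y (j + 1))
    ((C.V z).In (j + 1)) ((C.V z).Pre (j + 1)) ((PP n u ms β z).σ (j + 1)) c1 10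
    ((PP n u ms β z).e (j + 1))

variable {C z} {j k : ℕ} {W : Lp (TT β w sy) (Sl L n) → ℝ}

/-- admissible top colours are thin. -/
lemma thin (hW : (C.V z).AdmW j W) (h0 : k ≠ 0) (hk : k ≤ j) :
    Thin (yl u (j + 1)) (3 / Tf u k) fun g => W g - yw (yl u j) g := fun g => by
  refine ⟨(hW g).1, (hW g).2.1, ?_⟩
  rw [div_mul_eq_mul_div, le_div_iff₀ (Tf_pos u h0)]
  exact (mul_le_mul_of_nonneg_left (Tf_mono u hk) (hW g).1).trans (hW g).2.2

lemma nx2 (u m : ℕ) : nx u m (nx u m 0) ≤ Rr u m 30 :=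
  (nx_mono u m (nx_mono u m (Nat.zero_le (Rr u m 0)))).trans (by
    rw [nx_Rr, nx_Rr]; exact Rr_mono u m (by norm_num))

lemma gr_Co (C : Ctx u ms β w sy) (z : Tor 3 L) (hj : j ≤ 3 * ms + 4) (i : Fin 4) :
    C.Gr z (j / 3) ((PP n u ms β z).Co j i) := fun k hk =>
  Ld.grd_cor (Y_pos _ _) (grid_dvd C.hu hk).1 (grid_dvd C.hu hk).2 (Y_dvd (by omega)) i

theorem stD (hA : C.JA z) (hj : j ≤ 3 * ms + 3) :
    (PP n u ms β z).StD (C.I z) (GT β w sy) j (yl u (j + 1)) (Par.eps u ((j + 1) / 3))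
      (Y u (48 * ((j + 1) / 3) + 53)) := by
  have c := hA ((j + 1) / 3) (by omega) _ (yl_mono u (show _ ≤ j + 1 by omega)) (yl_le (by omega))
  have yy := yl_mono u (Nat.le_succ j)
  have hW : (C.V z).AdmW j _ := Lev.admW_yw (Tf_zero (u := u)) Tf_nn yy
  have t1 := Rung.kd_le (kd := ck0 + 27) (k := cK)
  have t2 := Rung.tP_le (kd := ck0 + 27) (k := cK) (j := j + 1)
  rw [← ctm_eq] at t1 t2
  refine ⟨yl_nn _ _, ((yl_le (by omega)).trans (Yt_lt u ms).le), yy,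
    (I.alvH _ _ _ z _ _).mono le_rfl (nD_le C.bg le_rfl z _), show ck0 + 27 + 1 ≤ ctm by omega,
    show Rung.tP _ _ _ + 2 ≤ ctm by omega, fun h => Rung.tI_lt_tP (by omega), Rung.tQ_eq.ge,
    (c.eH (nx2 u _) (yl_nn _ _) yy le_rfl fun h => thin hW (by omega) (by omega)).zero,
    fun _ i => (c.eU (C := fun _ => (PP n u ms β z).Co (j + 1) i) (nx2 u _) (yl_nn _ _) le_rfl
      fun _ => C.gr_Co z (by omega) i).zero, std_num C.hu le_rfl⟩

/-- **the deliverables of every level.** -/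
theorem dlv (hA : C.JA z) (hD : C.JD z) (hE : C.JE z) (hF : C.JF z) (hj : j ≤ 3 * ms + 3) :
    (PP n u ms β z).Dlv (C.I z) (GT β w sy) j := by
  have S := stD hA hj
  have hu := C.hu
  have t1 := Rung.tI_le (kd := ck0 + 27) (k := cK) (j := j + 1)
  have t2 := Rung.tQ_le_tm (kd := ck0 + 27) (k := cK) (j := j + 1)
  rw [← ctm_eq] at t1 t2
  have e := tb_eq j
  refine dlv_of C.bg C.wd.β0 C.B2 C.wd.hs (T_eq β w sy) C.B2
    (le_trans (by tier! (48 * (ms + 1) + 11 + 27)) C.hL) (C.le_w (by omega))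
    (show Rung.tI _ _ _ ≤ ctm by omega) (show Rung.tQ _ _ _ ≤ ctm by omega)
    (fun _ => Rung.tI_le_tP) rfl rfl (S.stepU C.ok) (fun h => hF j hj h (hE j (by omega) hj)
      (S.stepH C.ok)) ?_ (S.stepH C.ok)
  by_cases h0 : j = 0
  · subst h0; exact hD
  · exact (hE j (by omega) hj).lad C.ok Tf_nn h0 S.yy

end Ctx

/-- a property of all contexts with a large lowest tier. -/
def All (J : ∀ (n L : ℕ) [NeZero L] [NeZero n] (u ms w : ℕ) (β : ℝ)
    (sy : List (Sl L n × Sl L n × ℝ)), Ctx u ms β w sy → Tor 3 L → Prop) : Prop :=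
  ∀ (n : ℕ) [NeZero n], ∀ᶠ u in Filter.atTop, ∀ (L : ℕ) [NeZero L] (ms w : ℕ) (β : ℝ)
    (sy : List (Sl L n × Sl L n × ℝ)) (C : Ctx u ms β w sy) (z : Tor 3 L), J n L u ms w β sy C z

theorem dlvAll_of (h : All fun _ _ _ _ _ _ _ _ _ C z => C.JA z ∧ C.JD z ∧ C.JE z ∧ C.JF z) :
    DlvAll := by
  intro n _
  obtain ⟨u0, h⟩ := Filter.eventually_atTop.1 (h n)
  refine ⟨u0, fun u hu hb β b1 b2 m => ⟨Y u (48 * m + 1000), fun L _ hL sy w hw z => ⟨rt u, ?_⟩⟩⟩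
  have C : Ctx u m β w sy := ⟨hb, b1, b2, hw, hL⟩
  obtain ⟨a, b, c, d⟩ := h u hu L m w β sy C z
  exact fun j hj => Ctx.dlv a b c d hj

end Crest.Agent.N337.M
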