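import Crest.Agent.N337.Par.One
import Crest.Agent.N337.Par.GwX

/-!
# Row 337 (helper78): joint (D), the ladder of level one on the final objects
-/

set_option autoImplicit false
set_option linter.unusedSectionVars false

namespace Crest.Agent.N337.M.Ctx

open Finset Crest.Agent.N337.Free Crest.Agent.N337.Gas Crest.Agent.N337.A Crest.Agent.N337.Top
  Crest.Agent.N337.Par

variable {L n : ℕ} [NeZero L] [NeZero n] {u ms w : ℕ} {β : ℝ} {sy : List (Sl L n × Sl L n × ℝ)}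
  (C : Ctx u ms β w sy) (z : Tor 3 L)

/-- joint (C) without cover at scale `0`. -/
def XD : Prop := ∃ K j, C9.Gw C.W (GT β w sy) C.Q (gs u 1) (Yt u ms) (s u 8) 2 0 0 0 K j ∧
  C9.zm (Yt u ms) K ≤ s u 8

lemma Tf_one (u : ℕ) : Tf u 1 = Y u 37 := by
  rw [Tf_ne one_ne_zero, show tb 1 + 6 = 37 by rw [tb_eq]]

lemma yl_one (u : ℕ) : yl u 1 = Real.exp (-1 / (Y u 37 : ℕ)) := by
  rw [yl, if_neg one_ne_zero, Tf_one]

lemma Y38_le (u ms : ℕ) : Real.exp (-1 / (Y u 38 : ℕ)) ≤ Yt u ms := by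
  rw [Yt, neg_div, neg_div]
  exact Real.exp_le_exp.2 (neg_le_neg (one_div_le_one_div_of_le (Yr_pos _ _)
    (Nat.cast_le.2 (Y_mono (by omega)))))

/-- **joint (D).** -/
theorem jd_of (hA : C.JA z) (hB : C.XB z) (hD : C.XD) : C.JD z := by
  obtain ⟨K, i, g, hz⟩ := hD
  have y1 : yl u 1 ≤ Yt u ms := yl_le (by omega)
  have t1 := Rung.tB_le (kd := ck0 + 27) (k := cK) (j := 0)
  rw [← ctm_eq] at t1
  have f : ∀ Yp, 0 ≤ Yp → Yp ≤ Yt u ms → C9.F2A (C9.ppI (GT β w sy) C.Q z C.hT C.ptX)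
      (PP n u ms β z).Sd Yp 1 0 0 0 0 (Par.eps u 0) := fun Yp a b =>
    (hB 0 (by omega) Yp 1 0 a b (by omega) (Nat.zero_le _)).zero
  have c := hA 0 (by omega) _ (yl_mono u (Nat.zero_le 1)) y1
  have f1 := f _ (yl_nn u 1) y1
  rw [yl_one] at f1
  have c' := c
  unfold Ctx.Cel at c'
  rw [yl_one] at c'
  exact (ladO (P := PP n u ms β z) (G := GT β w sy) C.bg ⟨C.B1, C.B2⟩ C.hT C.ptX rfl
    (Tf_one u)
    (le_trans (Nat.add_le_add_left (by omega) _) t1) Rung.tQ_le c' (nx2 u 0) f1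
    (f _ (le_trans (by norm_num) (half_le_Yt C.hu ms)) le_rfl) g (Y38_le u ms) C.bg.Cg hz
    le_rfl).lad C.ok Tf_nn

theorem xd : C.XD := ⟨_, _, C.gwX (m := 0) (by omega) (by omega)
  (le_trans (by norm_num) (half_le_Yt C.hu ms)) le_rfl (by omega) (.inl ⟨rfl, rfl⟩),
  C.zmX (by omega)⟩

/-- **joint (D)** from the cell claims and `F2A`. -/
theorem jd (hA : C.JA z) (hB : C.JB z) : C.JD z := C.jd_of z hA hB C.xd

end Crest.Agent.N337.M.Ctx
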