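import Crest.Agent.N337.M.CelJ
import Crest.Agent.N337.M.Jd
import Crest.Agent.N337.Par.Je

/-!
# Row 337, the chain (helper56): all joints from the engine and the media
-/

set_option autoImplicit false
set_option linter.unusedSectionVars false

namespace Crest.Agent.N337.M.Ctx

open Finset Crest.Agent.N337.Free Crest.Agent.N337.Gas Crest.Agent.N337.A Crest.Agent.N337.Top
  Crest.Agent.N337.Par

variable {L n : ℕ} [NeZero L] [NeZero n] {u ms w : ℕ} {β : ℝ} {sy : List (Sl L n × Sl L n × ℝ)}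
  (C : Ctx u ms β w sy) (z : Tor 3 L)

/-- what is left. -/
theorem all_of (hB : C.JB z) (hN : C.JN z) (hT : C.JT z) : C.JA z ∧ C.JD z ∧ C.JE z ∧ C.JF z :=
  have hA : C.JA z := ja hB
  ⟨hA, C.jd z hA hB, C.je_of z hA hB (jc hN) hT, C.jf z hA hB⟩

end Crest.Agent.N337.M.Ctx
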