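import Crest.Agent.N337.M.LadP
import Crest.Agent.N337.Ld.Cov
import Crest.Agent.N337.Ld.Grd

/-!
# Row 337, the chain (helper62): the ladder and the boxes on the concrete rung
-/

set_option autoImplicit false
set_option linter.unusedSectionVars false

namespace Crest.Agent.N337.M

open Finset Crest.Agent.N337.Gas Crest.Agent.N337.A Crest.Agent.N337.Ld Crest.Agent.N337.Free

/-- parameters of the ladder of one level: depth, living cells (`nD` at the scale of the ladder,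
`nB` in a box), anchors and their range, radii of the box step, probabilities. -/
structure LdQ where
  k : ℕ
  nD : ℕ
  nB : ℕ
  nA : ℕ
  rA : ℕ
  R0 : ℕ
  R1 : ℕ
  R2 : ℕ
  R3 : ℕ
  Nn : ℕ → ℝ
  /-- cells of the ladder, children of a cell, cells of the boxes -/
  ε : ℝ
  εn : ℝ
  εb : ℝ
  π0 : ℝ
  π : ℝ
  δ : ℝ

/-- numbers of the boxes of level `j + 1 = 3 (m + 1)`; `t` = top rung. -/
structure BxN {Λ : Type} (P : Par Λ) (Q : I.Num) (n : ℕ) (E : LdQ) (j t : ℕ) : Prop where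
  card : n * (2 * P.bx (j + 1) + 1) ^ 3 ≤ P.N j
  few : P.bx (j + 1) + locN Q (j / 3) + 1 + 3 * t * Q.H (j / 3) ≤ Q.ρ (j / 3 + 1)
  nB1 : (2 * (P.bx (j + 1) + locN Q (j / 3) + 1) + 1) ^ 3 ≤ E.nB
  nB2 : P.N j * (2 * (locN Q (j / 3) + 1) + 1) ^ 3 ≤ E.nB
  rA : E.R3 + locN Q (j / 3) ≤ E.rA
  nc : (t + 1) * Q.a ≤ P.nc
  tI : Q.k0 + 27 + 2 ≤ P.tI j
  r0 : Q.rad (j / 3) t ≤ E.R0
  r1 : E.R0 ≤ E.R1
  r2 : E.R1 ≤ E.R2
  r3 : E.R2 ≤ E.R3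
  r4 : E.R3 ≤ P.R j
  hN : P.N j ≤ P.N (j + 1)
  n1 : P.N j * (3 * E.nB * E.εb) + (P.N (j + 1) * (3 * E.nD * E.ε) + P.nc * E.nA * E.π0) ≤ 1 / 100
  n2 : 4 * P.N j * (P.N j * (3 * E.nB * E.εb)) ≤ (2 * (1 / 100)) ^ 2

/-- **numbers of the ladder** of level `j + 1 ≥ 2`. -/
structure LdI {Λ : Type} (P : Par Λ) (Q : I.Num) (n : ℕ) (E : LdQ) (j : ℕ) : Prop where
  ldn : LdN 27 E.k E.nD E.Nn (3 * E.nD * E.ε) E.π E.δ
  tQ : P.tQ (j + 1) ≤ P.tP (j + 1) + 27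
  d : Q.k0 + 27 + 3 ≤ Q.tm
  t : P.tB (j + 1) 27 E.k + 2 ≤ Q.tm
  nD : P.N (j + 1) * (2 * (locN Q ((j + 1) / 3) + 1) + 1) ^ 3 ≤ E.nD
  π0 : 0 ≤ E.π0
  εn : 0 ≤ E.εn
  loc : (j + 1) / 3 = 0 → Q.ρ 0 ≤ E.rA ∧ 3 * E.nD * E.ε + E.nA * E.π0 ≤ E.π
  cov : ∀ m, (j + 1) / 3 = m + 1 → Q.rad m (P.tB (j + 1) 27 E.k) + locN Q m ≤ E.rA ∧
    9 * P.tB (j + 1) 27 E.k * Q.H m ≤ 2 * Q.ρ (m + 1) ∧
    4 * E.nD * E.ε + 81 * E.εn + 27 * (P.tB (j + 1) 27 E.k * Q.a) * E.nA * E.π0 ≤ E.π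
  box : (j + 1) % 3 = 0 → BxN P Q n E j (P.tB (j + 1) 27 E.k)
  off : (j + 1) % 3 ≠ 0 → P.N (j + 1) ≤ P.N j ∧ P.tB (j + 1) 27 E.k ≤ P.tI j

namespace Par

section claims
variable {Λ : Type} [Fintype Λ] [DecidableEq Λ] {T : ℕ} [NeZero T] {X α κ : Type} [Fintype X]
  [DecidableEq X] [SemilatticeSup α] [Preorder κ] (P : Par Λ) (I : Ins T Λ X α κ) (G : Bs T Λ)

/-- **cell claims of the ladder** of level `j + 1`. -/
structure LdC (E : LdQ) (j : ℕ) : Prop where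
  f : ∀ W, (P.lev I G).AdmW j W → F123 I G P.Sd ((P.lev I G).y j) ((P.lev I G).y (j + 1))
    (P.Ek I G j W) (fun _ => ∅) 0 ((j + 1) / 3) 0 0 0 0 0 E.ε
  f4 : ∀ W, (P.lev I G).AdmW j W →
    F4 I G (P.Sn (j + 1)) ((P.lev I G).y (j + 1)) (P.mu I G j W) 1 ((j + 1) / 3) E.π0
  anc : Anc I G P.Sd 2 ((j + 1) / 3) E.rA E.nA
  g1 : ∀ m, (j + 1) / 3 = m + 1 → N1 I G P.Sd ((P.lev I G).y j) 0 m E.εn
  g2 : ∀ m, (j + 1) / 3 = m + 1 → N2 I G P.Sd ((P.lev I G).y (j + 1)) 1 m E.εn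
  g3 : ∀ m, (j + 1) / 3 = m + 1 → ∀ W, (P.lev I G).AdmW j W →
    N3 I G P.Sd (P.Ek I G j W) 0 m E.εn
  fb : (j + 1) % 3 = 0 → ∀ W, (P.lev I G).AdmW j W →
    F123 I G P.Sd ((P.lev I G).y j) ((P.lev I G).y (j + 1)) (P.Ek I G j W) (fun _ => ∅) 0 (j / 3)
      P.nc E.R0 E.R1 E.R2 E.R3 E.εb

/-- the second half of `LadD`. -/
def LadH2 (j : ℕ) : Prop :=
  ∃ st k nD Nn ε π0 π δ, P.LdP I G j st k nD Nn ε π0 π δ ∧
    if (j + 1) % 3 = 0 then ∃ t1 R0 R1 R2 R3 nD' nA nP ε',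
      P.BxP I G j (P.tB (j + 1) st k) nD ε π0 t1 R0 R1 R2 R3 nD' nA nP ε'
    else P.N (j + 1) ≤ P.N j ∧ P.tB (j + 1) st k ≤ P.tI j

end claims

variable {L n T : ℕ} [NeZero L] [NeZero n] [NeZero T] {P : Par (Tor 3 L × Fin n)} {Q : I.Num}
  {G : Bs T (Tor 3 L × Fin n)} {ex ey : Fin T → Tor 3 L × Fin n} {z0 : Tor 3 L} {E : LdQ} {j : ℕ}

lemma alv_ins {N m nD : ℕ} (h : N * (2 * (locN Q m + 1) + 1) ^ 3 ≤ nD) :
    AlvH (I.ins ex ey Q z0) N m nD :=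
  (I.alvH ex ey Q z0 N m).mono le_rfl (le_of_eq_of_le (by rw [← loc_ins ex ey Q z0]; rfl) h)

theorem LdC.ldP (c : P.LdC (I.ins ex ey Q z0) G E j) (a : LdI P Q n E j) :
    P.LdP (I.ins ex ey Q z0) G j 27 E.k E.nD E.Nn E.ε E.π0 E.π E.δ := by
  refine ⟨⟨c.f, a.π0, c.f4, alv_ins a.nD, ⟨le_trans (Nat.le_add_right _ 2) a.d, a.t, le_rfl, le_rfl,
    le_rfl⟩⟩, ?_, a.ldn, a.tQ⟩
  rcases h : (j + 1) / 3 with _ | m
  · refine .inl ⟨E.nA, c.anc.mono (fun _ h => h) ?_ le_rfl, (a.loc h).2⟩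
    rw [h]; exact (a.loc h).1
  · obtain ⟨a1, a2, a3⟩ := a.cov m h
    refine .inr ⟨m, E.nA, 27, E.εn, h, (h ▸ c.anc).mono (fun _ h => h) ?_ le_rfl, a.εn, c.g1 m h,
      c.g2 m h, c.g3 m h, cov_ins ex ey Q z0 a2, le_rfl, le_of_eq_of_le ?_ a3⟩
    · change _ + _ + _ * (_ * (Q.a : ℝ)) * _ * _ = _
      push_cast; ring
    · rw [loc_ins]; exact a1

theorem LdC.bxP (hd : ∀ x z, G.d x z = tdist x.1 z.1) (c : P.LdC (I.ins ex ey Q z0) G E j)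
    (a : LdI P Q n E j) (h : (j + 1) % 3 = 0) :
    P.BxP (I.ins ex ey Q z0) G j (P.tB (j + 1) 27 E.k) E.nD E.ε E.π0 (Q.k0 + 27) E.R0 E.R1 E.R2 E.R3
      E.nB E.nA 1 E.εb := by
  have b := a.box h
  have e : (j + 1) / 3 = j / 3 + 1 := by omega
  refine ⟨pi_surj ex ey Q z0, fun B hB => ?_, alv_ins b.nB2,
    (e ▸ c.anc).mono (fun _ h => h) (by rw [loc_ins]; exact b.rA) le_rfl, c.fb h,
    ⟨le_trans (Nat.le_add_right _ 2) a.d, a.d, b.r1, b.r2, b.r3⟩, (one_mul _).trans_le b.nc, le_rfl,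
    b.tI, b.r0, b.r4, b.hN, b.n1, b.n2⟩
  simp only [hd] at hB
  refine ⟨(card_diam hB).trans b.card, fun Z => (few_box ex ey Q z0 hB ?_ Z).mono le_rfl ?_⟩
  · rw [loc_ins]; exact b.few
  · rw [loc_ins]; exact b.nB1

/-- **the second half of `LadD`.** -/
theorem LdC.ladH2 (hd : ∀ x z, G.d x z = tdist x.1 z.1) (c : P.LdC (I.ins ex ey Q z0) G E j)
    (a : LdI P Q n E j) : P.LadH2 (I.ins ex ey Q z0) G j := by
  refine ⟨_, _, _, _, _, _, _, _, c.ldP a, ?_⟩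
  split_ifs with h
  exacts [⟨_, _, _, _, _, _, _, _, _, c.bxP hd a h⟩, a.off h]

end Par

end Crest.Agent.N337.M
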