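import Crest.Agent.N337.Lv.Tk
import Crest.Agent.N337.M.TkD

/-!
# Row 337, the chain: boxes, level one and the ladder (helper42)
-/

set_option autoImplicit false
set_option linter.unusedSectionVars false

namespace Crest.Agent.N337.M

open Finset Crest.Agent.N337.Op Crest.Agent.N337.Gas Crest.Agent.N337.Lv

theorem tkBox : TkBoxStmt := by
  intro Λ _ _ T _ G y' D Big I0 I1 In σ n κ0 κb κ ε hG y0 _ hD k0 hB X hT s hs hb
  have hU := yw_nn (T := T) (Λ := Λ) y0
  have hD0 := fun g => (hD g).1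
  suffices h : Tt G (yw y') D s (fun g => Big (s.add {g})) (κ0 + 10 * κ) from ⟨h, h.tb hG hU hD⟩
  obtain ⟨B, h1, h2, h3⟩ := hB s hb
  choose F hF using fun i => X.cov s hb (B i) (h2 i)
  refine Tt.box hG hU h1 h3 (c := fun i => s.box (B i) (F i)) (fun _ => rfl)
    (fun i v => by simp [Cfg.box, A.cyl]) fun i => ?_
  have e : ∀ g, Big (s.add {g}) → Big ((s.box (B i) (F i)).add {g}) := fun g h => X.big _ _ _ h
  have hv : G.Val (s.box (B i) (F i)) := hs
  have h0 := hF i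
  have hc := X.big s (B i) (F i) hb
  generalize s.box (B i) (F i) = c at e hv h0 hc
  have i1 := X.s01 c h0
  refine Tt.al hG hv (S' := fun g => Big (c.add {g})) ?_ fun g h _ => e g h.1
  refine Tt.dirty hG hv (X.sup c (X.s1n c i1)) hU hD (S0 := fun g => I1 (c.add {g}))
    (S2 := fun g => ¬ In (c.add {g})) (ε := ε) k0 X.κ0 (by nlinarith [X.num])
    (fun g h => not_not.2 (X.s1n _ h))
    (Tt.al hG hv (hT c hv (X.s1n c i1)).1 fun g h _ => not_not.1 h.2) ?_
    (fun g h _ v => X.d1 c {g} v h0 h)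
    ((Nc_mono hG hU hD0 fun g h => h.2).trans (X.d2 c hv i1)) fun g _ h v =>
    (Nc_mono hG hU hD0 fun g' h' h'' => h'.2 (X.anti _ {g} (Pl.add_comm' c _ _ ▸ h''))).trans
      (X.d2 _ v h)
  have := X.d1 c ∅ (by rwa [c.add_empty]) h0 (by rwa [c.add_empty])
  rwa [c.add_empty] at this

theorem tkOne : TkOneStmt := by
  intro Λ _ _ T _ G D Big κ δ η n Km hG k0 η0 η1 n1 hN hC hD s hs hb
  have hD1 := fun g => And.intro (hD.D0 g) (hD.D1 g)
  have hU := yw_nn (T := T) (Λ := Λ) le_rfl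
  have n0 : (0 : ℝ) < n := by exact_mod_cast n1
  have r0 := Real.sqrt_pos.2 η0
  have r1 := Real.sq_sqrt η0.le
  have r2 : η ≤ Real.sqrt η := by nlinarith [Real.sqrt_le_one.2 η1]
  refine ⟨?_, tb_one hG⟩
  have h := tt_one hG hD1 k0 (hC s hs _ (u_mem hD1 s) fun h => absurd rfl h)
  refine (Tt.long (κ := 2 * n * Real.sqrt η) (Lg := fun g => Km < wd g) hG (hN s hb) hU hD1 η0.le
    hD.long k0 (by positivity) (by nlinarith) (le_of_eq (by rw [mul_pow, r1]; ring))
    (h.al hG hs fun g a b => ⟨a.1, not_lt.1 a.2, b.2.1⟩)).mono hG hU hD.D0 (by linarith)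

theorem lad : LadStmt := by
  intro Λ _ _ T _ G W y' κ κb κb' In Out Big hG y0 hD k1 k2 hL hT s hs hI
  obtain ⟨Gd, X⟩ := hL s hs hI
  have hU := yw_nn (T := T) (Λ := Λ) y0
  have hD0 := fun g => (hD g).1
  refine ⟨Gd, lad_mk hG hs hU hD X.down X.mono (fun i hi A a b => X.h1 i hi A a (hs.add b))
    (fun A a b => X.h2 A a (hs.add b)) fun A a v _ => ?_, X.out⟩
  have h := hT _ v (X.big A a)
  have e : ∀ g, Gd 27 (insert g A) → Big ((s.add A).add {g}) := fun g hg => by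
    rw [Cfg.add_add, union_comm, ← insert_eq]; exact X.big _ hg
  exact ⟨(Tt.al hG v h.1 fun g hg _ => e g hg).mono hG hU hD0 k1,
    (Tb.al hG v h.2 fun g hg _ => e g hg).mono hG hU hD0 k2⟩

end Crest.Agent.N337.M
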