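import Crest.Agent.N337.M.TkCfg
import Crest.Agent.N337.M.TkBox
import Crest.Agent.N337.M.Cls

/-!
# Row 337, the chain (helper78): the ladder of level `j + 1` from `LP_j`
-/

set_option autoImplicit false
set_option linter.unusedSectionVars false

namespace Crest.Agent.N337.M

open Finset Crest.Agent.N337.Op Crest.Agent.N337.Gas Crest.Agent.N337.A

/-- crude size of the gain. -/
lemma κS_le {κ ε q δ η εL C K x : ℝ} {n Bn n1 n2 k0 Km : ℕ} (hC : 0 ≤ C) (hκ : 0 ≤ κ)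
    (he : 0 < eT n ε η εL) (hn : 1 ≤ n) (hx : x ≤ 1) (h1 : κ ≤ x)
    (h2 : TK.κB q δ Bn n n1 n2 k0 Km ≤ x) (hK : 0 ≤ K)
    (h3 : (TK.cB Bn n n1 Km + 6 * (n + 1) ^ 2 + 2 * (K + 1) * n) * eT n ε η εL ≤ x ^ 2) :
    κS κ ε q δ η εL C K n Bn n1 n2 k0 Km ≤ (5 + 4 * C) * x := by
  have n1' : (1 : ℝ) ≤ n := by exact_mod_cast hn
  have c0 : 0 ≤ TK.cB Bn n n1 Km := by unfold TK.cB; positivity
  have x0 : 0 ≤ x := hκ.trans h1
  unfold κS TK.κa TK.κb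
  set e := eT n ε η εL
  have a0 : 0 < n * e := by positivity
  have a1 : n * e ≤ x ^ 2 := by
    nlinarith [mul_nonneg c0 he.le, mul_nonneg hK a0.le, mul_nonneg (sq_nonneg (n : ℝ)) he.le]
  have a2 : Real.sqrt (n * e) ≤ x := Real.sqrt_le_iff.2 ⟨x0, a1⟩
  have a3 := Real.sqrt_pos.2 a0
  have a4 : (1 + 1 / Real.sqrt (n * e)) * n * e = n * e + Real.sqrt (n * e) := by
    have := Real.mul_self_sqrt a0.le
    field_simp
    nlinarith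
  have a5 : x ^ 2 ≤ x := by nlinarith
  have a6 : κ ^ 2 ≤ x := by nlinarith
  have a7 : Real.sqrt (n * e) * (1 + κ) ≤ 2 * x := by nlinarith
  have a8 := mul_le_mul_of_nonneg_left (show 2 * κ ^ 2 + TK.κB q δ Bn n n1 n2 k0 Km +
    (TK.cB Bn n n1 Km + 6 * (n + 1) ^ 2 + 2 * (K + 1) * n) * e ≤ 4 * x by linarith) hC
  rw [a4]
  nlinarith

variable {Λ : Type} [Fintype Λ] [DecidableEq Λ] {T : ℕ} [NeZero T]

namespace Lev
variable (V : Lev T Λ) (G : Bs T Λ)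

/-- the top colour of the weight `W` at level `j + 1`. -/
noncomputable def top' (j : ℕ) (W : Lp T Λ → ℝ) (g : Lp T Λ) : ℝ := W g - yw (V.y j) g

/-- the ladder of level `j + 1` without the key estimate. -/
def Ld (j : ℕ) (Pre Post Big : Cfg T Λ → Prop) : Prop :=
  ∀ W, V.AdmW j W → ∀ s, G.Val s → Pre s → ∃ Gd, G.LdIn (V.y j) (V.top' j W) Post Big s Gd

/-- the key estimate in the class `Big` with gains `x`, `xb`. -/
def Tk (j : ℕ) (Big : Cfg T Λ → Prop) (x xb : ℝ) : Prop :=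
  ∀ W, V.AdmW j W → G.TkC (V.y j) (V.top' j W) Big x xb

/-- inputs at level one. -/
def In1 (C1 : Cfg T Λ → Prop) (x : ℝ) : Prop :=
  ∃ (κ δ η : ℝ) (n Km : ℕ), 0 ≤ κ ∧ 0 < η ∧ η ≤ 1 ∧ 1 ≤ n ∧ (∀ s, C1 s → s.Sup n) ∧
    G.Gram C1 Km 0 κ δ ∧ V.y 1 ^ Km ≤ η ∧ 2 * κ + 10 * n * Real.sqrt η ≤ x

/-- inputs over the medium of level `j ≥ 1`; the gain is `x * (20 + 8 * c3)`. -/
def InT (j : ℕ) (x : ℝ) : Prop :=
  ∃ (Cb Cw : Cfg T Λ → Prop) (ws : Fin T → Fin T) (near : Λ → Λ → Prop) (Z : Λ → Finset Λ)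
    (κ ε q δ η : ℝ) (n Bn n1 n2 k0 Km : ℕ),
    G.TkIn (V.y j) (V.In j) Cb Cw ws near Z κ ε q δ η n (V.σ j) Bn n1 n2 k0 Km ∧ 1 ≤ n ∧
    0 < V.e j ∧ 0 < V.Tf j ∧ 3 ≤ δ * V.Tf j ∧ V.y (j + 1) ^ Km ≤ η ∧ x ≤ 1 ∧ κ ≤ x ∧
    TK.κB q δ Bn n n1 n2 k0 Km ≤ x ∧ n * Real.sqrt η ≤ x ∧
    (TK.cB Bn n n1 Km + 6 * (n + 1) ^ 2 + 62 * n) * eT n ε η (33 * V.e j) ≤ x ^ 2

/-- inputs for the boxes at level `j + 1 ≡ 0`. -/
def InB (j : ℕ) (Big : Cfg T Λ → Prop) (κ : ℝ) : Prop :=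
  ∃ (I0 I1 : Cfg T Λ → Prop) (σ n : ℕ) (ε : ℝ), (∀ s, Big s → G.Bk σ s.Z) ∧
    ∀ W, V.AdmW j W → G.BoxIn (V.y j) (V.top' j W) Big I0 I1 (V.In j) σ n κ ε

variable {V G} {j : ℕ} {W : Lp T Λ → ℝ} {Pre Post Big : Cfg T Λ → Prop} {x xb κ κb : ℝ}

lemma AdmW.admD (h : V.AdmW j W) (hT : ∀ j, 0 ≤ V.Tf j) {δ η : ℝ} {k0 Km : ℕ}
    (hδ : k0 ≠ 0 → 0 < V.Tf j ∧ 3 ≤ δ * V.Tf j) (hη : V.y (j + 1) ^ Km ≤ η) :
    AdmD (V.top' j W) δ η k0 Km where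
  D0 g := (h g).1
  D1 g := (h g).2.1.trans (Tc.yw_le_one (V.y_nn _) (y_le_one hT _) g)
  small hk g := le_of_mul_le_mul_right ((h g).2.2.trans (by
    have := mul_le_mul_of_nonneg_right (hδ hk).2 (Nat.cast_nonneg (α := ℝ) (wd g))
    linarith)) (hδ hk).1
  long g hg := (h g).2.1.trans (Tc.yw_long (V.y_nn _) (y_le_one hT _) hη hg)

theorem tk_one (hG : G.Ok) (hT : ∀ j, 0 ≤ V.Tf j) (h : V.In1 G Big x) : V.Tk G 0 Big x 0 := by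
  obtain ⟨κ, δ, η, n, Km, h1, h2, h3, h4, h5, h6, h7, h8⟩ := h
  intro W hW s hs hB
  have e : V.y 0 = 0 := if_pos rfl
  have hD := hW.admD hT (k0 := 0) (δ := δ) (fun h => (h rfl).elim) h7
  have := tkOne _ _ G _ Big κ δ η n Km hG h1 h2 h3 h4 h5 h6 hD s hs hB
  rw [e]
  exact ⟨this.1.mono (hG.cpt s) (s.u_nn (yw_nn le_rfl)) (s.u_nn hD.D0) (fun _ h => h) h8, this.2⟩

theorem tk_in (ha : TkaS) (hb : TkbS) (hG : G.Ok) (hT : ∀ j, 0 ≤ V.Tf j) (hL : V.LP G j)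
    (h : V.InT G j x) : V.Tk G j (V.In j) ((20 + 8 * c3) * x) ((20 + 8 * c3) * x) := by
  obtain ⟨Cb, Cw, ws, near, Z, κ, ε, q, δ, η, n, Bn, n1, n2, k0, Km, I, h1, h2, h3, h4, h5, h6, h7,
    h8, h9, h10⟩ := h
  intro W hW s hs hB
  have hD := hW.admD hT (k0 := k0) (fun _ => ⟨h3, h4⟩) h5
  have c0 : 0 ≤ c3 := by norm_num [c3, c1]
  have := tkCfg ha hb _ _ G _ _ _ Cb Cw ws near Z κ ε q δ η (33 * V.e j) c3 30 n _ Bn n1 n2 k0 Km hG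
    c0 (by norm_num) (by positivity) h1 hL I hD s hs hB
  have n1' : (1 : ℝ) ≤ n := by exact_mod_cast h1
  have e1 := I.η0
  have e2 := I.ε0
  have k := κS_le (C := c3) (K := 30) (ε := ε) (η := η) (εL := 33 * V.e j) c0 I.κ0
    (by unfold eT; positivity) h1 h6 h7 h8 (by norm_num) (le_of_eq_of_le (by ring) h10)
  have e3 : η ≤ Real.sqrt η := by
    have := Real.sqrt_le_one.2 I.η1
    nlinarith [Real.mul_self_sqrt e1.le, Real.sqrt_nonneg η]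
  have e4 := mul_le_mul_of_nonneg_left e3 (Nat.cast_nonneg (α := ℝ) n)
  have e5 : 0 ≤ x := I.κ0.trans h7
  have hc := hG.cpt s
  have hu := s.u_nn (yw_nn (T := T) (Λ := Λ) I.y0)
  exact ⟨this.1.mono hc hu (s.u_nn hD.D0) (fun _ h => h) (by nlinarith),
    this.2.mono hc hu (s.u_nn hD.D0) (fun _ h => h) (by nlinarith)⟩

theorem tk_box (hG : G.Ok) (hT : ∀ j, 0 ≤ V.Tf j) (hx : 0 ≤ x) (h : V.Tk G j (V.In j) x xb)
    (hB : V.InB G j Big κ) : V.Tk G j Big (x + 10 * κ) (1 + (x + 10 * κ)) := by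
  obtain ⟨I0, I1, σ, n, ε, h1, h2⟩ := hB
  intro W hW
  have hD := hW.admD hT (k0 := 0) (δ := 0) (Km := 0) (fun h => (h rfl).elim) le_rfl
  exact tkBox _ _ G _ _ Big I0 I1 _ σ n x xb κ ε hG (V.y_nn j) (y_le_one hT j)
    (fun g => ⟨hD.D0 g, hD.D1 g⟩) hx h1 (h2 W hW) (h W hW)

/-- **the ladder.** -/
theorem lad_of (hG : G.Ok) (hT : ∀ j, 0 ≤ V.Tf j) (hL : V.Ld G j Pre Post Big)
    (h : V.Tk G j Big x xb) (hx : x ≤ 1 / 5) (hb : xb ≤ κb) (hW : V.AdmW j W) :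
    G.LadH W (V.y j) Pre Post κb := by
  have hD := hW.admD hT (k0 := 0) (δ := 0) (Km := 0) (fun h => (h rfl).elim) le_rfl
  exact lad _ _ G W _ x xb κb Pre Post Big hG (V.y_nn j) (fun g => ⟨hD.D0 g, hD.D1 g⟩) hx hb
    (hL W hW) (h W hW)

variable (V G) in
/-- **all inputs of the ladder of level `j + 1`**; `x` = gain over the medium. -/
def LadIn (j : ℕ) (Pre Post : Cfg T Λ → Prop) (x : ℝ) : Prop :=
  if j = 0 then ∃ C1, V.Ld G 0 Pre Post C1 ∧ V.In1 G C1 (1 / 5)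
  else V.InT G j x ∧ 0 ≤ x ∧ (20 + 8 * c3) * x ≤ 1 / 10 ∧
    if (j + 1) % 3 = 0 then ∃ Big, V.Ld G j Pre Post Big ∧ V.InB G j Big (1 / 100)
    else V.Ld G j Pre Post (V.In j)

theorem LadIn.lad (ha : TkaS) (hb : TkbS) (hG : G.Ok) (hT : ∀ j, 0 ≤ V.Tf j)
    (h : V.LadIn G j Pre Post x) (hL : V.LP G j) (W : Lp T Λ → ℝ) (hW : V.AdmW j W) :
    G.LadH W (V.y j) Pre Post 2 := by
  unfold LadIn at h
  split_ifs at h with h0 h1
  · subst h0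
    obtain ⟨C1, h2, h3⟩ := h
    exact lad_of hG hT h2 (tk_one hG hT h3) le_rfl (by norm_num) hW
  · obtain ⟨h2, h3, h4, Big, h5, h6⟩ := h
    have c0 : 0 ≤ c3 := by norm_num [c3, c1]
    exact lad_of hG hT h5 (tk_box hG hT (by positivity) (tk_in ha hb hG hT hL h2) h6)
      (by linarith) (by linarith) hW
  · exact lad_of hG hT h.2.2.2 (tk_in ha hb hG hT hL h.1) (by linarith [h.2.2.1])
      (by linarith [h.2.2.1]) hW

/-- the small response constant off the box levels (export for the excision). -/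
theorem LadIn.lad_small (ha : TkaS) (hb : TkbS) (hG : G.Ok) (hT : ∀ j, 0 ≤ V.Tf j)
    (h : V.LadIn G j Pre Post x) (h2 : (j + 1) % 3 = 2) (hL : V.LP G j) (W : Lp T Λ → ℝ)
    (hW : V.AdmW j W) : G.LadH W (V.y j) Pre Post ((20 + 8 * c3) * x) := by
  unfold LadIn at h
  rw [if_neg (by omega), if_neg (by omega)] at h
  exact lad_of hG hT h.2.2.2 (tk_in ha hb hG hT hL h.1) (by linarith [h.2.2.1]) le_rfl hW

end Lev

end Crest.Agent.N337.M
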