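import Crest.Agent.N337.M.LadJ
import Crest.Agent.N337.M.StD
import Crest.Agent.N337.Ld.Lad
import Crest.Agent.N337.Ld.Grd
import Crest.Agent.N337.C9.Abs

/-!
# Row 337, the chain (helper78): the inputs of the ladder from the cell claims
-/

set_option autoImplicit false
set_option linter.unusedSectionVars false

namespace Crest.Agent.N337.M

open Finset Crest.Agent.N337.Op Crest.Agent.N337.Gas Crest.Agent.N337.A Crest.Agent.N337.Ld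

variable {Λ : Type} [Fintype Λ] [DecidableEq Λ] {T : ℕ} [NeZero T] {X α κ : Type} [Fintype X]
  [DecidableEq X] [SemilatticeSup α] [Preorder κ]

/-- numerics of the key estimate over a medium (`Tf`, `e`, `N` of the medium, `Y` = next field). -/
structure TkN (Tf Y e x κ ε0 ε q δ η : ℝ) (N nD Bn n1 n2 k0 Km : ℕ) : Prop where
  N1 : 1 ≤ N
  e0 : 0 < e
  T0 : 0 < Tf
  κ0 : 0 ≤ κ
  ε00 : 0 ≤ ε0
  ε0' : 0 < ε
  q0 : 0 < q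
  η0 : 0 < η
  η1 : η ≤ 1
  k1 : k0 ≠ 0
  hε : N * (nD * ε0) ≤ ε
  hδ : 3 ≤ δ * Tf
  long : Y ^ Km ≤ η
  x1 : (20 + 8 * c3) * x ≤ 1 / 10
  x2 : κ ≤ x
  x3 : TK.κB q δ Bn N n1 n2 k0 Km ≤ x
  x4 : N * Real.sqrt η ≤ x
  x5 : (TK.cB Bn N n1 Km + 6 * (N + 1) ^ 2 + 62 * N) * eT N ε η (33 * e) ≤ x ^ 2

lemma Bs.Bk.mono {G : Bs T Λ} {σ : ℕ} {Z Z' : Finset (Fin T × Λ)} (h : G.Bk σ Z) (hZ : Z ⊆ Z') :
    G.Bk σ Z' := by
  obtain ⟨B, h1, h2, h3⟩ := h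
  exact ⟨B, h1, h2, fun v hv => h3 v fun a => hv (hZ a)⟩

lemma Bs.StepR.mono {G : Bs T Λ} {y ε ε' : ℝ} {D : Lp T Λ → ℝ} {In Big Out : Cfg T Λ → Prop}
    (h : G.StepR y D In Big Out ε) (he : ε ≤ ε') : G.StepR y D In Big Out ε' :=
  fun s x a b c => (h s x a b c).trans he

lemma sup_le' {N N' : ℕ} {s : Cfg T Λ} (h : s.Sup N) (hN : N ≤ N') : s.Sup N' :=
  h.imp fun _ h => ⟨h.1.trans hN, h.2⟩

namespace Par
variable (P : Par Λ) (I : Ins T Λ X α κ) (G : Bs T Λ)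

/-- the side condition with the support bound of level `j`. -/
abbrev Sn (j : ℕ) : Finset (Fin T × Λ) → Prop := C9.SdN (P.N j) P.Sd
/-- the cover of level `j`, its radius and its size. -/
def Fc (j : ℕ) (cv : Finset Λ) : Finset X := if j % 3 = 2 then cv.image I.π else ∅
def Rc (j : ℕ) : ℕ := if j % 3 = 2 then P.R j else 0
def nv (j : ℕ) : ℕ := if j % 3 = 2 then P.nc else 0
/-- the class of level `j` with `d` dense parties. -/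
def Kc (j d R : ℕ) : Cfg T Λ → Prop :=
  Kl I P.Sd (P.N j) (P.nv j) d (j / 3) (P.tI j + d) (Fc I j) R
/-- the class of the ladder of level `j`. -/
def Kt (j t : ℕ) : Cfg T Λ → Prop := Kl I P.Sd (P.N j) 0 0 (j / 3) t (fun _ => ∅) 0
/-- the marks of the top colour of level `j + 1`. -/
noncomputable def mu (j : ℕ) (W : Lp T Λ → ℝ) : Lp T Λ → ℝ :=
  Ld.mk ((P.lev I G).top' j W) ((P.lev I G).y (j + 1))
/-- the law of the kernel of the ladder of level `j + 1`. -/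
noncomputable def Ek (j : ℕ) (W : Lp T Λ → ℝ) : Cfg T Λ → (Tp T Λ → ℝ) → ℝ :=
  EK G ((P.lev I G).y j) ((P.lev I G).y (j + 1)) (P.mu I G j W)

/-- **the medium** of level `j ≥ 1`. -/
structure TkP (j : ℕ) (x Y : ℝ) (ws : Fin T → Fin T) (near : Λ → Λ → Prop) (Z : Λ → Finset Λ)
    (κ' ε0 ε q δ η : ℝ) (R1 R2 nD Bn n1 n2 k0 Km : ℕ) : Prop where
  hY : (P.lev I G).y j ≤ Y ∧ Y ≤ 1
  f1 : F1 I G P.Sd ((P.lev I G).y j) 0 (j / 3) (P.nv j) (P.Rc j) R1 ε0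
  f2 : F2 I G P.Sd Y 1 (j / 3) (P.nv j) R1 R2 ε0
  alv : AlvH I (P.N j) (j / 3) nD
  rom : Rom I.S 0 (P.tI j) (P.Rc j) R1 R2 R2
  geo : G.Geo ws near Z (P.σ j) Bn n1 n2
  gram : G.Gram (P.Kc I j 2 R2) Km k0 κ' δ
  hit : G.HitC (P.Kc I j 2 R2) ws near Z Km k0 q
  slow : G.SlwC (P.Kc I j 2 R2) ws near
  num : TkN (P.Tf j) ((P.lev I G).y (j + 1)) (P.e j) x κ' ε0 ε q δ η (P.N j) nD Bn n1 n2 k0 Km

/-- **the steps of the kernel** of level `j + 1`, up to the rung `t`. -/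
structure LdT (j t nD : ℕ) (ε π0 : ℝ) : Prop where
  f : ∀ W, (P.lev I G).AdmW j W → F123 I G P.Sd ((P.lev I G).y j) ((P.lev I G).y (j + 1))
    (P.Ek I G j W) (fun _ => ∅) 0 ((j + 1) / 3) 0 0 0 0 0 ε
  π0' : 0 ≤ π0
  f4 : ∀ W, (P.lev I G).AdmW j W →
    F4 I G (P.Sn (j + 1)) ((P.lev I G).y (j + 1)) (P.mu I G j W) 1 ((j + 1) / 3) π0
  alv : AlvH I (P.N (j + 1)) ((j + 1) / 3) nD
  rom : Rom I.S 0 t 0 0 0 0

/-- reset by locality (level `2`). -/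
structure RstL (j nD nA : ℕ) (ε π0 π : ℝ) : Prop where
  anc : Anc I G P.Sd 2 ((j + 1) / 3) (I.S.loc ((j + 1) / 3)) nA
  num : 3 * nD * ε + nA * π0 ≤ π

/-- reset through the covers (levels `≥ 3`); `t` = top rung of the ladder. -/
structure RstC (j m t st nD nA nP : ℕ) (ε ε' π0 π : ℝ) : Prop where
  hm : (j + 1) / 3 = m + 1
  anc : Anc I G P.Sd 2 (m + 1) (I.S.rad m t + I.S.loc m) nA
  e0 : 0 ≤ ε'
  g1 : N1 I G P.Sd ((P.lev I G).y j) 0 m ε'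
  g2 : N2 I G P.Sd ((P.lev I G).y (j + 1)) 1 m ε'
  g3 : ∀ W, (P.lev I G).AdmW j W → N3 I G P.Sd (P.Ek I G j W) 0 m ε'
  par : ∀ x, ∃ Q : Finset X, Q.card ≤ nP ∧ ∀ y, I.S.d x y ≤ I.S.ρ (m + 1) → ∃ p ∈ Q, I.S.In m t p y
  hst : nP ≤ st
  num : 4 * nD * ε + 3 * nP * ε' + nP * (t * I.S.a) * nA * π0 ≤ π

/-- top rung of the ladder of level `j`. -/
def tB (j st k : ℕ) : ℕ := P.tP j + (k + 1) * st + 27

/-- **the ladder** of level `j + 1 ≥ 2`. -/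
structure LdP (j st k nD : ℕ) (Nn : ℕ → ℝ) (ε π0 π δ : ℝ) : Prop where
  stp : P.LdT I G j (P.tB (j + 1) st k) nD ε π0
  rst : (∃ nA, P.RstL I G j nD nA ε π0 π) ∨
    ∃ m nA nP ε', P.RstC I G j m (P.tB (j + 1) st k) st nD nA nP ε ε' π0 π
  num : LdN st k nD Nn (3 * nD * ε) π δ
  tQ : P.tQ (j + 1) ≤ P.tP (j + 1) + st

/-- **the boxes** of level `j + 1 ≡ 0`; `t` = top rung of the ladder, `nD', ε', π0` as there. -/
structure BxP (j t nD' : ℕ) (ε' π0 : ℝ) (t1 R0 R1 R2 R3 nD nA nP : ℕ) (ε : ℝ) : Prop where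
  surj : Function.Surjective I.π
  box : ∀ B : Finset Λ, (∀ x ∈ B, ∀ z ∈ B, G.d x z ≤ P.bx (j + 1)) →
    B.card ≤ P.N j ∧ ∀ Z, Few I (j / 3) t nP nD (Z ∪ cyl Bᶜ)
  alv : AlvH I (P.N j) (j / 3) nD
  anc : Anc I G P.Sd 2 (j / 3 + 1) (R3 + I.S.loc (j / 3)) nA
  f : ∀ W, (P.lev I G).AdmW j W → F123 I G P.Sd ((P.lev I G).y j) ((P.lev I G).y (j + 1))
    (P.Ek I G j W) (fun _ => ∅) 0 (j / 3) P.nc R0 R1 R2 R3 ε
  rom : Rom I.S 0 (t1 + 1) R0 R1 R2 R3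
  nc : nP * ((t + 1) * I.S.a) ≤ P.nc
  h1 : I.S.k0 + I.S.oc ≤ t1
  tI : t1 + 2 ≤ P.tI j
  r0 : I.S.rad (j / 3) t ≤ R0
  r3 : R3 ≤ P.R j
  hN : P.N j ≤ P.N (j + 1)
  n1 : P.N j * (3 * nD * ε) + (P.N (j + 1) * (3 * nD' * ε') + P.nc * nA * π0) ≤ 1 / 100
  n2 : 4 * P.N j * (P.N j * (3 * nD * ε)) ≤ (2 * (1 / 100)) ^ 2

variable {P I G} {j t st k nD : ℕ} {s : Cfg T Λ} {W : Lp T Λ → ℝ} {x ε π0 π δ : ℝ} {Nn : ℕ → ℝ}

lemma In.kc (h : P.In I j s) : P.Kc I j 0 (P.Rc j) s := by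
  obtain ⟨h1, h2⟩ := h
  unfold Kc Fc Rc nv
  split_ifs at h2 ⊢
  exacts [⟨h1.1, h1.2, card_image_le.trans h2.1, h2.2⟩, ⟨h1.1, h1.2, le_rfl, h2⟩]

lemma sn (Z : Finset (Fin T × Λ)) (h : P.Sn j Z) : P.Sd Z := h.1

lemma std (hG : G.Ok) (hT : ∀ j, 0 ≤ P.Tf j) (hW : (P.lev I G).AdmW j W) :
    Std G ((P.lev I G).y j) ((P.lev I G).y (j + 1)) (P.mu I G j W) :=
  ⟨hG, Lev.y_nn _, Lev.y_nn _, Lev.y_le_one hT _, mk_mem fun g => ⟨(hW g).1, (hW g).2.1⟩⟩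

theorem TkP.inT {Y : ℝ} {ws : Fin T → Fin T} {near : Λ → Λ → Prop} {Z : Λ → Finset Λ}
    {κ' ε0 q η : ℝ} {R1 R2 Bn n1 n2 k0 Km : ℕ} (hG : G.Ok) (hT : ∀ j, 0 ≤ P.Tf j)
    (hy : (P.lev I G).y j ≤ (P.lev I G).y (j + 1))
    (h : P.TkP I G j x Y ws near Z κ' ε0 ε q δ η R1 R2 nD Bn n1 n2 k0 Km) :
    (P.lev I G).InT G j x ∧ 0 ≤ x ∧ (20 + 8 * c3) * x ≤ 1 / 10 := by
  have n := h.num
  have y0 := (P.lev I G).y_nn j
  have x0 : 0 ≤ x := n.κ0.trans n.x2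
  have S : Std G ((P.lev I G).y j) Y fun _ => 0 := ⟨hG, y0, y0.trans h.hY.1, h.hY.2, by simp⟩
  have r1 := h.rom.d
  have r2 := h.rom.t
  have N1 : (1 : ℝ) ≤ P.N j := by exact_mod_cast n.N1
  have e0 : 0 ≤ (nD : ℝ) * ε0 := mul_nonneg (Nat.cast_nonneg _) n.ε00
  have c0 : 0 ≤ c3 := by norm_num [c3, c1]
  refine ⟨⟨P.Kc I j 1 R1, P.Kc I j 2 R2, ws, near, Z, κ', ε, q, δ, η, P.N j, Bn, n1, n2, k0, Km,
    ⟨y0, h.hY.1.trans h.hY.2, n.κ0, n.ε0', n.q0, ?_, n.η0, n.η1, n.k1,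
      (pow_le_pow_left₀ y0 hy _).trans n.long, fun s h => h.1.1, Kl.anti,
      fun s a => Kl.mono a.kc (by omega) (by omega) (h.rom.r1.trans h.rom.r2),
      fun s a => Kl.mono a (by omega) (by omega) h.rom.r2, fun s a b => ?_, fun s a b => ?_,
      h.geo, h.gram, h.hit, h.slow⟩, n.N1, n.e0, n.T0, n.hδ, n.long, by nlinarith [n.x1], n.x2,
    n.x3, n.x4, n.x5⟩, x0, n.x1⟩
  · by_contra c
    nlinarith [n.hδ, n.T0, not_le.1 c]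
  · refine (stepW S n.ε00 h.f1 h.alv (by omega) (by omega) h.rom.r1 (fun s a => a.kc)
      (fun s x a b => Kl.add a.kc b) s a b).trans ?_
    nlinarith [n.hε]
  · exact (stepB S h.hY.1 n.ε00 h.f2 h.alv (by omega) (by omega) h.rom.r2 (fun s a => a)
      (fun s x a b => Kl.add a b) s a b).trans n.hε

lemma LdT.tch (hG : G.Ok) (hT : ∀ j, 0 ≤ P.Tf j) (h : P.LdT I G j t nD ε π0)
    (hW : (P.lev I G).AdmW j W) {t' : ℕ} (ht : t' ≤ t) :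
    Ld.Tch I G (P.Sn (j + 1)) ((P.lev I G).y j) ((P.lev I G).y (j + 1)) (P.mu I G j W) 0 ((j + 1) / 3) t'
      (P.N (j + 1)) nD ε π0 :=
  ⟨std hG hT hW, (h.f W hW).mono sn le_rfl le_rfl, h.π0', h.f4 W hW, h.alv,
    ⟨h.rom.d, by have := h.rom.t; omega, le_rfl, le_rfl, le_rfl⟩⟩

theorem LdP.ld (hG : G.Ok) (hT : ∀ j, 0 ≤ P.Tf j) (h : P.LdP I G j st k nD Nn ε π0 π δ)
    {Big : Cfg T Λ → Prop} (hB : ∀ s A, P.Pre I G (j + 1) s →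
      I.Cl ((j + 1) / 3) (P.tB (j + 1) st k) ∅ 0 (s.add A) → Big (s.add A)) :
    (P.lev I G).Ld G j (P.Pre I G (j + 1)) (P.Post I (j + 1)) Big := by
  intro W hW s hs hP
  have c := h.stp.tch hG hT hW (t' := P.tP (j + 1) + (k + 1) * st + 26) (Nat.le_succ _)
  refine ⟨_, ldIn_rung (fun g => ⟨(hW g).1, (hW g).2.1⟩) c h.num hs hP.1.1.1 ⟨hP.1.1.2, hP.1.1.1⟩
    (fun A x a b => ?_) (fun A a => a.2.mono Subset.rfl Subset.rfl h.tQ) fun A a => hB s A hP a⟩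
  obtain ⟨nA, r⟩ | ⟨m, nA, nP, ε', r⟩ := h.rst
  · exact (c.loc (r.anc.mono sn le_rfl le_rfl) hP.2 a b x).trans r.num
  · have e := hP.2
    rw [r.hm] at c b e ⊢
    refine (c.cov (r.anc.mono sn le_rfl le_rfl) r.e0 (r.g1.mono sn le_rfl) (r.g2.mono sn le_rfl)
      ((r.g3 W hW).mono sn le_rfl) r.par r.hst e a b x).trans (le_of_eq_of_le ?_ r.num)
    simp only [tB]
    push_cast
    ring

theorem BxP.inB {nD' t1 R0 R1 R2 R3 nA nP : ℕ} {ε' : ℝ} (hG : G.Ok) (hT : ∀ j, 0 ≤ P.Tf j)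
    (hj : (j + 1) % 3 = 0) (l : P.LdT I G j t nD' ε' π0)
    (h : P.BxP I G j t nD' ε' π0 t1 R0 R1 R2 R3 nD nA nP ε) :
    (P.lev I G).InB G j (fun s => (P.Base (j + 1) s ∧ G.Bk (P.bx (j + 1)) s.Z) ∧
      I.Cl (j / 3 + 1) t ∅ 0 s) (1 / 100) := by
  have r := h.rom
  have i2 : ∀ s : Cfg T Λ, s.cv.card ≤ P.nc →
      Kl I P.Sd (P.N j) P.nc 0 (j / 3) (t1 + 1 + 1) (image I.π) R3 s → P.In I j s :=
    fun s a b => ⟨⟨b.sup, b.sd⟩, by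
      rw [if_pos (by omega)]
      exact ⟨a, (b.mono le_rfl h.tI h.r3).cl⟩⟩
  refine ⟨fun s => s.cv.card ≤ P.nc ∧ Kl I P.Sd (P.N j) P.nc 0 (j / 3) t1 (image I.π) R0 s ∧
      Few I (j / 3) t nP nD s.Z,
    fun s => s.cv.card ≤ P.nc ∧ Kl I P.Sd (P.N j) P.nc 0 (j / 3) (t1 + 1) (image I.π) R0 s,
    P.bx (j + 1), P.N j, P.N j * (3 * nD * ε), fun s a => a.1.2, fun W hW => ?_⟩
  have c := l.tch hG hT hW le_rfl
  have hD := fun g => And.intro (hW g).1 (hW g).2.1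
  rw [show (j + 1) / 3 = j / 3 + 1 by omega] at c
  refine ⟨by norm_num, h.n2, fun s B F a => ⟨⟨a.1.1.mono subset_union_left,
    a.1.2.mono subset_union_left⟩, a.2.mono Subset.rfl subset_union_left le_rfl⟩, anti_In j,
    fun s a B b => ?_, fun s a => ⟨a.1, a.2.1.mono le_rfl (Nat.le_succ _) le_rfl⟩,
    fun s a => i2 s a.1 (a.2.mono le_rfl (Nat.le_succ _) (r.r1.trans (r.r2.trans r.r3))),
    fun s a => a.1.1, ?_, ?_⟩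
  · obtain ⟨F, e1, e2⟩ := box_cov (Sd := P.Sd) h.surj (h.box B b).1
      (fun v hv => a.1.1.2 v fun k => hv (mem_union_left _ k)) ((h.box B b).2 _) a.2 h.nc h.h1 h.r0
    exact ⟨F, e1, e2, (h.box B b).2 _⟩
  · refine (stepR hD c (h.anc.mono sn le_rfl le_rfl) ((h.f W hW).mono sn le_rfl le_rfl)
      ⟨r.d, by have := r.t; omega, r.r1, r.r2, r.r3⟩ h.nc h.h1 h.r0 h.hN (Fc := image I.π)
      (nD := nD) ?_ ?_ ?_).mono h.n1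
    exacts [fun s a => ⟨⟨a.2.1.sup, ⟨a.2.1.sd, sup_le' a.2.1.sup h.hN⟩, a.2.1.card, a.2.1.cl⟩, a.2.2⟩,
      fun s a => a.2, fun s x a b => ⟨a.1, a.2.1.add b⟩]
  · exact stepM c.std hD (h.f W hW) h.alv r (fun s a => a.2)
      fun s x a b => i2 _ a.1 (a.2.add b)

variable (P I G) in
/-- **all inputs of the ladder of level `j + 1 ≥ 2`.** -/
def LadD (j : ℕ) (x : ℝ) : Prop :=
  (∃ Y ws near Z κ' ε0 ε q δ η R1 R2 nD Bn n1 n2 k0 Km,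
    P.TkP I G j x Y ws near Z κ' ε0 ε q δ η R1 R2 nD Bn n1 n2 k0 Km) ∧
  ∃ st k nD Nn ε π0 π δ, P.LdP I G j st k nD Nn ε π0 π δ ∧
    if (j + 1) % 3 = 0 then ∃ t1 R0 R1 R2 R3 nD' nA nP ε',
      P.BxP I G j (P.tB (j + 1) st k) nD ε π0 t1 R0 R1 R2 R3 nD' nA nP ε'
    else P.N (j + 1) ≤ P.N j ∧ P.tB (j + 1) st k ≤ P.tI j

theorem LadD.ladIn (hG : G.Ok) (hT : ∀ j, 0 ≤ P.Tf j) (hj : j ≠ 0)
    (hy : (P.lev I G).y j ≤ (P.lev I G).y (j + 1)) (h : P.LadD I G j x) :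
    (P.lev I G).LadIn G j (P.Pre I G (j + 1)) (P.Post I (j + 1)) x := by
  obtain ⟨⟨_, _, _, _, _, _, _, _, _, _, _, _, _, _, _, _, _, _, a⟩,
    st, k, nD, Nn, ε, π0, π, δ, b, c⟩ := h
  obtain ⟨a1, a2, a3⟩ := a.inT hG hT hy
  rw [Lev.LadIn, if_neg hj]
  refine ⟨a1, a2, a3, ?_⟩
  split_ifs at c ⊢ with h3
  · obtain ⟨_, _, _, _, _, _, _, _, _, c⟩ := c
    refine ⟨_, b.ld hG hT fun s A e1 e2 => ⟨⟨e1.1.1, e1.1.2 h3⟩, ?_⟩, c.inB hG hT h3 b.stp⟩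
    rwa [show (j + 1) / 3 = j / 3 + 1 by omega] at e2
  · refine b.ld hG hT fun s A e1 e2 => ⟨⟨sup_le' e1.1.1.1 c.1, e1.1.1.2⟩, ?_⟩
    rw [if_neg (by omega), show j / 3 = (j + 1) / 3 by omega]
    exact e2.mono Subset.rfl Subset.rfl c.2

end Par

end Crest.Agent.N337.M
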