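import Crest.Agent.N337.M.Defs

/-!
# Row 337, the top (helper49): colourings as families of loops, the statistic `NG`
-/

set_option autoImplicit false
set_option linter.unusedSectionVars false

namespace Crest.Agent.N337.M

open Finset Equiv Crest.Agent.N337.Rep Crest.Agent.N337.Op Crest.Agent.N337.Gas Crest.Agent.N337.A

variable {Λ : Type} [Fintype Λ] [DecidableEq Λ] {T : ℕ} [NeZero T] {ex ey : Fin T → Λ}
  {p : Fin T → ℝ} {ξ : Fin T → Bool} {A : Finset (Lp T Λ)} {K : ℕ}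

/-- the winding number, cut at `K`. -/
noncomputable def kw (K : ℕ) (g : Lp T Λ) : ℝ := if wd g ≤ K then wd g else 0
/-- number of time-`0` points on short loops. -/
noncomputable def NG (K : ℕ) (A : Finset (Lp T Λ)) : ℝ := ∑ g ∈ A, kw K g

lemma kw_nn (K : ℕ) (g : Lp T Λ) : 0 ≤ kw K g := by unfold kw; split_ifs <;> positivity
lemma kw_le (K : ℕ) (g : Lp T Λ) : kw K g ≤ K := by
  unfold kw; split_ifs with h
  exacts [Nat.cast_le.2 h, Nat.cast_nonneg _]
lemma kw_le_wd (K : ℕ) (g : Lp T Λ) : kw K g ≤ wd g := by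
  unfold kw; split_ifs; exacts [le_rfl, Nat.cast_nonneg _]
lemma NG_nn (K : ℕ) (A : Finset (Lp T Λ)) : 0 ≤ NG K A := sum_nonneg fun g _ => kw_nn K g

/-- sums over loops weighted by the winding number are sums over time-`0` slots. -/
lemma sum_wd (hA : A ⊆ L ex ey ξ) (φ : Lp T Λ → ℝ) : ∑ g ∈ A, (wd g : ℝ) * φ g =
    ∑ x : Λ, if lp ex ey ξ (0, x) ∈ A then φ (lp ex ey ξ (0, x)) else 0 := by
  simp only [wd, card_filter, Nat.cast_sum, sum_mul]
  rw [sum_comm]
  refine sum_congr rfl fun x _ => ?_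
  rw [← sum_ite_eq]
  refine sum_congr rfl fun g hg => ?_
  by_cases h : (0, x) ∈ g.2
  · simp [h, (eq_lp (hA hg) h).symm]
  · rw [if_neg h, if_neg fun e => h (by rw [← e]; exact self_mem_obv _ _)]; simp

lemma sum_wd_le {S : Finset Λ} (hA : A ⊆ L ex ey ξ) (hS : ∀ g ∈ A, ∀ v ∈ g.2, v.2 ∈ S) :
    ∑ g ∈ A, (wd g : ℝ) ≤ S.card := by
  have := sum_wd hA fun _ => 1
  simp only [mul_one, sum_boole] at this
  rw [this]
  exact Nat.cast_le.2 (card_le_card fun x hx => hS _ (mem_filter.1 hx).2 _ (self_mem_obv _ _))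

lemma NG_le {S : Finset Λ} (hq : qq ex ey p A ≠ 0) (hS : ∀ g ∈ A, ∀ v ∈ g.2, v.2 ∈ S) :
    NG K A ≤ S.card := by
  obtain ⟨ξ, -, hA⟩ := qq_supp hq
  exact (sum_le_sum fun g _ => kw_le_wd K g).trans (sum_wd_le hA hS)

variable (ex ey) in
/-- the down loops of a colouring. -/
noncomputable def dB (ξ : Fin T → Bool) (D : Fin T × Λ → Bool) : Finset (Lp T Λ) :=
  (univ.filter fun v => D v = true).image (lp ex ey ξ)

lemma dB_sub (D : Fin T × Λ → Bool) : dB ex ey ξ D ⊆ L ex ey ξ :=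
  image_subset_image (filter_subset _ _)

lemma mem_dB {D : Fin T × Λ → Bool} (h : Cl ex ey ξ D) {v : Fin T × Λ} :
    lp ex ey ξ v ∈ dB ex ey ξ D ↔ D v = true := by
  simp only [dB, mem_image, mem_filter, mem_univ, true_and]
  exact ⟨fun ⟨u, a, b⟩ => h.eq_of_o (lp_eq_iff.1 b) ▸ a, fun a => ⟨v, a, rfl⟩⟩

/-- **the loop model as a gas.** -/
theorem EE_gas (b : Fin T × Λ → ℝ) {H : Perm (Fin T × Λ) → (Fin T × Λ → Bool) → ℝ}
    {F : Finset (Lp T Λ) → ℝ} (h : ∀ ξ D, Cl ex ey ξ D → H (Sg ex ey ξ) D = F (dB ex ey ξ D)) :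
    Top.EE ex ey p b H = ∑ A, gw (qq ex ey p) (ub b) A * F A := by
  classical
  rw [sum_gw, Top.EE]
  refine sum_congr rfl fun ξ _ => congrArg _ ?_
  rw [← sum_filter]
  refine sum_bij' (fun D _ => dB ex ey ξ D) (fun A _ v => decide (lp ex ey ξ v ∈ A))
    (fun D _ => mem_powerset.2 (dB_sub D)) (fun A _ => ?_) (fun D hD => ?_) (fun A hA => ?_)
    fun D hD => ?_
  · simp only [mem_filter, mem_univ, true_and]
    intro v
    rw [lp_eq_iff.2 (o_apply _ v)]
  · funext v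
    exact Bool.eq_iff_iff.2 (by rw [decide_eq_true_eq, mem_dB (mem_filter.1 hD).2])
  · ext g
    simp only [dB, mem_image, mem_filter, mem_univ, true_and, decide_eq_true_eq]
    refine ⟨fun ⟨v, a, b⟩ => b ▸ a, fun hg => ?_⟩
    obtain ⟨v, rfl⟩ := mem_L.1 (mem_powerset.1 hA hg)
    exact ⟨v, hg, rfl⟩
  · have hD : Cl ex ey ξ D := (mem_filter.1 hD).2
    rw [h ξ D hD, zd, ← prod_filter]
    congr 1
    rw [show (univ.filter fun v => D v = true) = (dB ex ey ξ D).biUnion Prod.snd from ?_,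
      prod_biUnion fun g hg g' hg' hne => disjoint_left.2 fun v a b =>
        hne (L_eq (dB_sub D hg) (dB_sub D hg') a b)]
    · rfl
    · ext v
      simp only [mem_filter, mem_univ, true_and, mem_biUnion]
      exact ⟨fun a => ⟨_, (mem_dB hD).2 a, self_mem_obv _ _⟩,
        fun ⟨g, a, b⟩ => (mem_dB hD).1 (eq_lp (dB_sub D a) b ▸ a)⟩

lemma Ns_eq {D : Fin T × Λ → Bool} (h : Cl ex ey ξ D) :
    (Top.Ns K (Sg ex ey ξ) D : ℝ) = NG K (dB ex ey ξ D) := by
  have e : ∀ g : Lp T Λ, kw K g = wd g * if wd g ≤ K then 1 else 0 := fun g => by simp [kw]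
  simp only [NG, e, sum_wd (dB_sub D), mem_dB h, Top.Ns, card_filter, Nat.cast_sum]
  refine sum_congr rfl fun x _ => ?_
  have : wd (lp ex ey ξ (0, x)) = Top.wnd (Sg ex ey ξ) (0, x) := by
    simp only [wd, Top.wnd, lp_snd, mem_obv]
  rw [this]
  by_cases a : D (0, x) = true <;> by_cases b : Top.wnd (Sg ex ey ξ) (0, x) ≤ K <;> simp [a, b]

/-- a loop that avoids the complement of non adjacent blocks lies in one block. -/
lemma in_blk {ι : Type} {B : ι → Finset Λ} (hB : Apart ex ey B) {g : Lp T Λ}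
    (hg : g ∈ L ex ey ξ) (h : ∀ v ∈ g.2, ∃ i, v.2 ∈ B i) : ∃ i, In (B i) g := by
  obtain ⟨v, rfl⟩ := mem_L.1 hg
  obtain ⟨i, hi⟩ := h v (self_mem_obv _ _)
  refine ⟨i, ⟨v, self_mem_obv _ _⟩, fun u hu => ?_⟩
  obtain ⟨k, -, rfl⟩ := (o_eq.1 (mem_obv.1 hu).symm).exists_pow_eq'
  clear hu
  induction k with
  | zero => exact hi
  | succ k ih =>
    obtain ⟨j, hj⟩ := h (((Sg ex ey ξ) ^ (k + 1)) v) (mem_obv.2 (o_pow _ _ _))
    rw [pow_succ', Perm.mul_apply] at hj ⊢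
    generalize ((Sg ex ey ξ) ^ k) v = u at ih hj
    obtain ⟨s, x⟩ := u
    simp only [Sg_apply, sg] at hj ih ⊢
    split_ifs at hj ⊢
    · rw [swap_apply_def] at hj ⊢
      split_ifs at hj ⊢ with a b
      · exact hB.2 i j s (a ▸ ih) hj ▸ hj
      · exact hB.2 j i s hj (b ▸ ih) ▸ hj
      · exact ih
    · exact ih

/-- the variance of `NG` on a closed fibre. -/
theorem var_blk {ι : Type} [Fintype ι] [DecidableEq ι] {B : ι → Finset Λ} (hB : Apart ex ey B)
    (hp : ∀ s, 0 ≤ p s ∧ p s ≤ 1) {u : Lp T Λ → ℝ} (hu : ∀ g, 0 ≤ u g) {S : Finset Λ} {c : ℝ}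
    (c0 : 0 ≤ c) (hc : ∀ i, ((B i).card : ℝ) ≤ c)
    (hs : ∀ g, u g ≠ 0 → ∀ v ∈ g.2, v.2 ∈ S ∧ ∃ i, v.2 ∈ B i) :
    var (nu (qq ex ey p) u) (NG K) ≤ c * S.card := by
  classical
  have hq := cpt_qq (ex := ex) (ey := ey) hp
  set u' := on (fun g => ∃ i, In (B i) g) u with hu'
  have u0 : ∀ g, 0 ≤ u' g := on_nn hu
  have u1 : ∀ g, u' g ≠ 0 → u g ≠ 0 ∧ ∃ i, In (B i) g := fun g h => by
    simp only [hu', on] at h
    split_ifs at h with a
    exacts [⟨h, a⟩, absurd rfl h]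
  rw [nu_congr (u' := u') hq fun g hg => ?_]
  swap
  · obtain ⟨ξ, -, h⟩ := qq_supp hg
    by_cases h0 : u g = 0
    · simp [hu', on, h0]
    · exact (if_pos (in_blk hB (h (mem_singleton_self g)) fun v hv => (hs g h0 v hv).2)).symm
  rw [var_prod (B := fun i => In (B i)) hB.uniq (fun g h => (u1 g h).2) (hB.qq_prod hp)]
  set ν := fun i => nu (qq ex ey p) (on (In (B i)) u') with hν
  have pν : ∀ i, Pr (ν i) := fun i => pr_nu hq (on_nn u0)
  have sν : ∀ i A, ν i A ≠ 0 → qq ex ey p A ≠ 0 ∧ ∀ g ∈ A, In (B i) g ∧ u g ≠ 0 := fun i A h =>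
    ⟨(nu_supp h).1, fun g hg => by
      have := (nu_supp h).2 g hg
      unfold on at this
      split_ifs at this with a
      exacts [⟨a, (u1 g this).1⟩, absurd rfl this]⟩
  have h1 := res_tens_le pν (fun i => (pν i).proj_ek) fun ω => NG K (un ω)
  rw [tens_ek, ap_ek] at h1
  refine h1.trans (le_trans (sum_le_sum (g := fun i => c * ((B i ∩ S).card : ℝ)) fun i _ => ?_) ?_)
  · rw [← (pr_pm pν).ex_const (c * _)]
    refine ex_mono_ae (pr_pm pν).nn fun ω hω => ?_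
    refine ((pν i).var_le_sub (fun x => NG K (un (Function.update ω i x))) (NG K (unx ω i))).trans ?_
    rw [nsq_eq_ex, ← (pν i).ex_const (c * _)]
    refine ex_mono_ae (pν i).nn fun x hx => ?_
    obtain ⟨a1, a2⟩ := sν i x hx
    have hd : Disjoint (unx ω i) x := disjoint_left.2 fun g hg hg' => by
      obtain ⟨j, hj, hg⟩ := mem_biUnion.1 hg
      exact (mem_erase.1 hj).1 (hB.uniq j i g
        ((sν j _ (prod_ne_zero_iff.1 hω j (mem_univ j))).2 g hg).1 (a2 g hg').1)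
    have h2 := NG_le (K := K) (S := B i ∩ S) a1 fun g hg v hv =>
      mem_inter.2 ⟨(a2 g hg).1.2 v hv, (hs g (a2 g hg).2 v hv).1⟩
    have h3 : ((B i ∩ S).card : ℝ) ≤ c := (Nat.cast_le.2 (card_le_card inter_subset_left)).trans (hc i)
    have h4 := NG_nn K x
    rw [un_update, NG, sum_union hd, ← NG, ← NG, add_sub_cancel_left]
    nlinarith
  · rw [← mul_sum, ← Nat.cast_sum, ← card_biUnion fun i _ j _ hij => disjoint_left.2 fun x a b =>
      hij (hB.1 i j x (mem_inter.1 a).1 (mem_inter.1 b).1)]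
    exact mul_le_mul_of_nonneg_left (Nat.cast_le.2 (card_le_card
      (biUnion_subset.2 fun i _ => inter_subset_right))) c0

end Crest.Agent.N337.M
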