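import Crest.Agent.N337.M.Cls
import Crest.Agent.N337.M.Peel
import Crest.Agent.N337.M.TopA

/-!
# Row 337, the top (helper49): two top colours are revealed one after the other
-/

set_option autoImplicit false
set_option linter.unusedSectionVars false

namespace Crest.Agent.N337.M.Tl

open Finset Crest.Agent.N337.Op Crest.Agent.N337.Gas Crest.Agent.N337.A

section abs
variable {Γ : Type} [Fintype Γ] [DecidableEq Γ] {q : Finset Γ → ℝ} {u D E : Γ → ℝ}
  {A : Finset Γ}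

/-- compatibility weights after the medium is summed out. -/
def qs (q : Finset Γ → ℝ) (u : Γ → ℝ) (A : Finset Γ) : ℝ :=
  ∑ w, if Disjoint A w then q (A ∪ w) * ∏ g ∈ w, u g else 0

/-- mean over the top colour. -/
noncomputable def hx (q : Finset Γ → ℝ) (u D : Γ → ℝ) (f : Finset Γ → ℝ) : ℝ :=
  ex (nu (qL q) (Pc.two u D)) fun X => f (fg (Pc.hi X))

lemma hx_eq (q : Finset Γ → ℝ) (u D : Γ → ℝ) (f : Finset Γ → ℝ) :
    hx q u D f = (∑ A, gw (qs q u) D A * f A) / gZ q fun g => u g + D g := by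
  rw [hx, ex_nu, gZ_forget, Pc.tot_two, Pc.sum_lab, sum_comm]
  congr 1
  refine sum_congr rfl fun A _ => ?_
  simp only [Pc.gw_lab, Pc.fg_hi_lab]
  simp only [gw, qs, sum_mul]
  exact sum_congr rfl fun w _ => by split_ifs <;> ring

lemma qs_zero (hq : Cpt q) (h : q A = 0) (u : Γ → ℝ) (B : Finset Γ) : qs q u (A ∪ B) = 0 :=
  sum_eq_zero fun w _ => by
    have : q (A ∪ B ∪ w) = 0 := by
      by_contra h1; exact hq.ne_of_sub (subset_union_left.trans subset_union_left) h1 h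
    simp only [this, zero_mul, ite_self]

lemma qs_sh (h : q A ≠ 0) (u : Γ → ℝ) (B : Finset Γ) :
    qs q u (A ∪ B) = q A * qs (sh q A) (off (· ∈ A) u) B := by
  simp only [qs, mul_sum, Pc.prod_off, sh, disjoint_union_left, union_assoc]
  refine sum_congr rfl fun w _ => ?_
  by_cases h1 : Disjoint A w <;> by_cases h2 : Disjoint B w <;> simp [h1, h2]
  field_simp

/-- **the tower of two top colours.** -/
theorem hx_tower (hq : Cpt q) (hu : ∀ g, 0 ≤ u g) (hD : ∀ g, 0 ≤ D g) (f : Finset Γ → ℝ) :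
    hx q u (fun g => D g + E g) f = hx q (fun g => u g + D g) E fun A =>
      hx (sh q A) (off (· ∈ A) u) (off (· ∈ A) D) fun B => f (A ∪ B) := by
  rw [hx_eq, hx_eq]
  simp only [add_assoc]
  congr 1
  rw [← Pc.tot_two, ← sum_forget, Pc.sum_lab, sum_comm]
  refine sum_congr rfl fun A _ => ?_
  simp only [Pc.gw_lab, Pc.fg_lab]
  by_cases h : q A = 0
  · have := qs_zero hq h (fun g => u g + D g) ∅
    rw [union_empty] at this
    simp [qs_zero hq h, gw, this]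
  have e : (fun g => off (· ∈ A) u g + off (· ∈ A) D g) = off (· ∈ A) fun g => u g + D g := by
    funext g; unfold off; split_ifs <;> simp
  have z := (Gas.gZ_pos (hq.sh h) (off_nn (Q := (· ∈ A)) fun g => add_nonneg (hu g) (hD g))).ne'
  have e1 := qs_sh h (fun g => u g + D g) ∅
  rw [union_empty, show qs (sh q A) (off (· ∈ A) fun g => u g + D g) ∅ =
    gZ (sh q A) (off (· ∈ A) fun g => u g + D g) by simp [qs, gZ, gw]] at e1
  rw [hx_eq, e, gw, e1, mul_right_comm (q A), mul_assoc, mul_div_cancel₀ _ z, mul_sum]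
  refine sum_congr rfl fun B _ => ?_
  rw [gw, Pc.prod_off, qs_sh h]
  split_ifs <;> ring

end abs

variable {Λ : Type} [Fintype Λ] [DecidableEq Λ] {T : ℕ} [NeZero T] {G : Bs T Λ} {s : Cfg T Λ}
  {W : Lp T Λ → ℝ} {y y' : ℝ}

lemma hE_eq (f : Finset (Lp T Λ) → ℝ) :
    G.hE W y s f = hx (G.q s) (s.u (yw y)) (s.u fun g => W g - yw y g) f := rfl

lemma hE_child (hG : G.Ok) (hs : G.Val s) {A : Finset (Lp T Λ)} (hA : G.Val (s.add A))
    (f : Finset (Lp T Λ) → ℝ) : hx (sh (G.q s) A) (off (· ∈ A) (s.u (yw y')))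
      (off (· ∈ A) (s.u fun g => W g - yw y' g)) f = G.hE W y' (s.add A) f := by
  rw [hx, Bs.hE, Pl.sh_q hs hA]
  congr 1
  refine nu_congr (hG.cpt _).qL fun y hy => ?_
  have h1 : G.q (s.add A) {y.1} ≠ 0 := by simpa [fg] using (qL_supp hy).2
  simp only [Pc.two, ← Pl.off_u hs hA _ h1]

/-- **junk steps compose.** -/
theorem stepH_comp {In Mid Out : Cfg T Λ → Prop} {ε ε' : ℝ} (hG : G.Ok) (h0 : 0 ≤ y')
    (hy : y' ≤ y) (hW : ∀ g, yw y g ≤ W g) (e0 : 0 ≤ ε') (h1 : G.StepH W y In Mid ε)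
    (h2 : G.StepH (yw y) y' Mid Out ε') : G.StepH W y' In Out (ε + ε') := by
  classical
  intro s hs hI
  have d0 : ∀ g : Lp T Λ, 0 ≤ yw y g - yw y' g := fun g => by
    rw [yw_eq, yw_eq]; exact sub_nonneg.2 (pow_le_pow_left₀ h0 hy _)
  have e1 : (s.u fun g => W g - yw y' g) =
      fun g => s.u (fun g => yw y g - yw y' g) g + s.u (fun g => W g - yw y g) g := by
    funext g; simp only [Cfg.u, off]; split_ifs <;> ring
  have hp : Pr (Pl.m2 G W y s) := pr_nu (hG.cpt s).qL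
    (Pc.two_nn (Cfg.u_nn (yw_nn (h0.trans hy)) s) (Cfg.u_nn (fun g => sub_nonneg.2 (hW g)) s))
  have hv : ∀ X, Pl.m2 G W y s X ≠ 0 → G.Val (s.add (fg (Pc.hi X))) := fun X hX =>
    hs.add ((hG.cpt s).ne_of_sub (fg_mono (filter_subset _ X)) (qL_supp (nu_supp hX).1).2)
  refine le_trans (le_of_eq ?_) ((ex_mono_ae hp.nn (f := fun X => G.hE (yw y) y'
    (s.add (fg (Pc.hi X))) (Op.ind fun B => ¬ Out ((s.add (fg (Pc.hi X))).add B)))
    (g := fun X => Op.ind (fun A => ¬ Mid (s.add A)) (fg (Pc.hi X)) + ε') fun X hX => ?_).trans ?_)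
  · rw [hE_eq, e1, hx_tower (hG.cpt s) (Cfg.u_nn (yw_nn h0) s) (Cfg.u_nn d0 s), Pl.tot_u]
    refine ex_congr fun X hX => ?_
    refine (hE_child hG hs (hv X hX) _).trans (congrArg _ (funext fun B => ?_))
    simp only [Op.ind, Cfg.add_add]
  · by_cases hm : Mid (s.add (fg (Pc.hi X)))
    · exact (h2 _ (hv X hX) hm).trans (le_add_of_nonneg_left (ind_nn _ _))
    · have hp' : Pr (Pl.m2 G (yw y) y' (s.add (fg (Pc.hi X)))) := pr_nu (hG.cpt _).qL
        (Pc.two_nn (Cfg.u_nn (yw_nn h0) _) (Cfg.u_nn d0 _))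
      refine ((ex_mono hp'.nn fun _ => ind_le_one _ _).trans_eq (hp'.ex_const 1)).trans ?_
      rw [Op.ind, if_pos hm]; linarith
  · rw [ex_add, hp.ex_const]
    exact add_le_add (h1 s hs hI) le_rfl

/-- the tilted weight is admissible. -/
lemma admW_tw {V : Lev T Λ} {j K : ℕ} {t : ℝ} (h : ∀ j, 0 ≤ V.Tf j) (hj : j ≠ 0)
    (hy : V.y j ≤ V.y (j + 1)) (t0 : 0 ≤ t) (h1 : t * K ≤ 1 / 3) (h2 : t * V.Tf j ≤ 1)
    (h3 : 2 * K ≤ V.Tf j) : V.AdmW j (tw (V.y (j + 1)) t K) := fun g => by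
  have a0 := V.y_nn (j + 1)
  have a1 := pow_le_pow_left₀ (V.y_nn j) hy (wd g)
  have a3 : V.y (j + 1) ^ wd g ≤ 1 := pow_le_one₀ a0 (Lev.y_le_one h _)
  have a2 := pow_nonneg a0 (wd g)
  have a7 : (0 : ℝ) ≤ wd g := Nat.cast_nonneg _
  have a4 : (1 - V.y j ^ wd g) * V.Tf j ≤ wd g := by
    rcases (h j).eq_or_lt with h1 | h1
    · rw [← h1]; simp
    rw [← le_div_iff₀ h1, Lev.y, if_neg hj, ← Real.exp_nat_mul]
    have := Real.add_one_le_exp (wd g * (-1 / V.Tf j))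
    rw [show (wd g : ℝ) * (-1 / V.Tf j) + 1 = 1 - wd g / V.Tf j by ring] at this
    linarith
  have hT := h j
  simp only [tw, yw_eq]
  split_ifs with hk
  · have b0 : (wd g : ℝ) ≤ K := Nat.cast_le.2 hk
    have b1 : t * wd g ≤ 1 / 3 := (mul_le_mul_of_nonneg_left b0 t0).trans h1
    have b2 : 0 ≤ t * wd g := mul_nonneg t0 a7
    have b3 : Real.exp (t * wd g) ≤ 1 + 3 / 2 * (t * wd g) := by
      have := Real.exp_bound_div_one_sub_of_interval b2 (by linarith)
      rw [le_div_iff₀ (by linarith)] at this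
      nlinarith [Real.exp_pos (t * wd g)]
    have b4 := Real.one_le_exp b2
    have b5 : V.y (j + 1) ^ wd g * Real.exp (t * wd g) ≤
        V.y (j + 1) ^ wd g + 3 / 2 * (t * wd g) := by nlinarith
    refine ⟨by nlinarith, ?_, ?_⟩
    · have : 1 / 2 ≤ V.y j ^ wd g := by
        rcases hT.eq_or_lt with h4 | h4
        · have : wd g = 0 := by
            have : (wd g : ℝ) ≤ 0 := by linarith
            exact_mod_cast le_antisymm this a7
          rw [this]; norm_num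
        · by_contra h5
          nlinarith
      linarith
    · nlinarith [mul_le_mul_of_nonneg_right (by linarith : V.y (j + 1) ^ wd g *
        Real.exp (t * wd g) - V.y j ^ wd g ≤ (1 - V.y j ^ wd g) + 3 / 2 * (t * wd g)) hT,
        mul_le_mul_of_nonneg_right h2 a7]
  · rw [Nat.cast_zero, mul_zero, Real.exp_zero, mul_one]
    refine ⟨by linarith, by linarith [pow_nonneg (V.y_nn j) (wd g)], ?_⟩
    nlinarith [mul_le_mul_of_nonneg_right (by linarith : V.y (j + 1) ^ wd g - V.y j ^ wd g ≤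
      1 - V.y j ^ wd g) hT]

/-- `Lev.top` with a free error. -/
theorem top' {V : Lev T Λ} (hP : PeelStmt) (hM : MonoStmt) (hZ : ZeroStmt) (hG : G.Ok)
    (h0 : V.Tf 0 = 0) (h : ∀ j, 0 ≤ V.Tf j) (hy : ∀ j, V.y j ≤ V.y (j + 1)) (e0 : 0 ≤ V.e 0) {J : ℕ}
    (hS : ∀ j ≤ J, V.Step G j) (hW : V.AdmW J W) (hs : V.Pre (J + 1) s) {ε : ℝ} (hε : 0 ≤ ε)
    (hH : G.StepH W (V.y J) (fun s' => s' = s) (V.Post (J + 1)) ε) :
    G.LP W (fun s' => s' = s) (V.σ (J + 1)) (400 * (1 + c1)) 20 (110 * ε + V.e (J + 1)) := by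
  have S := hS J le_rfl
  have W0 : ∀ g, 0 ≤ W g := fun g => by linarith [(hW g).1, yw_nn (V.y_nn J) g]
  have a1 := hP _ _ G W _ _ 2 (fun s' => s' = s) _ (V.σ (J + 1)) hG (V.y_nn J) (Lev.y_le_one h J)
    (by norm_num) le_rfl S.anti (fun s' v e =>
      S.lad (Lev.lp hP hM hZ hG h0 h hy e0 J fun j hj => hS j hj.le) W hW s' v (e ▸ hs)) hH
  have a2 := comp _ _ G W _ _ _ _ _ _ _ _ _ _ _ _ hG W0 (by norm_num) (by norm_num [c1])
    (by norm_num) (by positivity) S.e0 a1 S.fin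
  exact hM _ _ G W _ _ _ _ _ _ _ _ _ _ _ _ _ hG W0 (fun _ h => h) (fun _ h => h) le_rfl le_rfl
    (by norm_num) (le_of_eq (by ring)) a2

end Crest.Agent.N337.M.Tl
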