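import Crest.Agent.N337.M.TiltA
import Crest.Agent.N337.Ld.Abs
import Crest.Agent.N337.A.Fast

/-!
# Row 337, the top (helper49): the coins of the tilted gas are slow
-/

set_option autoImplicit false
set_option linter.unusedSectionVars false

namespace Crest.Agent.N337.M.Tl

open Finset Crest.Agent.N337.Rep Crest.Agent.N337.Op Crest.Agent.N337.Gas Crest.Agent.N337.A

/-- probability of an event. -/
noncomputable def pb {Ω : Type} [Fintype Ω] (P : Ω → ℝ) (A : Ω → Prop) : ℝ :=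
  Op.ex P (@Op.ind _ A (Classical.decPred _))

lemma pb_le_sum {Ω ι : Type} [Fintype Ω] {P : Ω → ℝ} (hP : ∀ ω, 0 ≤ P ω) (I : Finset ι)
    {A : Ω → Prop} {A' : ι → Ω → Prop} (h : ∀ ω, A ω → ∃ i ∈ I, A' i ω) :
    pb P A ≤ ∑ i ∈ I, pb P (A' i) := by
  classical exact (Ld.pl_ex hP).union I fun ω _ => h ω

variable {Λ : Type} [Fintype Λ] [DecidableEq Λ] {T : ℕ} [NeZero T] {ex ey : Fin T → Λ}
  {p : Fin T → ℝ} {w u D : Lp T Λ → ℝ}

variable (ex ey) in
/-- the law of the coins. -/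
noncomputable def cl (p : Fin T → ℝ) (w : Lp T Λ → ℝ) (ξ : Fin T → Bool) : ℝ :=
  Pw p ξ * (∏ g ∈ L ex ey ξ, (1 + w g)) / gZ (qq ex ey p) w

lemma lw_nn (hw : ∀ g, 0 ≤ w g) (S : Finset (Lp T Λ)) : 0 ≤ ∏ g ∈ S, (1 + w g) :=
  prod_nonneg fun g _ => by linarith [hw g]

lemma pr_cl (hp : ∀ s, 0 ≤ p s ∧ p s ≤ 1) (hw : ∀ g, 0 ≤ w g) : Pr (cl ex ey p w) where
  nn ξ := div_nonneg (mul_nonneg (Pw_nonneg hp ξ) (lw_nn hw _)) (Gas.gZ_pos (cpt_qq hp) hw).le
  one := by simp only [cl, ← sum_div, ← gZ_qq]; exact div_self (Gas.gZ_pos (cpt_qq hp) hw).ne'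

lemma qs_qq (A : Finset (Lp T Λ)) : qs (qq ex ey p) u A =
    ∑ ξ, Pw p ξ * if A ⊆ L ex ey ξ then ∏ g ∈ L ex ey ξ \ A, (1 + u g) else 0 := by
  have : ∀ w : Finset (Lp T Λ), (if Disjoint A w then qq ex ey p (A ∪ w) * ∏ g ∈ w, u g else 0) =
      ∑ ξ, Pw p ξ * if A ⊆ L ex ey ξ then
        (if w ∈ (L ex ey ξ \ A).powerset then ∏ g ∈ w, u g else 0) else 0 := fun w => by
    simp only [qq, sum_mul, mem_powerset, subset_sdiff, union_subset_iff, disjoint_comm (a := w)]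
    split_ifs with h
    · exact sum_congr rfl fun ξ _ => by
        by_cases a : A ⊆ L ex ey ξ <;> by_cases b : w ⊆ L ex ey ξ <;> simp [a, b, h]
    · simp [h]
  simp only [qs, this]
  rw [sum_comm]
  refine sum_congr rfl fun ξ _ => ?_
  rw [← mul_sum, prod_one_add]
  split_ifs
  · rw [sum_ite_mem, univ_inter]
  · simp

/-- **coins first, then independent marks.** -/
theorem hx_coin (hu : ∀ g, 0 ≤ u g) (hD : ∀ g, 0 ≤ D g) (f : Finset (Lp T Λ) → ℝ) :
    hx (qq ex ey p) u D f = Op.ex (cl ex ey p fun g => u g + D g) fun ξ =>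
      Pe.av (fun g => D g / (1 + (u g + D g))) (L ex ey ξ) f := by
  simp only [hx_eq, gw, qs_qq, sum_mul, Op.ex, cl, div_mul_eq_mul_div, ← sum_div]
  rw [sum_comm]
  congr 1
  refine sum_congr rfl fun ξ _ => ?_
  rw [Pe.av, mul_sum, ← sum_subset (subset_univ (L ex ey ξ).powerset) fun A _ h => by
    rw [mem_powerset] at h; simp [h]]
  refine sum_congr rfl fun A h => ?_
  have h := mem_powerset.1 h
  rw [if_pos h, ← mul_assoc, mul_assoc (Pw p ξ), mul_assoc (Pw p ξ) (∏ g ∈ L ex ey ξ, _), Pe.wt,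
    ← prod_mul_distrib, ← prod_sdiff h]
  congr 3
  · refine prod_congr rfl fun g hg => ?_
    have : 1 + (u g + D g) ≠ 0 := by linarith [hu g, hD g]
    rw [if_neg (mem_sdiff.1 hg).2]; field_simp; ring
  · refine prod_congr rfl fun g hg => ?_
    have : 1 + (u g + D g) ≠ 0 := by linarith [hu g, hD g]
    rw [if_pos hg]; field_simp

lemma lw_upd (hw : ∀ g, 0 ≤ w g ∧ w g ≤ 7 / 5) (ξ : Fin T → Bool) (s : Fin T) (c : Bool) :
    ∏ g ∈ L ex ey ξ, (1 + w g) ≤ 6 * ∏ g ∈ L ex ey (Function.update ξ s c), (1 + w g) := by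
  rw [← prod_filter_mul_prod_filter_not _ fun g : Lp T Λ => tch ex ey g.2 s]
  refine mul_le_mul ?_ (prod_le_prod_of_subset_of_one_le (fun g hg => ?_)
    (fun g _ => by linarith [(hw g).1]) fun g _ _ => by linarith [(hw g).1])
    (lw_nn (fun g => (hw g).1) _) (by norm_num)
  · have h1 : ((L ex ey ξ).filter fun g => tch ex ey g.2 s).card ≤ 2 :=
      (card_le_card (t := {lp ex ey ξ (s, ex s), lp ex ey ξ (s, ey s)}) fun g hg => by
        obtain ⟨h1, h2⟩ := mem_filter.1 hg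
        simpa using h2.imp (eq_lp h1) (eq_lp h1)).trans card_le_two
    refine (prod_le_prod (g := fun _ => 12 / 5) (fun g _ => by linarith [(hw g).1])
      fun g _ => by linarith [(hw g).2]).trans ?_
    rw [prod_const]
    exact (pow_le_pow_right₀ (by norm_num) h1).trans (by norm_num)
  · obtain ⟨h1, h2⟩ := mem_filter.1 hg
    exact (mem_L_iff h1).2 fun r hr => Function.update_of_ne (by rintro rfl; exact h2 hr) _ _

lemma cl_coin (hp : ∀ s, 0 ≤ p s ∧ p s ≤ 1) (hw : ∀ g, 0 ≤ w g ∧ w g ≤ 7 / 5) (s : Fin T)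
    {φ : (Fin T → Bool) → ℝ} (h0 : ∀ ξ, 0 ≤ φ ξ) (hφ : ∀ ξ c, φ (Function.update ξ s c) = φ ξ) :
    Op.ex (cl ex ey p w) (fun ξ => (if ξ s = true then 1 else 0) * φ ξ) ≤
      6 * p s * Op.ex (cl ex ey p w) φ := by
  have hi : Function.Involutive fun ξ : Fin T → Bool => Function.update ξ s (!ξ s) := fun ξ => by
    simp
  have e : Op.ex (cl ex ey p w) φ = ∑ ξ, (if ξ s = true then 1 else 0) *
      (cl ex ey p w ξ + cl ex ey p w (Function.update ξ s (!ξ s))) * φ ξ := by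
    simp only [mul_add, add_mul, sum_add_distrib]
    conv_rhs => rw [← Equiv.sum_comp hi.toPerm (fun ξ => _ * cl ex ey p w (Function.update ξ s _) * _)]
    rw [← sum_add_distrib]
    refine sum_congr rfl fun ξ _ => ?_
    simp only [Function.Involutive.coe_toPerm, Function.update_self, hφ, Function.update_idem,
      Bool.not_not, Function.update_eq_self]
    cases ξ s <;> simp
  rw [e, mul_sum]
  refine sum_le_sum fun ξ _ => ?_
  beta_reduce
  cases h : ξ s
  · simp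
  have e1 := lw_upd (ex := ex) (ey := ey) hw ξ s false
  have e2 := Bs.Pw_update p ξ s true
  rw [← h, Function.update_eq_self, h] at e2
  have hR : 0 ≤ ∏ r ∈ univ.erase s, wb (p r) (ξ r) := prod_nonneg fun r _ => wb_nonneg (hp r) _
  have hZ := Gas.gZ_pos (cpt_qq (ex := ex) (ey := ey) hp) fun g => (hw g).1
  have hX := lw_nn (fun g => (hw g).1) (L ex ey ξ)
  simp only [cl, Bool.not_true, Bs.Pw_update, e2, if_true, one_mul]
  rw [← mul_assoc (6 * p s)]
  refine mul_le_mul_of_nonneg_right ?_ (h0 ξ)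
  rw [← add_div, ← mul_div_assoc]
  refine div_le_div_of_nonneg_right ?_ hZ.le
  simp only [wb, if_true, Bool.false_eq_true, if_false] at hR ⊢
  generalize ∏ r ∈ univ.erase s, (if ξ r = true then p r else 1 - p r) = R at hR ⊢
  have a := mul_nonneg (hp s).1 hR
  nlinarith [mul_le_mul_of_nonneg_left e1 (mul_nonneg a (sub_nonneg.2 (hp s).2)),
    mul_nonneg (mul_nonneg a (hp s).1) hX]

/-- finite energy for the coins. -/
theorem cl_coins (hp : ∀ s, 0 ≤ p s ∧ p s ≤ 1) (hw : ∀ g, 0 ≤ w g ∧ w g ≤ 7 / 5)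
    (S : Finset (Fin T)) : pb (cl ex ey p w) (fun ξ => ∀ s ∈ S, ξ s = true) ≤ ∏ s ∈ S, 6 * p s := by
  have e : ∀ S : Finset (Fin T), pb (cl ex ey p w) (fun ξ => ∀ s ∈ S, ξ s = true) =
      Op.ex (cl ex ey p w) fun ξ => if ∀ s ∈ S, ξ s = true then 1 else 0 := fun S =>
    ex_congr fun ξ _ => by unfold Op.ind; congr
  rw [e]
  induction S using Finset.induction_on with
  | empty => simp [(pr_cl hp fun g => (hw g).1).ex_const]
  | insert s S hs ih =>
    have h1 := cl_coin (ex := ex) (ey := ey) hp hw s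
      (φ := fun ξ => if ∀ r ∈ S, ξ r = true then 1 else 0) (fun ξ => by split_ifs <;> norm_num)
      fun ξ c => if_congr (forall₂_congr fun r hr => by
        rw [Function.update_of_ne (ne_of_mem_of_not_mem hr hs)]) rfl rfl
    rw [prod_insert hs]
    refine le_trans (le_of_eq (ex_congr fun ξ _ => ?_))
      (h1.trans (mul_le_mul_of_nonneg_left ih (by linarith [(hp s).1])))
    simp only [forall_mem_insert, ite_and]
    split_ifs <;> simp

open Classical in
theorem pb_ch {d : Λ → Λ → ℕ} {M : Mdl T Λ} {P : (Fin T → Bool) → ℝ} {r ns : ℕ}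
    {τ : Fin T → ℕ} {c : ℝ} (hw : ∀ ξ, 0 ≤ P ξ) (hp : ∀ s, 0 ≤ M.p s) (hm : Monotone τ)
    (hτ : ∀ s, τ s < ns) (hc : 40 * c ≤ 1)
    (hs : ∀ x j, ∑ s ∈ univ.filter (fun s =>
      τ s = j ∧ ¬ Cheap ex ey d M s ∧ d x (ex s) ≤ r), M.p s ≤ c)
    (hT : ∀ S : Finset (Fin T), pb P (fun ξ => ∀ s ∈ S, ξ s = true) ≤ ∏ s ∈ S, 6 * M.p s) (k : ℕ) :
    ∀ (t j : ℕ) (x : Λ) (S : Finset (Fin T)), j ≤ ns → (∀ s : Fin T, t ≤ s.val → j ≤ τ s) →
      (∀ s ∈ S, s.val < t) →
      pb P (fun ξ => (∀ s ∈ S, ξ s = true) ∧ Fast.Ch ex ey d M r ξ k t x) ≤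
        (∏ s ∈ S, 6 * M.p s) * Real.exp (40 * c * (ns - j) - k) := by
  induction k with
  | zero =>
    intro t j x S hj _ hS
    have h0 : 0 ≤ c := (sum_nonneg fun s _ => hp s).trans (hs x 0)
    have hP : 0 ≤ ∏ s ∈ S, 6 * M.p s := prod_nonneg fun s _ => by linarith [hp s]
    simp only [Fast.Ch, and_true]
    refine (hT S).trans (le_mul_of_one_le_right hP (Real.one_le_exp ?_))
    have : (j : ℝ) ≤ ns := by exact_mod_cast hj
    simp only [Nat.cast_zero, sub_zero]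
    exact mul_nonneg (by linarith) (by linarith)
  | succ k ih =>
    intro t j x S hj ht hS
    have h0 : 0 ≤ c := (sum_nonneg fun s _ => hp s).trans (hs x 0)
    have hP : 0 ≤ ∏ s ∈ S, 6 * M.p s := prod_nonneg fun s _ => by linarith [hp s]
    set I : Finset (Fin T) := univ.filter fun s => t ≤ s.val ∧ ¬ Cheap ex ey d M s ∧ d x (ex s) ≤ r
      with hI
    set φ : ℕ → ℝ := fun i => Real.exp (40 * c * (ns - i) - k) with hφ
    refine (pb_le_sum hw I (A' := fun s ξ => (∀ s' ∈ insert s S, ξ s' = true) ∧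
      Fast.Ch ex ey d M r ξ k (s.val + 1) (ex s)) ?_).trans ?_
    · rintro ω ⟨a, s, b1, b2, b3, b4, b5⟩
      exact ⟨s, mem_filter.2 ⟨mem_univ _, b1, b2, b3⟩, (forall_mem_insert _ _ _).2 ⟨b4, a⟩, b5⟩
    refine (sum_le_sum (g := fun s => (∏ s ∈ S, 6 * M.p s) * (6 * M.p s * φ (τ s)))
      fun s hs => ?_).trans ?_
    · have hs := (mem_filter.1 hs).2
      have hn : s ∉ S := fun h => by have := hS s h; omega
      refine (ih (s.val + 1) (τ s) (ex s) (insert s S) (hτ s).le (fun s' h => hm ?_)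
        ((forall_mem_insert _ _ _).2 ⟨by omega, fun s' h => by have := hS s' h; omega⟩)).trans ?_
      · exact Fin.le_def.2 (by omega)
      · rw [prod_insert hn]; exact le_of_eq (by simp only [hφ]; ring)
    rw [← mul_sum]
    refine mul_le_mul_of_nonneg_left ?_ hP
    rw [← sum_fiberwise_of_maps_to fun s hs => mem_Ico.2 ⟨ht s (mem_filter.1 hs).2.1, hτ s⟩]
    refine (sum_le_sum (g := fun i => Real.exp (-1) * (φ i - φ (i + 1))) fun i _ => ?_).trans ?_
    · have b1 : ∑ s ∈ I with τ s = i, 6 * M.p s * φ (τ s) =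
          6 * (∑ s ∈ I with τ s = i, M.p s) * φ i := by
        rw [mul_sum, sum_mul]
        exact sum_congr rfl fun s hs => by rw [(mem_filter.1 hs).2]
      have b2 : ∑ s ∈ I with τ s = i, M.p s ≤ c := by
        refine le_trans (sum_le_sum_of_subset_of_nonneg (fun s hs => ?_) fun s _ _ => hp s) (hs x i)
        simp only [hI, mem_filter, mem_univ, true_and] at hs ⊢
        exact ⟨hs.2, hs.1.2.1, hs.1.2.2⟩
      have b3 : φ (i + 1) = Real.exp (40 * c * (ns - i) - k - 40 * c) := by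
        simp only [hφ]; push_cast; ring_nf
      rw [b1, b3]
      exact le_trans (mul_le_mul_of_nonneg_right (by linarith) (Real.exp_pos _).le)
        (Fast.step_le h0 hc _)
    rw [← mul_sum, Fast.tele φ j ns hj]
    have : 0 < φ ns := Real.exp_pos _
    have e : Real.exp (40 * c * (ns - j) - ((k + 1 : ℕ) : ℝ)) = Real.exp (-1) * φ j := by
      simp only [hφ]; rw [← Real.exp_add]; push_cast; ring_nf
    rw [e]
    exact mul_le_mul_of_nonneg_left (by linarith) (Real.exp_pos _).le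

/-- **active paths of the tilted gas are slow.** -/
theorem cl_slow {d : Λ → Λ → ℕ} {K : ℝ} {S : Finset Λ} (f : ℕ) (hd : Met ex ey d)
    (hp : ∀ s, 0 ≤ p s ∧ p s ≤ 1 / 2) (hw : ∀ g, 0 ≤ w g ∧ w g ≤ 7 / 5)
    (hR : Rate ex ey d ⟨p, fun _ => 0⟩ 2 K) :
    pb (cl ex ey p w) (fun ξ => ¬ Slow ex ey d (Act ex ey d ξ) (fun u => u.2 ∈ S) f) ≤
      S.card * Real.exp (40 * K - f) := by
  have hp1 : ∀ s, 0 ≤ p s ∧ p s ≤ 1 := fun s => ⟨(hp s).1, by linarith [(hp s).2]⟩
  have hP := (pr_cl (ex := ex) (ey := ey) hp1 fun g => (hw g).1).nn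
  obtain ⟨-, ns, τ, c, hm, hτ, hc, hcK, hs⟩ := hR
  have hW : Slow ex ey d (Cheap ex ey d ⟨p, fun _ => 0⟩) (fun u => u.2 ∈ S) 0 := by
    intro s t γ a b e
    induction t, a using Nat.le_induction with
    | base => exact (hd.1 _).le
    | succ t a ih =>
      have h1 := ih (by omega) (e.sub le_rfl (by omega))
      have h2 := hd.2.2.1 (γ s) (γ t) (γ (t + 1))
      rcases (e ⟨t, b⟩ a (by simp)).2 with h | ⟨h | h, h3⟩
      · rwa [h]
      · exact absurd (show p ⟨t, b⟩ = 1 from h) (by linarith [(hp ⟨t, b⟩).2])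
      · have h4 := hd.2.1 (ex ⟨t, b⟩) (ey ⟨t, b⟩)
        have h5 : d (γ t) (γ (t + 1)) = 0 := by
          simp only [Equiv.swap_apply_def] at h3
          split_ifs at h3 with h6 h7
          exacts [h3 ▸ h6 ▸ h, h3 ▸ h7 ▸ h4 ▸ h, h3 ▸ hd.1 _]
        omega
  refine (pb_le_sum hP S (A' := fun x ξ => (∀ s ∈ (∅ : Finset (Fin T)), ξ s = true) ∧
    Fast.Ch ex ey d ⟨p, fun _ => 0⟩ 2 ξ f 0 x) fun ξ h => ?_).trans ?_
  · unfold Slow at h
    push Not at h
    obtain ⟨s, t, γ, a, b, e, g⟩ := h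
    have hst : s < t := a.lt_of_ne fun h => by rw [h, hd.1] at g; omega
    exact ⟨γ s, (e ⟨s, hst.trans_le b⟩ le_rfl hst).1, by simp, (Fast.ch_of_path hd hW ξ γ t b f s
      (γ s) a (by rw [hd.1]; omega) e (by omega)).anti (Nat.zero_le _)⟩
  refine (sum_le_card_nsmul _ _ _ fun x _ => pb_ch hP (fun s => (hp s).1) hm hτ hc hs
    (cl_coins hp1 hw) f 0 0 x ∅ (Nat.zero_le _) (fun _ _ => Nat.zero_le _) (by simp)).trans ?_
  simp only [prod_empty, one_mul, nsmul_eq_mul, Nat.cast_zero, sub_zero]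
  exact mul_le_mul_of_nonneg_left (Real.exp_le_exp.2 (by linarith)) (Nat.cast_nonneg _)

end Crest.Agent.N337.M.Tl
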