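import Crest.Agent.N337.M.Wd
import Crest.Agent.N337.C9.Ins
import Crest.Agent.N337.E.Glue
import Crest.Agent.N337.E.Dyn
import Crest.Agent.N337.G4.Que

/-!
# Row 337, the chain (helper87): the word package in the forms of the blocks

Every structure that mentions `w`, `θ` or the clock is produced from a structure of numbers.
-/

set_option autoImplicit false
set_option linter.unusedSectionVars false

namespace Crest.Agent.N337.M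

open Finset Crest.Agent.N337.Free Crest.Agent.N337.Gas Crest.Agent.N337.Top G1

/-- `Le.Ok` without the word. -/
structure LeN (F : I.Lf) (N : G4.Le.Ln) (n B ρ0 : ℕ) : Prop where
  hr : N.f + N.m + 1 ≤ F.r0
  j1 : 2 * (F.n1 * (N.f + n ^ 2)) ≤ F.j1
  dl : F.A + (N.f + N.m) + N.d ≤ F.dl
  τ : 1 ≤ N.τ ∧ N.τ * N.k ≤ F.l1
  Lg : N.Lg + F.l ≤ B
  ρ0 : 3 * F.r0 + 3 ≤ ρ0
  o : 0 ≤ N.o

/-- with this value and `w = 0` the cost `cC` has the exponent `168 n² + 1 - f`. -/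
noncomputable def θ0 (n m : ℕ) : ℝ := (168 * n ^ 2 + 1) / (56 * (1 + m))

lemma cC_θ0 (F : I.Lf) (N : G4.Le.Ln) (n B : ℕ) : G4.Le.cC F N n B 0 (θ0 n N.m) =
    B * (n * (2 * ((2 * F.r0 + 2 : ℕ) : ℝ) + 1) ^ 3) * Real.exp (168 * n ^ 2 + 1 - N.f) := by
  rw [G4.Le.cC, θ0]; congr 3; push_cast; field_simp; ring

/-- `Wk.Nm0` without the word (`e` = Trotter error). -/
structure Nm00 (L0 : ℕ) (N : Wk.Lq) (F : I.Lf) (n x0 : ℕ) : Prop where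
  m : N.m ≤ F.n1 + 1
  W : N.f + 27 * (2 * N.t * F.j1 + x0) ≤ N.W
  ρ : (2 * F.l + 1) * N.W + 1 ≤ 2 * F.r0
  c : 21 * (n : ℝ) ^ 2 + 1 ≤ N.c
  j1 : x0 + 2 * (N.m * N.f + N.m * n ^ 2) ≤ F.j1
  dl : N.m * (F.A + F.l * N.W + 1) ≤ F.dl
  l1 : 0 < N.τ ∧ N.m * (N.τ * N.k) ≤ F.l1
  hL : 16 * (F.r0 + 1) ≤ L0
  g1 : ∃ (P : Scales) (j : ℕ), P.Ok L0 ∧ (11 * P.ρ 0 + 6 ≤ F.A ∧ F.A ≤ P.η 0) ∧
    P.η 0 ≤ 2 * F.r0 + 1 ∧ 2 * (N.t + 1) * F.n1 ≤ P.a 0 ∧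
    P.a 0 + 2 * (2 * (N.t + 1) * F.j1 + (x0 + 2 * N.m)) ≤ j ∧ j ≤ L0 ∧
    (j * (n * (2 * (2 * F.A + N.W) + 1) ^ 3) : ℕ) *
      (Cg (8 * n ^ 2) * (Cc P F.A 1 1 / N.τ + 1 / L0)) ≤ N.Γ

/-- `Wk.NmE` without the word. -/
structure NmE0 (L0 : ℕ) (N : Wk.Lv) (P : I.Num) (G : Tr.Eg) (η : ℕ → ℝ) (lo : ℕ → ℕ)
    (n d B x0 : ℕ) : Prop where
  n0 : Nm00 L0 N.toLq P.toLf n x0
  hG : 0 < G.mt ∧ G.D = P.D ∧ G.n1 ≤ N.m ∧ N.R P.toLf ≤ G.r0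
  r0 : 2 * P.r0 + 1 ≤ G.A 0 ∧ 8 * N.ρ P.toLf ≤ G.σ 0
  ht : P.k0 + 27 + d ≤ N.t ∧ 2 * N.t * P.j1 ≤ P.r0
  hρ : ∀ m, (N.t + 1) * P.a * (2 * P.rad m N.t + 1) + 3 * N.t * P.H m ≤ P.ρ (m + 1)
  rm : ∀ m < G.mt, lo m + N.Wm P x0 m ≤ G.lo m ∧ N.ρm P x0 m (lo m) ≤ G.A m ∧
    8 * N.ρm P x0 m (lo m) ≤ G.σ (m + 1)
  cm : ∀ m < G.mt, N.v P m ≤ L0 ∧ 21 * (n : ℝ) ^ 2 * (2 * N.v P m + 1) ^ 3 + 1 ≤ N.cm m
  η0 : 0 ≤ N.Γ ∧ (B * (n * (2 * N.ρ P.toLf + 1) ^ 3) : ℕ) * Real.exp (N.c - N.f) +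
    (B * ((P.r0 + 1) * (N.m * (n * (2 * N.R P.toLf + 1) ^ 3 + 1) ^ N.m *
      (n * (2 * N.R P.toLf + 1) ^ 3))) : ℕ) * ((N.τ * 2 ^ (P.l / N.τ + 1) : ℕ) * (2 * N.Γ ^ N.k)) ≤ η 0
  ηm : ∀ m < G.mt, (B * (n * (2 * N.ρm P x0 m (lo m) + 1) ^ 3) : ℕ) * Real.exp (N.cm m - N.fm m) ≤
    η (m + 1)

variable {L n : ℕ} [NeZero L] [NeZero n] {β Y : ℝ} {w : ℕ} {sy : List (Sl L n × Sl L n × ℝ)}
  {F : I.Lf} {L0 t x0 j : ℕ} {P : Scales}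

namespace Wd
variable (W : Wd β w sy) (hD : F.D = Dw w sy)
include W hD

/-- for C9 (purple fugacity `y ≤ Y`). -/
theorem wr (h1 : 1 / 2 ≤ Y) (h2 : Y < 1) {y : ℝ} (h3 : 0 ≤ y) (h4 : y ≤ Y) :
    C9.Wr (wdT β w sy Y) (GT β w sy) F y :=
  ⟨W.ok, rfl, W.gl hD h1 h2, rfl, bt_le h4, h3, h4.trans_lt h2⟩

/-- for `E/Glue`. -/
theorem wv (h1 : 1 / 2 ≤ Y) (h2 : Y < 1) (h : Nu0 L0 F P t x0 j) (hL : L0 ≤ L) :
    Tb.Wv P (Top.ex β w sy) (Top.ey β w sy) (pp β w sy) (wdT β w sy Y).b0 Y F t x0 j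
      (lay sy).length (w + 1) (Bw β) (wdT β w sy Y).q (8 * n ^ 2) (wdT β w sy Y).Bd :=
  have a := W.gl hD h1 h2
  have b := W.nu h hL Y
  ⟨a.nn, a.clock, a.pers, a.hD, b.fine, a.hY, a.h0, b.ok, b.hm, b.hj, b.hr, b.hA, b.ht, b.h1, b.h2⟩

/-- for the leaves of the engine. -/
theorem wk (hl : 1 ≤ F.l ∧ F.l < Bw β) {p : Fin (TT β w sy) → ℝ} {E : I.Ev L n (TT β w sy)}
    {X0 : Finset (I.V L n (TT β w sy))} (hp : ∀ s, 0 ≤ p s ∧ p s ≤ 1)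
    (fr : ∀ s, ¬ tch (Top.ex β w sy) (Top.ey β w sy) E.1 s → p s = pp β w sy s)
    (rp : I.Rp (Top.ex β w sy) (Top.ey β w sy) p E.1 (E.2 ∪ X0)) (h0 : X0.card ≤ x0) :
    Wk.Md (Top.ex β w sy) (Top.ey β w sy) F p (pp β w sy) E X0 (lay sy).length (w + 1) (Bw β) x0
      (θw n w) := ⟨W.word, W.blk, hD, hl, hp, fr, rp, h0⟩

/-- for the leaves of G4. -/
theorem le {N : G4.Le.Ln} {ρ0 : ℕ} (h : LeN F N n (Bw β) ρ0) :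
    G4.Le.Ok (Top.ex β w sy) (Top.ey β w sy) F N (pp β w sy) (lay sy).length (w + 1) (Bw β)
      (θw n w) ρ0 := ⟨W.word, W.θ50, W.blk, hD, h.hr, h.j1, h.dl, h.τ, h.Lg, h.ρ0, h.o⟩

omit hD in
theorem cC_le (F : I.Lf) {N : G4.Le.Ln} (h : N.m + 1 ≤ L) (B : ℕ) :
    G4.Le.cC F N n B (w + 1) (θw n w) ≤ G4.Le.cC F N n B 0 (θ0 n N.m) := by
  rw [cC_θ0, G4.Le.cC]
  have := W.θ_win (c := 56) (k := N.m + 1) (r := 0) (by norm_num)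
    (h.trans (Nat.le_self_pow two_ne_zero L)) (Nat.zero_le _)
  gcongr
  push_cast at this ⊢
  linarith

omit hD in
theorem qn {α κ : Type} [SemilatticeSup α] [Preorder κ] {S : Rg.Sys (Tor 3 L) α κ} {G : Tr.Eg}
    {Q : G4.Rs.Gp} {Pz : G4.Rs.Pz} {N : G4.Le.Ln} {K : G4.Qu.Qn} {B : ℕ} {c : ℝ} (hm : N.m + 1 ≤ L)
    (h : G4.Qu.QN S G Q Pz F N K n B 0 (θ0 n N.m) c) :
    G4.Qu.QN S G Q Pz F N K n B (w + 1) (θw n w) c :=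
  { h with short := ⟨h.short.1, h.short.2.1, h.short.2.2.1, le_trans
      (by have := W.cC_le F hm B; linarith) h.short.2.2.2⟩ }

theorem nm0 {N : Wk.Lq} (h : Nm00 L0 N F n x0) (hL : L0 ≤ L) :
    Wk.Nm0 (Top.ex β w sy) (Top.ey β w sy) N F (pp β w sy) (lay sy).length (w + 1) (Bw β) x0
      (θw n w) := by
  have h1 := W.θ50
  have h2 := θw_nn n w
  have h3 : 27 * (2 * N.t * F.j1 + x0) ≤ L ^ 2 := by
    have := h.W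
    have := h.ρ
    have := h.hL
    have : N.W ≤ (2 * F.l + 1) * N.W := Nat.le_mul_of_pos_left _ (by omega)
    exact le_trans (by omega) (Nat.le_self_pow two_ne_zero L)
  have h4 := W.θ_win (c := 7) (r := 0) (by norm_num) h3 (Nat.zero_le _)
  obtain ⟨P, j, a1, a2, a3, a4, a5, a6, a7⟩ := h.g1
  obtain ⟨K, k1, k2, k3⟩ := dyad_vol (h.hL.trans hL)
  have L0' : (0 : ℝ) < L0 := by exact_mod_cast (by have := h.hL; omega : 0 < L0)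
  have hL' : (L0 : ℝ) ≤ L := by exact_mod_cast hL
  have h5 : (16 : ℝ) ≤ L := by exact_mod_cast (by have := h.hL; omega : 16 ≤ L)
  have e := W.er_le (Y := 1 / 2) (by norm_num) (by linarith) (one_div_le_one_div_of_le L0' hL')
  refine ⟨h.m, h.W, h.ρ, by linarith, le_trans (by simpa using h4.trans_eq (by ring)) h.c, h.j1,
    h.dl, h.l1, P, _, _, _, j, K, scales_mono a1 hL,
    (W.gl (Y := 1 / 2) hD le_rfl (by norm_num)).clock, a2, a4, a5,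
    W.fine (a6.trans (hL.trans (Nat.le_self_pow two_ne_zero L))), k1, a3.trans k2, k3,
    le_trans (mul_le_mul_of_nonneg_left (mul_le_mul_of_nonneg_left (add_le_add le_rfl e) ?_)
      (Nat.cast_nonneg _)) a7⟩
  exact Cg_nonneg (W.gl (Y := 1 / 2) hD le_rfl (by norm_num)).clock.hκ

omit hD in
theorem nmE {N : Wk.Lv} {Q : I.Num} {G : Tr.Eg} {η : ℕ → ℝ} {lo : ℕ → ℕ} {d : ℕ}
    (hD : Q.D = Dw w sy) (h : NmE0 L0 N Q G η lo n d (Bw β) x0) (hL : L0 ≤ L) :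
    Wk.NmE (Top.ex β w sy) (Top.ey β w sy) N Q G η lo (pp β w sy) d (lay sy).length (w + 1) (Bw β)
      x0 (θw n w) := by
  refine ⟨W.nm0 hD h.n0 hL, h.hG, h.r0, h.ht, h.hρ, h.rm, fun m hm => ?_, h.η0, h.ηm⟩
  have h1 := (h.cm m hm).1.trans hL
  have h2 : x0 ≤ L ^ 2 := by
    have := h.n0.W
    have := h.n0.ρ
    have := h.n0.hL
    have : N.W ≤ (2 * Q.l + 1) * N.W := Nat.le_mul_of_pos_left _ (by omega)
    exact le_trans (by omega) (Nat.le_self_pow two_ne_zero L)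
  have h3 := W.θ_le (c := 7) (k := 1) (by norm_num) (Nat.one_le_pow _ _ (NeZero.pos L)) h1
  exact ⟨by simpa using h3,
    le_trans ((W.θ_win (c := 7) (by norm_num) h2 h1).trans_eq (by push_cast; ring)) (h.cm m hm).2⟩

end Wd

end Crest.Agent.N337.M
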